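import Vale.Agent.P290Z.Lat.Spec

/-! P290Z, part III, lattice: basic facts on isometries, transvections and orbit closures. -/

open Set Matrix
open scoped ComplexConjugate

namespace Vale.Agent.P290Z.Lat

open Vale.Agent.P290.H726

variable {ι ι' ι'' κ : Type}

section vec

variable {R : Type} [CommRing R]

@[simp] theorem cs_int (x : ι → ℤ) : cs ℤ x = x := rfl

theorem cs_add (x y : ι → ℤ) : cs R (x + y) = cs R x + cs R y := by
  ext i; simp [cs]

theorem cs_sub (x y : ι → ℤ) : cs R (x - y) = cs R x - cs R y := by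
  ext i; simp [cs]

theorem cs_neg (x : ι → ℤ) : cs R (-x) = -cs R x := by
  ext i; simp [cs]

theorem cs_zero : cs R (0 : ι → ℤ) = 0 := by
  ext i; simp [cs]

theorem cs_smul (a : ℤ) (x : ι → ℤ) : cs R (a • x) = (a : R) • cs R x := by
  ext i; simp [cs]

theorem cs_single [DecidableEq ι] (i : ι) (a : ℤ) :
    cs R (Pi.single i a) = Pi.single i (a : R) := by
  ext j; by_cases h : j = i
  · subst h; simp [cs]
  · simp [cs, h]

theorem cs_inj [CharZero R] {x y : ι → ℤ} (h : cs R x = cs R y) : x = y := by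
  ext i; exact Int.cast_injective (α := R) (congrFun h i)

theorem cr_cs (x : ι → ℤ) : cr (cs ℝ x) = cs ℂ x := by ext i; simp [cr, cs]

theorem cr_add (x y : ι → ℝ) : cr (x + y) = cr x + cr y := by ext i; simp [cr]

theorem cr_sub (x y : ι → ℝ) : cr (x - y) = cr x - cr y := by ext i; simp [cr]

theorem cr_smul (a : ℝ) (x : ι → ℝ) : cr (a • x) = (a : ℂ) • cr x := by ext i; simp [cr]

theorem vre_cr (x : ι → ℝ) : vre (cr x) = x := by ext i; simp [vre, cr]

theorem vim_cr (x : ι → ℝ) : vim (cr x) = 0 := by ext i; simp [vim, cr]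

theorem vcj_cr (x : ι → ℝ) : vcj (cr x) = cr x := by ext i; simp [vcj, cr]

theorem vcj_cs (x : ι → ℤ) : vcj (cs ℂ x) = cs ℂ x := by ext i; simp [vcj, cs]

theorem vcj_vcj (s : ι → ℂ) : vcj (vcj s) = s := by ext i; simp [vcj]

theorem vcj_smul (l : ℂ) (s : ι → ℂ) : vcj (l • s) = conj l • vcj s := by ext i; simp [vcj]

theorem vcj_add (s t : ι → ℂ) : vcj (s + t) = vcj s + vcj t := by ext i; simp [vcj]

theorem eq_vre_vim (s : ι → ℂ) : s = cr (vre s) + Complex.I • cr (vim s) := by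
  ext i; simp [cr, vre, vim, mul_comm Complex.I]

theorem vcj_eq (s : ι → ℂ) : vcj s = cr (vre s) - Complex.I • cr (vim s) := by
  ext i; apply Complex.ext <;> simp [cr, vre, vim, vcj]

theorem vre_pt (v : ι → ℤ) (b : ι → ℝ) : vre (pt v b) = cs ℝ v := by
  ext i; simp [vre, pt, cs, cr]

theorem vim_pt (v : ι → ℤ) (b : ι → ℝ) : vim (pt v b) = b := by
  ext i; simp [vim, pt, cs, cr]

theorem continuous_vcj : Continuous (vcj : (ι → ℂ) → ι → ℂ) :=
  continuous_pi fun i => Complex.continuous_conj.comp (continuous_apply i)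

theorem continuous_vre : Continuous (vre : (ι → ℂ) → ι → ℝ) :=
  continuous_pi fun i => Complex.continuous_re.comp (continuous_apply i)

theorem continuous_vim : Continuous (vim : (ι → ℂ) → ι → ℝ) :=
  continuous_pi fun i => Complex.continuous_im.comp (continuous_apply i)

theorem continuous_cr : Continuous (cr : (ι → ℝ) → ι → ℂ) :=
  continuous_pi fun i => Complex.continuous_ofReal.comp (continuous_apply i)

end vec

section act

variable [Fintype ι] [Fintype ι'] [Fintype ι''] {R : Type} [CommRing R]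

theorem act_eq (g : Matrix ι ι' ℤ) (x : ι' → R) :
    act g x = (g.map (Int.castRingHom R)) *ᵥ x := rfl

theorem act_int (g : Matrix ι ι' ℤ) (x : ι' → ℤ) : act g x = g *ᵥ x := rfl

theorem act_mul (g : Matrix ι ι' ℤ) (h : Matrix ι' ι'' ℤ) (x : ι'' → R) :
    act (g * h) x = act g (act h x) := by
  rw [act_eq, act_eq, act_eq, Matrix.map_mul, mulVec_mulVec]

theorem act_one [DecidableEq ι] (x : ι → R) : act (1 : Matrix ι ι ℤ) x = x := by
  rw [act_eq, Matrix.map_one _ (map_zero _) (map_one _), one_mulVec]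

theorem act_add (g : Matrix ι ι' ℤ) (x y : ι' → R) : act g (x + y) = act g x + act g y := by
  simp only [act_eq, mulVec_add]

theorem act_sub (g : Matrix ι ι' ℤ) (x y : ι' → R) : act g (x - y) = act g x - act g y := by
  simp only [act_eq, mulVec_sub]

theorem act_neg (g : Matrix ι ι' ℤ) (x : ι' → R) : act g (-x) = -act g x := by
  simp only [act_eq, mulVec_neg]

theorem act_zero (g : Matrix ι ι' ℤ) : act g (0 : ι' → R) = 0 := by
  simp only [act_eq, mulVec_zero]

theorem act_smul (g : Matrix ι ι' ℤ) (a : R) (x : ι' → R) : act g (a • x) = a • act g x := by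
  simp only [act_eq, mulVec_smul]

theorem act_sum {μ : Type} (g : Matrix ι ι' ℤ) (S : Finset μ) (x : μ → ι' → R) :
    act g (∑ a ∈ S, x a) = ∑ a ∈ S, act g (x a) := by
  simp only [act_eq, mulVec_sum]

theorem act_neg_one [DecidableEq ι] (x : ι → R) : act (-1 : Matrix ι ι ℤ) x = -x := by
  ext i; simp [act, one_apply]

theorem act_map {S : Type} [CommRing S] (f : R →+* S) (g : Matrix ι ι' ℤ) (x : ι' → R) :
    act g (fun i => f (x i)) = fun i => f (act g x i) := by
  ext i; simp [act]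

theorem act_cs (g : Matrix ι ι' ℤ) (x : ι' → ℤ) : act g (cs R x) = cs R (act g x) :=
  act_map (Int.castRingHom R) g x

theorem act_cr (g : Matrix ι ι' ℤ) (x : ι' → ℝ) : act g (cr x) = cr (act g x) :=
  act_map Complex.ofRealHom g x

theorem act_vcj (g : Matrix ι ι' ℤ) (s : ι' → ℂ) : act g (vcj s) = vcj (act g s) :=
  act_map (starRingEnd ℂ) g s

theorem vre_act (g : Matrix ι ι' ℤ) (s : ι' → ℂ) : vre (act g s) = act g (vre s) := by
  ext i; simp [vre, act]

theorem vim_act (g : Matrix ι ι' ℤ) (s : ι' → ℂ) : vim (act g s) = act g (vim s) := by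
  ext i; simp [vim, act]

theorem act_pt (g : Matrix ι ι' ℤ) (v : ι' → ℤ) (b : ι' → ℝ) :
    act g (pt v b) = pt (act g v) (act g b) := by
  rw [pt, act_add, act_smul, act_cs, act_cr, pt]

theorem act_single [DecidableEq ι'] (g : Matrix ι ι' ℤ) (j : ι') :
    act g (Pi.single j (1 : ℤ)) = fun i => g i j := by
  ext i; simp [act, Pi.single_apply]

theorem continuous_act [TopologicalSpace R] [IsTopologicalRing R] (g : Matrix ι ι' ℤ) :
    Continuous (act g : (ι' → R) → ι → R) :=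
  continuous_pi fun _ => continuous_finsetSum _ fun j _ =>
    continuous_const.mul (continuous_apply j)

theorem eq_of_act [DecidableEq ι'] {g h : Matrix ι ι' ℤ}
    (H : ∀ x : ι' → ℤ, act g x = act h x) : g = h := by
  ext i j
  have := congrFun (H (Pi.single j 1)) i
  rwa [act_single, act_single] at this

theorem bil_eq (G : Matrix ι ι ℤ) (x y : ι → R) : bil G x y = x ⬝ᵥ act G y := by
  simp only [bil, dotProduct, act, Finset.mul_sum]
  exact Finset.sum_congr rfl fun i _ => Finset.sum_congr rfl fun j _ => by ring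

theorem bil_cs (G : Matrix ι ι ℤ) (x y : ι → ℤ) :
    bil G (cs R x) (cs R y) = ((bil G x y : ℤ) : R) :=
  bil_map G (Int.castRingHom R) x y

theorem bil_cr (G : Matrix ι ι ℤ) (x y : ι → ℝ) : bil G (cr x) (cr y) = ((bil G x y : ℝ) : ℂ) :=
  bil_map G Complex.ofRealHom x y

theorem bil_vcj (G : Matrix ι ι ℤ) (x y : ι → ℂ) : bil G (vcj x) (vcj y) = conj (bil G x y) :=
  bil_map G (starRingEnd ℂ) x y

theorem bil_single [DecidableEq ι] (G : Matrix ι ι ℤ) (i j : ι) :
    bil G (Pi.single i (1 : ℤ)) (Pi.single j 1) = G i j := by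
  rw [bil_eq, act_single, single_dotProduct, one_mul]

theorem bil_sum_left {μ : Type} (G : Matrix ι ι ℤ) (S : Finset μ) (x : μ → ι → R) (y : ι → R) :
    bil G (∑ a ∈ S, x a) y = ∑ a ∈ S, bil G (x a) y := by
  simp only [bil_eq, sum_dotProduct]

theorem bil_sum_right {μ : Type} (G : Matrix ι ι ℤ) (S : Finset μ) (x : ι → R) (y : μ → ι → R) :
    bil G x (∑ a ∈ S, y a) = ∑ a ∈ S, bil G x (y a) := by
  simp only [bil_eq, act_sum, dotProduct_sum]

theorem bil_conj_mat (G : Matrix ι ι ℤ) (g h : Matrix ι ι' ℤ) (x y : ι' → R) :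
    bil (gᵀ * G * h) x y = bil G (act g x) (act h y) := by
  rw [bil_eq, bil_eq, act_mul, act_mul, act_eq gᵀ, act_eq g, transpose_map,
    dotProduct_mulVec, vecMul_transpose]

theorem continuous_bil [TopologicalSpace R] [IsTopologicalRing R] (G : Matrix ι ι ℤ) :
    Continuous fun q : (ι → R) × (ι → R) => bil G q.1 q.2 := by
  unfold bil
  fun_prop

/-- the products with a real vector -/
theorem bil_cr_right (G : Matrix ι ι ℤ) (s : ι → ℂ) (x : ι → ℝ) :
    bil G s (cr x) = (bil G (vre s) x : ℝ) + Complex.I * (bil G (vim s) x : ℝ) := by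
  conv_lhs => rw [eq_vre_vim s]
  rw [bil_add_left, bil_smul_left, bil_cr, bil_cr]

theorem bil_self_eq {G : Matrix ι ι ℤ} (hG : ∀ i j, G i j = G j i) (s : ι → ℂ) :
    bil G s s = (bil G (vre s) (vre s) - bil G (vim s) (vim s) : ℝ) +
      Complex.I * (2 * bil G (vre s) (vim s) : ℝ) := by
  conv_lhs => rw [eq_vre_vim s]
  simp only [bil_add_left, bil_add_right, bil_smul_left, bil_smul_right, bil_cr,
    bil_symm G hG (vim s) (vre s)]
  push_cast
  linear_combination ((bil G (vim s) (vim s) : ℝ) : ℂ) * Complex.I_mul_I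

theorem bil_vcj_eq {G : Matrix ι ι ℤ} (hG : ∀ i j, G i j = G j i) (s : ι → ℂ) :
    bil G s (vcj s) = (bil G (vre s) (vre s) + bil G (vim s) (vim s) : ℝ) := by
  rw [vcj_eq]
  conv_lhs => rw [eq_vre_vim s, vre_cr_add, vim_cr_add]
  simp only [bil_add_left, bil_sub_right, bil_smul_left, bil_smul_right, bil_cr,
    bil_symm G hG (vim s) (vre s)]
  push_cast
  linear_combination -((bil G (vim s) (vim s) : ℝ) : ℂ) * Complex.I_mul_I
where
  vre_cr_add {x y : ι → ℝ} : vre (cr x + Complex.I • cr y) = x := by ext i; simp [vre, cr]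
  vim_cr_add {x y : ι → ℝ} : vim (cr x + Complex.I • cr y) = y := by ext i; simp [vim, cr]

/-- periods in terms of the real and imaginary parts -/
theorem isPer_iff {G : Matrix ι ι ℤ} (hG : ∀ i j, G i j = G j i) (s : ι → ℂ) :
    IsPer G s ↔ bil G (vre s) (vre s) = bil G (vim s) (vim s) ∧ bil G (vre s) (vim s) = 0 ∧
      0 < bil G (vre s) (vre s) := by
  rw [IsPer, bil_self_eq hG, bil_vcj_eq hG, Complex.ext_iff]
  simp only [Complex.add_re, Complex.ofReal_re, Complex.mul_re, Complex.I_re, Complex.I_im,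
    Complex.ofReal_im, Complex.add_im, Complex.mul_im, Complex.zero_re, Complex.zero_im]
  constructor
  · rintro ⟨⟨h1, h2⟩, h3⟩
    exact ⟨by linarith, by linarith, by linarith⟩
  · rintro ⟨h1, h2, h3⟩
    exact ⟨⟨by linarith, by linarith⟩, by linarith⟩

theorem isPer_pt_iff {G : Matrix ι ι ℤ} (hG : ∀ i j, G i j = G j i) (v : ι → ℤ) (b : ι → ℝ) :
    IsPer G (pt v b) ↔ ((bil G v v : ℤ) : ℝ) = bil G b b ∧ bil G (cs ℝ v) b = 0 ∧
      0 < bil G v v := by
  rw [isPer_iff hG, vre_pt, vim_pt, bil_cs, Int.cast_pos]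

theorem IsPer.smul {G : Matrix ι ι ℤ} {s : ι → ℂ} (h : IsPer G s) {l : ℂ} (hl : l ≠ 0) :
    IsPer G (l • s) := by
  refine ⟨by rw [bil_smul_left, bil_smul_right, h.1, mul_zero, mul_zero], ?_⟩
  rw [vcj_smul, bil_smul_left, bil_smul_right, ← mul_assoc, Complex.mul_conj,
    Complex.re_ofReal_mul]
  exact mul_pos (Complex.normSq_pos.2 hl) h.2

theorem NoIso.smul {G : Matrix ι ι ℤ} {s : ι → ℂ} (h : NoIso G s) {l : ℂ} (hl : l ≠ 0) :
    NoIso G (l • s) := fun e he hs => by
  rw [bil_smul_left] at hs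
  exact h e he ((mul_eq_zero.1 hs).resolve_left hl)

omit [Fintype ι] in
theorem NoInt.smul {s : ι → ℂ} (h : NoInt s) (l : ℂ) : NoInt (l • s) := fun x l' hx =>
  h x (l' * l) (by rw [hx, smul_smul])

theorem ev_of_diag [DecidableEq ι] {G : Matrix ι ι ℤ} (hG : ∀ i j, G i j = G j i)
    (hd : ∀ i, Even (G i i)) : Ev G := by
  intro x
  have key : ∀ S : Finset ι, Even (∑ i ∈ S, ∑ j ∈ S, G i j * x i * x j) := by
    intro S
    induction S using Finset.induction_on with
    | empty => simp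
    | insert a S ha ih =>
      rw [Finset.sum_insert ha, Finset.sum_insert ha]
      simp only [Finset.sum_insert ha, Finset.sum_add_distrib]
      have h1 : ∑ i ∈ S, G i a * x i * x a = ∑ j ∈ S, G a j * x a * x j :=
        Finset.sum_congr rfl fun i _ => by rw [hG i a]; ring
      rw [h1, add_assoc, ← add_assoc (∑ j ∈ S, G a j * x a * x j)]
      exact (((hd a).mul_right _).mul_right _).add ((Even.add_self _).add ih)
  exact key Finset.univ

end act

section isom

variable [Fintype ι] [DecidableEq ι] [Fintype ι'] [DecidableEq ι'] [Fintype ι'']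
  [DecidableEq ι''] {R : Type} [CommRing R] {G : Matrix ι ι ℤ} {G' : Matrix ι' ι' ℤ}
  {G'' : Matrix ι'' ι'' ℤ} {g : Matrix ι ι' ℤ}

theorem Isom.bil (h : Isom G' G g) (x y : ι' → R) : bil G (act g x) (act g y) = bil G' x y := by
  rw [← h.form, bil_conj_mat]

theorem form_of_bil (H : ∀ x y : ι' → ℤ, bil G (act g x) (act g y) = bil G' x y) :
    gᵀ * G * g = G' := by
  ext i j
  rw [← bil_single (gᵀ * G * g), bil_conj_mat, H, bil_single]

theorem Isom.refl (G : Matrix ι ι ℤ) : Isom G G 1 := ⟨by simp, 1, by simp, by simp⟩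

theorem Isom.neg_one (G : Matrix ι ι ℤ) : Isom G G (-1) := ⟨by simp, -1, by simp, by simp⟩

theorem Isom.comp {g' : Matrix ι' ι'' ℤ} (h : Isom G' G g) (h' : Isom G'' G' g') :
    Isom G'' G (g * g') := by
  obtain ⟨k, hk1, hk2⟩ := h.inv
  obtain ⟨k', hk1', hk2'⟩ := h'.inv
  refine ⟨form_of_bil fun x y => by rw [act_mul, act_mul, h.bil, h'.bil], k' * k, ?_, ?_⟩
  · rw [Matrix.mul_assoc, ← Matrix.mul_assoc g', hk1', Matrix.one_mul, hk1]
  · rw [Matrix.mul_assoc, ← Matrix.mul_assoc k, hk2, Matrix.one_mul, hk2']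

theorem Isom.of_inv (h : Isom G' G g) {k : Matrix ι' ι ℤ} (h1 : g * k = 1) (h2 : k * g = 1) :
    Isom G G' k :=
  ⟨form_of_bil fun x y => by rw [← h.bil, ← act_mul, ← act_mul, h1, act_one, act_one], g, h2, h1⟩

/-- the inverse isometry -/
theorem Isom.symm (h : Isom G' G g) : ∃ k, Isom G G' k ∧ g * k = 1 ∧ k * g = 1 ∧
    (∀ (R : Type) [CommRing R] (x : ι → R), act g (act k x) = x) ∧
    ∀ (R : Type) [CommRing R] (x : ι' → R), act k (act g x) = x := by
  obtain ⟨k, h1, h2⟩ := h.inv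
  exact ⟨k, h.of_inv h1 h2, h1, h2, fun R _ x => by rw [← act_mul, h1, act_one],
    fun R _ x => by rw [← act_mul, h2, act_one]⟩

theorem Isom.act_inj (h : Isom G' G g) : Function.Injective (act g : (ι' → R) → ι → R) := by
  obtain ⟨k, -, -, -, -, h2⟩ := h.symm
  exact Function.LeftInverse.injective (h2 R)

theorem Isom.act_surj (h : Isom G' G g) : Function.Surjective (act g : (ι' → R) → ι → R) := by
  obtain ⟨k, -, -, -, h1, -⟩ := h.symm
  exact Function.RightInverse.surjective (h1 R)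

theorem Isom.act_eq_zero (h : Isom G' G g) {x : ι' → R} : act g x = 0 ↔ x = 0 :=
  ⟨fun hx => h.act_inj (by rw [hx, act_zero]), fun hx => by rw [hx, act_zero]⟩

theorem Equi.refl (G : Matrix ι ι ℤ) : Equi G G := ⟨1, Isom.refl G⟩

theorem Equi.symm (h : Equi G' G) : Equi G G' := by
  obtain ⟨g, hg⟩ := h
  obtain ⟨k, hk, -⟩ := hg.symm
  exact ⟨k, hk⟩

theorem Equi.trans (h' : Equi G'' G') (h : Equi G' G) : Equi G'' G := by
  obtain ⟨g, hg⟩ := h
  obtain ⟨g', hg'⟩ := h'
  exact ⟨g * g', hg.comp hg'⟩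

/-- isometries from linear equivalences -/
theorem isom_of_lin (φ : (ι' → ℤ) ≃ₗ[ℤ] (ι → ℤ)) (H : ∀ x y, bil G (φ x) (φ y) = bil G' x y) :
    ∃ g, Isom G' G g ∧ ∀ x, act g x = φ x := by
  have h1 : ∀ x, act (LinearMap.toMatrix' φ.toLinearMap) x = φ x := fun x => by
    rw [act_int, LinearMap.toMatrix'_mulVec]; rfl
  have h2 : ∀ x, act (LinearMap.toMatrix' φ.symm.toLinearMap) x = φ.symm x := fun x => by
    rw [act_int, LinearMap.toMatrix'_mulVec]; rfl
  refine ⟨_, ⟨form_of_bil fun x y => by rw [h1, h1, H], LinearMap.toMatrix' φ.symm.toLinearMap,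
    eq_of_act fun x => ?_, eq_of_act fun x => ?_⟩, h1⟩
  · rw [act_mul, h2, h1, act_one, φ.apply_symm_apply]
  · rw [act_mul, h1, h2, act_one, φ.symm_apply_apply]

/-- a matrix which preserves the forms and is bijective on integral vectors -/
theorem isom_of_bij (H : gᵀ * G * g = G') (hb : Function.Bijective (act g : (ι' → ℤ) → ι → ℤ)) :
    Isom G' G g := by
  obtain ⟨k, hk, h2⟩ := isom_of_lin (G := G) (G' := G')
    (LinearEquiv.ofBijective (Matrix.mulVecLin g) hb) (fun x y => by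
      rw [← H, bil_conj_mat]; rfl)
  rwa [eq_of_act (g := k) (h := g) h2] at hk

theorem Isom.card_eq (h : Isom G' G g) : Fintype.card ι' = Fintype.card ι := by
  have e : (ι' → ℤ) ≃ₗ[ℤ] (ι → ℤ) :=
    LinearEquiv.ofBijective (Matrix.mulVecLin g) ⟨h.act_inj (R := ℤ), h.act_surj (R := ℤ)⟩
  simpa using e.finrank_eq

theorem Isom.symm_of (h : Isom G' G g) (hG : ∀ i j, G i j = G j i) (i j : ι') :
    G' i j = G' j i := by
  rw [← bil_single G' i, ← bil_single G' j, ← h.bil, ← h.bil, bil_symm G hG]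

theorem Isom.ev (h : Isom G' G g) (hG : Ev G) : Ev G' := fun x => by
  rw [← h.bil]; exact hG _

theorem Isom.isPer (h : Isom G' G g) {s : ι' → ℂ} : IsPer G (act g s) ↔ IsPer G' s := by
  rw [IsPer, ← act_vcj, h.bil, h.bil, IsPer]

theorem Isom.noIso (h : Isom G' G g) {s : ι' → ℂ} (hs : NoIso G' s) : NoIso G (act g s) := by
  intro e he hse
  obtain ⟨e', rfl⟩ := h.act_surj e
  rw [h.bil] at he
  rw [← act_cs, h.bil] at hse
  rw [hs e' he hse, act_zero]

theorem Isom.noInt (h : Isom G' G g) {s : ι' → ℂ} (hs : NoInt s) : NoInt (act g s) := by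
  intro x l hx
  obtain ⟨x', rfl⟩ := h.act_surj x
  rw [← act_smul, vre_act, ← act_cs] at hx
  rw [hs x' l (h.act_inj hx), act_zero]

theorem Isom.prim (h : Isom G' G g) {v : ι' → ℤ} (hv : Prim G' v) : Prim G (act g v) := by
  obtain ⟨w, hw⟩ := hv
  exact ⟨act g w, by rw [h.bil, hw]⟩

theorem Isom.gen (h : Isom G' G g) {μ : Type} {m : μ → ι' → ℤ} {p : ι' → ℂ} (hp : Gen G' m p) :
    Gen G (fun a => act g (m a)) (act g p) := by
  intro y
  obtain ⟨y', rfl⟩ := h.act_surj y
  rw [← act_cs, h.bil, hp]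
  constructor
  · intro H z hz
    obtain ⟨z', rfl⟩ := h.act_surj z
    rw [h.bil]
    exact H z' fun a => by rw [← h.bil]; exact hz a
  · intro H z hz
    rw [← h.bil]
    exact H _ fun a => by rw [h.bil]; exact hz a

/-- the matrix of `x ↦ (x . a) b` -/
def rk1 (G : Matrix ι ι ℤ) (a b : ι → ℤ) : Matrix ι ι ℤ := vecMulVec b (G *ᵥ a)

omit [DecidableEq ι] in
theorem act_rk1 (G : Matrix ι ι ℤ) (a b : ι → ℤ) (x : ι → R) :
    act (rk1 G a b) x = bil G x (cs R a) • cs R b := by
  ext i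
  rw [bil_eq, act_cs]
  simp only [act, rk1, vecMulVec_apply, Pi.smul_apply, dotProduct, cs, smul_eq_mul,
    Finset.sum_mul, Int.cast_mul, mulVec, Int.cast_id]
  exact Finset.sum_congr rfl fun j _ => by ring

omit [DecidableEq ι] [Fintype ι] [DecidableEq ι'] in
theorem act_madd (g h : Matrix ι ι' ℤ) (x : ι' → R) : act (g + h) x = act g x + act h x := by
  ext i; simp [act, add_mul, Finset.sum_add_distrib]

omit [DecidableEq ι] [Fintype ι] [DecidableEq ι'] in
theorem act_msub (g h : Matrix ι ι' ℤ) (x : ι' → R) : act (g - h) x = act g x - act h x := by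
  ext i; simp [act, sub_mul]

omit [DecidableEq ι] [Fintype ι] [DecidableEq ι'] in
theorem act_msmul (a : ℤ) (g : Matrix ι ι' ℤ) (x : ι' → R) :
    act (a • g) x = (a : R) • act g x := by
  ext i; simp [act, Finset.mul_sum, mul_assoc]

/-- the matrix of the transvection -/
def tv (G : Matrix ι ι ℤ) (e a : ι → ℤ) (h : ℤ) : Matrix ι ι ℤ :=
  1 + rk1 G e a - rk1 G a e - h • rk1 G e e

theorem act_tv (G : Matrix ι ι ℤ) (e a : ι → ℤ) (h : ℤ) (x : ι → R) :
    act (tv G e a h) x = x + bil G x (cs R e) • cs R a - bil G x (cs R a) • cs R e -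
      ((h : R) * bil G x (cs R e)) • cs R e := by
  rw [tv, act_msub, act_msub, act_madd, act_one, act_rk1, act_rk1, act_msmul, act_rk1, smul_smul]

theorem isom_tv (hG : ∀ i j, G i j = G j i) {e a : ι → ℤ} {h : ℤ} (he : bil G e e = 0)
    (hea : bil G e a = 0) (ha : bil G a a = 2 * h) : Isom G G (tv G e a h) := by
  have hae : bil G a e = 0 := by rw [bil_symm G hG, hea]
  have key : ∀ a : ι → ℤ, bil G e a = 0 → bil G a a = 2 * h → tv G e a h * tv G e (-a) h = 1 := by
    intro a hea ha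
    have hae : bil G a e = 0 := by rw [bil_symm G hG, hea]
    refine eq_of_act fun x => ?_
    rw [act_mul, act_one, act_tv, act_tv]
    simp only [cs_int, bil_add_left, bil_sub_left, bil_smul_left, bil_neg_left, bil_neg_right,
      he, hea, hae, ha, Int.cast_id]
    module
  refine ⟨form_of_bil fun x y => ?_, tv G e (-a) h, key a hea ha, ?_⟩
  · rw [act_tv, act_tv]
    simp only [cs_int, bil_add_left, bil_sub_left, bil_smul_left, bil_add_right, bil_sub_right,
      bil_smul_right, he, hea, hae, ha, bil_symm G hG a y, bil_symm G hG e y, Int.cast_id]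
    ring
  · have := key (-a) (by rw [bil_neg_right, hea, neg_zero])
      (by rw [bil_neg_left, bil_neg_right, neg_neg, ha])
    rwa [neg_neg] at this

/-- Eichler transvections -/
theorem exists_tv (hG : ∀ i j, G i j = G j i) {e a : ι → ℤ} {h : ℤ} (he : bil G e e = 0)
    (hea : bil G e a = 0) (ha : bil G a a = 2 * h) : ∃ g, Isom G G g ∧
    ∀ (R : Type) [CommRing R] (x : ι → R), act g x = x + bil G x (cs R e) • cs R a -
      bil G x (cs R a) • cs R e - ((h : R) * bil G x (cs R e)) • cs R e :=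
  ⟨_, isom_tv hG he hea ha, fun _ _ x => act_tv G e a h x⟩

/-- reflections `x ↦ x - k (x . r) r` for `k (r . r) = 2` -/
theorem exists_refl (hG : ∀ i j, G i j = G j i) {r : ι → ℤ} {k : ℤ} (hr : k * bil G r r = 2) :
    ∃ g, Isom G G g ∧ ∀ (R : Type) [CommRing R] (x : ι → R),
      act g x = x - ((k : R) * bil G x (cs R r)) • cs R r := by
  have h1 : ∀ (R : Type) [CommRing R] (x : ι → R), act (1 - k • rk1 G r r) x =
      x - ((k : R) * bil G x (cs R r)) • cs R r := fun R _ x => by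
    rw [act_msub, act_one, act_msmul, act_rk1, smul_smul]
  have h2 : (1 - k • rk1 G r r) * (1 - k • rk1 G r r) = 1 := eq_of_act fun x => by
    rw [act_mul, act_one, h1, h1]
    simp only [cs_int, bil_sub_left, bil_smul_left, Int.cast_id]
    rw [sub_sub, ← add_smul]
    have : k * bil G x r + k * (bil G x r - k * bil G x r * bil G r r) = 0 := by
      linear_combination -(k * bil G x r) * hr
    rw [this, zero_smul, sub_zero]
  refine ⟨_, ⟨form_of_bil fun x y => ?_, _, h2, h2⟩, h1⟩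
  rw [h1, h1]
  simp only [cs_int, bil_sub_left, bil_smul_left, bil_sub_right, bil_smul_right,
    bil_symm G hG r y, Int.cast_id]
  linear_combination (k * bil G x r * bil G y r) * hr

end isom

section cl

variable [Fintype ι] [DecidableEq ι] [Fintype ι'] [DecidableEq ι'] {G : Matrix ι ι ℤ}
  {Fx : Set (ι → ℤ)} {s p q : ι → ℂ}

theorem isClosed_cl (G : Matrix ι ι ℤ) (Fx : Set (ι → ℤ)) (s : ι → ℂ) : IsClosed (Cl G Fx s) :=
  isClosed_closure

theorem self_mem_cl (G : Matrix ι ι ℤ) (Fx : Set (ι → ℤ)) (s : ι → ℂ) : s ∈ Cl G Fx s :=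
  subset_closure ⟨1, Isom.refl G, fun v _ => act_one v, (act_one s).symm⟩

theorem Cl.act (hp : p ∈ Cl G Fx s) {g : Matrix ι ι ℤ} (hg : Isom G G g)
    (hF : ∀ v ∈ Fx, act g v = v) : act g p ∈ Cl G Fx s := by
  refine map_mem_closure (continuous_act g) hp ?_
  rintro _ ⟨k, hk, hkF, rfl⟩
  exact ⟨g * k, hg.comp hk, fun v hv => by rw [act_mul, hkF v hv, hF v hv], (act_mul _ _ _).symm⟩

theorem Cl.act' (hp : p ∈ Cl G ∅ s) {g : Matrix ι ι ℤ} (hg : Isom G G g) :
    Lat.act g p ∈ Cl G ∅ s := Cl.act hp hg fun _ h => h.elim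

theorem Cl.trans (hq : q ∈ Cl G Fx p) (hp : p ∈ Cl G Fx s) : q ∈ Cl G Fx s := by
  refine closure_minimal ?_ (isClosed_cl G Fx s) hq
  rintro _ ⟨g, hg, hF, rfl⟩
  exact Cl.act hp hg hF

theorem Cl.smul (hp : p ∈ Cl G Fx s) (l : ℂ) : l • p ∈ Cl G Fx (l • s) := by
  refine map_mem_closure (continuous_const_smul l) hp ?_
  rintro _ ⟨k, hk, hkF, rfl⟩
  exact ⟨k, hk, hkF, (act_smul _ _ _).symm⟩

theorem Cl.of_smul {l : ℂ} (hl : l ≠ 0) (hp : l • p ∈ Cl G Fx (l • s)) : p ∈ Cl G Fx s := by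
  have := Cl.smul hp l⁻¹
  rwa [smul_smul, smul_smul, inv_mul_cancel₀ hl, one_smul, one_smul] at this

theorem Cl.mono {Fx' : Set (ι → ℤ)} (h : Fx' ⊆ Fx) (hp : p ∈ Cl G Fx s) : p ∈ Cl G Fx' s := by
  refine closure_mono ?_ hp
  rintro _ ⟨g, hg, hF, rfl⟩
  exact ⟨g, hg, fun v hv => hF v (h hv), rfl⟩

theorem Cl.bil_self (hp : p ∈ Cl G Fx s) : bil G p p = bil G s s := by
  have hc : Continuous fun p : ι → ℂ => bil G p p := by unfold bil; fun_prop
  refine closure_minimal (s := Orb G Fx s) (t := {p | bil G p p = bil G s s}) ?_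
    (isClosed_eq hc continuous_const) hp
  rintro _ ⟨g, hg, -, rfl⟩
  exact hg.bil s s

theorem Cl.bil_vcj (hp : p ∈ Cl G Fx s) : bil G p (vcj p) = bil G s (vcj s) := by
  have hc : Continuous fun p : ι → ℂ => bil G p (vcj p) := by
    unfold bil vcj
    have := Complex.continuous_conj
    fun_prop
  refine closure_minimal (s := Orb G Fx s) (t := {p | bil G p (vcj p) = bil G s (vcj s)}) ?_
    (isClosed_eq hc continuous_const) hp
  rintro _ ⟨g, hg, -, rfl⟩
  change bil G _ (vcj _) = _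
  rw [← act_vcj, hg.bil]

theorem Cl.isPer (hp : p ∈ Cl G Fx s) (hs : IsPer G s) : IsPer G p := by
  rw [IsPer, Cl.bil_self hp, Cl.bil_vcj hp]; exact hs

/-- transport of orbit closures -/
theorem Cl.map {G' : Matrix ι' ι' ℤ} {g : Matrix ι' ι ℤ} (hg : Isom G G' g)
    (hp : p ∈ Cl G Fx s) : Lat.act g p ∈ Cl G' (Lat.act g '' Fx) (Lat.act g s) := by
  obtain ⟨k, hk, -, -, h1, h2⟩ := hg.symm
  refine map_mem_closure (continuous_act g) hp ?_
  rintro _ ⟨a, ha, haF, rfl⟩
  refine ⟨g * (a * k), hg.comp (ha.comp hk), ?_, by rw [act_mul, act_mul, h2]⟩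
  rintro _ ⟨v, hv, rfl⟩
  rw [act_mul, act_mul, h2, haF v hv]

theorem Cl.exists_near (hp : p ∈ Cl G Fx s) {U : Set (ι → ℂ)} (hU : U ∈ nhds p) :
    ∃ g, Isom G G g ∧ (∀ v ∈ Fx, Lat.act g v = v) ∧ Lat.act g s ∈ U := by
  obtain ⟨_, h1, g, hg, hF, rfl⟩ := mem_closure_iff_nhds.1 hp U hU
  exact ⟨g, hg, hF, h1⟩

end cl

end Vale.Agent.P290Z.Lat
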