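import Vale.Agent.P290Z.Lat.GeoSpec
import Vale.Agent.P290Z.W.H445Rrf
import Vale.Agent.P290.H722.IntForm
import Vale.Agent.P267.H221.RRMain
import Vale.Agent.P267.H994.Exist

/-! P290Z, part III: the lattice of a K3 surface exists and is even.

The curve `σ + z P - z² c σbar` lies on the quadric; the members of the family over it have these
periods, so Riemann-Roch on the members gives the evenness of the classes orthogonal to one of
the periods. -/

set_option linter.unusedVariables false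
set_option linter.unusedSectionVars false

open scoped Manifold ContDiff ComplexConjugate Topology
open Set Filter

noncomputable section

namespace Vale.Agent.P290Z.Lat

open Vale.Agent.P290 Vale.Agent.P267
open Vale.Agent.P290Z.W Vale.Agent.P290Z.W.Kur Vale.Agent.P290Z.W.BR
open Vale.Agent.P290.H342 (UData mem_HC_iff pair_add_left pair_smul_left pair_exact)
open Vale.Agent.P267.FL (TwoF IsHerm LB intX)
open Vale.Agent.P267.BlockC (pair ExactTwo FormFacts)
open Vale.Agent.P267.RR (isec chi OX RRBlock)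
open Vale.Agent.P267.H332 (HC intAx TwoF_smooth_add TwoF_smooth_smul)
open Vale.Agent.P290.H686 (pb2 pbL E2 IsDiffeo)

namespace EvenU

section gen

variable {Y : Type} [TopologicalSpace Y] [ChartedSpace FL.C2 Y] [IsManifold 𝓘(ℂ, FL.C2) ω Y]

/-- combinations with smooth coefficients are smooth families -/
theorem smFam_comb {F G : TwoF Y} (hF : F.Smooth) (hG : G.Smooth) {a b : ℂ → ℂ}
    (ha : ContDiff ℝ ∞ a) (hb : ContDiff ℝ ∞ b) :
    H722.SmFam (fun z => a z • F + b z • G) univ := by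
  intro t _ e he z hz
  have h1 : ∀ K : TwoF Y, K.Smooth → ContDiffAt ℝ ∞ (fun q : ℂ × FL.C2 => E2 e K q.2) (t, z) :=
    fun K hK => ContDiffAt.comp (g := E2 e K) (f := Prod.snd) (t, z)
      (H686.smooth2_iff.1 hK e he z hz) contDiffAt_snd
  have h2 : ∀ k : ℂ → ℂ, ContDiff ℝ ∞ k → ContDiffAt ℝ ∞ (fun q : ℂ × FL.C2 => k q.1) (t, z) :=
    fun k hk => (hk.comp contDiff_fst).contDiffAt
  have h3 : ContDiffAt ℝ ∞ (fun q : ℂ × FL.C2 => a q.1 • E2 e F q.2 + b q.1 • E2 e G q.2) (t, z) :=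
    ((h2 a ha).smul (h1 F hF)).add ((h2 b hb).smul (h1 G hG))
  refine h3.congr_of_eventuallyEq ?_
  have h4 : ∀ᶠ q : ℂ × FL.C2 in 𝓝 (t, z), q.2 ∈ e.target :=
    continuousAt_snd.eventually_mem (e.open_target.mem_nhds hz)
  filter_upwards [h4] with q hq
  obtain ⟨x, hx, hxe⟩ : ∃ x ∈ e.source, e x = q.2 := ⟨e.symm q.2, e.map_target hq, e.right_inv hq⟩
  ext v w
  rw [← hxe, H686.E2_apply he _ hx, H686.val2_add', H686.val2_smul', H686.val2_smul']
  simp only [ContinuousLinearMap.add_apply, ContinuousLinearMap.smul_apply, smul_eq_mul,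
    H686.E2_apply he _ hx]

variable [T2Space Y] [CompactSpace Y]

theorem pair_three {A B C G : TwoF Y} (hA : A.Smooth) (hB : B.Smooth) (hC : C.Smooth)
    (hG : G.Smooth) (b c : ℂ) :
    pair (A + (b • B + c • C)) G = pair A G + b * pair B G + c * pair C G := by
  have hI := intAx (X := Y)
  have h1 := TwoF_smooth_smul b hB
  have h2 := TwoF_smooth_smul c hC
  rw [pair_add_left hI hA (TwoF_smooth_add h1 h2) hG, pair_add_left hI h1 h2 hG,
    pair_smul_left hI b hB hG, pair_smul_left hI c hC hG, add_assoc]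

end gen

theorem omF_eq (Z : W.K3) : omF Z = W.H445.OmF Z := rfl

theorem omF_mem (Z : W.K3) : omF Z ∈ HC Z.X :=
  mem_HC_iff.2 ⟨W.H445.OmF_smooth Z, W.H445.OmF_closed Z⟩

theorem pair_om_om (Z : W.K3) : pair (omF Z) (omF Z) = 0 := by
  rw [omF_eq, W.H445.pair_OmF, ← W.H445.intX_zero Z]
  congr 1
  funext x
  exact mul_zero _

theorem pair_om_bar (Z : W.K3) : pair (omF Z) (omF Z).bar ≠ 0 := by
  rw [omF_eq, W.H445.pair_OmF]
  change intX (fun x => W.H445.Om Z x * W.H445.OmC Z x) ≠ 0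
  refine (W.H445.intFactsK Z).pos _ (by
    simpa using Vale.Agent.P290.H445.Reg2.smul' (W.H445.Reg0_Om Z) (W.H445.Reg2_OmC Z)) fun x => ?_
  have h1 := W.H445.Om_ne_zero Z x
  rw [W.H445.OmC, Complex.mul_conj]
  exact ⟨by simpa using h1, by simp⟩

/-- Riemann-Roch on a surface diffeomorphic to `X` -/
theorem even_of_pair_zero (hB : RRBlock) (X Y : W.K3) (φ : X.X ≃ₜ Y.X) (hφ : IsDiffeo φ) {ι : Type}
    [Fintype ι] [DecidableEq ι] (L : LB X.X ι) (h0 : pair (pb2 φ (omF Y)) L.curv = 0) :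
    ∃ k : ℤ, isec L L = 2 * k := by
  obtain ⟨-, hS, hR, -⟩ := hB Y.X
  rw [omF_eq] at h0
  set L' : LB Y.X ι := pbL φ.symm hφ.smooth' L with hL'
  have hc : L'.curv = pb2 φ.symm L.curv := H686.curv_pbL _ _
  have h1 : isec L' L' = isec L L := by
    rw [BlockC.isec_eq, BlockC.isec_eq, hc, pair, pair,
      H686.intX_wedge_pb2' φ.symm hφ.symm L.curv_smooth L.curv_smooth]
  have h2 : intX (fun x => W.H445.Om Y x * L'.F02 x) = 0 := by
    have h3 : pair (W.H445.OmF Y) L'.curv = 0 := by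
      rw [hc, pair, ← H686.intX_wedge_pb2' φ hφ (W.H445.OmF_smooth Y) (by
        rw [← hc]; exact L'.curv_smooth), H686.pb2_pb2_symm φ hφ]
      exact h0
    rw [W.H445.pair_OmF] at h3
    exact h3
  obtain ⟨a, ha⟩ := (W.H445.lefschetz Y hS (W.H445.intFactsK Y) L' L'.reg_F02).2 h2
  have h5 := hR ι (Fin 1) L' a (OX Y.X) ha (W.H445.isCanon_OX Y)
  rw [W.H445.isec_OX, sub_zero] at h5
  refine ⟨chi L' a 0 - chi (OX Y.X) 0 0, ?_⟩
  rw [← h1]
  push_cast
  linear_combination (-2 : ℂ) * h5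

/-- integrality and evenness -/
theorem int_even (hB : RRBlock) (hT : StTame) (hK : StKur0) (Z : W.K3)
    (D : Vale.Agent.P290.H445.NerveIn Z.X) (H : FormFacts Z.X) :
    (∀ n, ∃ k : ℤ, isec (D.L n).L (D.L n).L = 2 * k) ∧
      ∀ m n, ∃ k : ℤ, isec (D.L m).L (D.L n).L = k := by
  obtain ⟨P, ⟨hPs, hPc, hPr⟩, ⟨h, hh, hPh⟩, hσP, hPP⟩ := hT Z
  have hI := intAx (X := Z.X)
  have hσ := omF_mem Z
  have hb : (omF Z).bar ∈ HC Z.X := H362.bar_mem hσ
  have hP : P ∈ HC Z.X := mem_HC_iff.2 ⟨hPs, hPc⟩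
  have hq := pair_om_bar Z
  have h00 := pair_om_om Z
  have hbb : pair (omF Z).bar (omF Z).bar = 0 := by
    rw [H722.pair_bar hσ.1 hσ.1, h00, map_zero]
  have hbP : pair (omF Z).bar P = 0 := by
    have h1 := H722.pair_bar hσ.1 hPs
    rwa [(TwoF.real_iff_bar P).1 hPr, hσP, map_zero] at h1
  set c : ℂ := pair P P / (2 * pair (omF Z) (omF Z).bar) with hc
  set η : ℂ → TwoF Z.X := fun z => z • P + (-(z ^ 2 * c)) • (omF Z).bar with hη
  have hηm : ∀ z, η z ∈ HC Z.X := fun z =>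
    Submodule.add_mem _ (Submodule.smul_mem _ _ hP) (Submodule.smul_mem _ _ hb)
  have hη0 : η 0 = 0 := by simp [hη]
  have hTm : ∀ z, omF Z + η z ∈ HC Z.X := fun z => Submodule.add_mem _ hσ (hηm z)
  have hform : ∀ (z : ℂ) (G : TwoF Z.X), G.Smooth → pair (omF Z + η z) G =
      pair (omF Z) G + z * pair P G + -(z ^ 2 * c) * pair (omF Z).bar G :=
    fun z G hG => pair_three hσ.1 hPs hb.1 hG _ _
  have hsq : ∀ z, pair (omF Z + η z) (omF Z + η z) = 0 := by
    intro z
    rw [hform z _ (hTm z).1, H342.pair_comm (omF Z), H342.pair_comm P,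
      H342.pair_comm (omF Z).bar, hform z _ hσ.1, hform z _ hPs, hform z _ hb.1, h00, hσP, hbP, hbb,
      H342.pair_comm P (omF Z), hσP, H342.pair_comm P (omF Z).bar, hbP,
      H342.pair_comm (omF Z).bar (omF Z), hc]
    field_simp
    ring
  have hsm : H722.SmFam η univ :=
    smFam_comb hPs hb.1 (a := fun z => z) (b := fun z => -(z ^ 2 * c)) contDiff_id
      ((contDiff_id.pow 2).mul contDiff_const).neg
  obtain ⟨r, hr, M, hM⟩ := hK Z P h hPs hPc hh hPh ℂ η hsm hη0
    (fun z => (mem_HC_iff.1 (hηm z)).2) univ (mem_univ _) (fun z _ => hsq z)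
  have hcur : ∀ n, (D.L n).L.curv ∈ HC Z.X := fun n =>
    mem_HC_iff.2 ⟨(D.L n).L.curv_smooth, (D.L n).L.curv_closed⟩
  have hfun : ∀ n, (fun z => pair (omF Z + η z) (D.L n).L.curv) = fun z =>
      pair (omF Z) (D.L n).L.curv + z * pair P (D.L n).L.curv +
        -(z ^ 2 * c) * pair (omF Z).bar (D.L n).L.curv := fun n =>
    funext fun z => hform z _ (hcur n).1
  have hT0 : omF Z + η 0 = omF Z := by rw [hη0, add_zero]
  refine H722.int_even_form D H (fun z => omF Z + η z) P (Eventually.of_forall hTm) hP ?_ ?_ ?_ ?_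
    ?_ ?_ ?_
  · intro n
    rw [hfun n]
    refine Eventually.of_forall fun z => ?_
    fun_prop
  · intro n
    rw [hfun n]
    have h1 := ((((hasDerivAt_id (0 : ℂ)).mul_const (pair P (D.L n).L.curv)).const_add
      (pair (omF Z) (D.L n).L.curv)).fun_add
      ((((hasDerivAt_pow 2 (0 : ℂ)).mul_const c).fun_neg).mul_const
        (pair (omF Z).bar (D.L n).L.curv))).deriv
    simpa using h1
  · exact hsq 0
  · rw [hT0, H342.pair_comm]
    exact hσP
  · rw [hT0, H342.pair_comm]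
    exact hq
  · intro a ha
    rw [hT0] at ha
    have h1 := pair_exact hI ha hP
    rw [sub_eq_add_neg, ← neg_smul, pair_add_left hI hPs (TwoF_smooth_smul _ hσ.1) hPs,
      pair_smul_left hI _ hσ.1 hPs, hσP, mul_zero, add_zero] at h1
    rw [h1] at hPP
    exact lt_irrefl _ hPP
  · filter_upwards [Metric.ball_mem_nhds (0 : ℂ) hr] with z hz n hn
    have hz' : z ∈ {t : ℂ | t ∈ (univ : Set ℂ) ∧ ‖t - 0‖ < r} :=
      ⟨mem_univ _, by rwa [← dist_eq_norm]⟩
    have hN : z ∈ M.N := M.sub hz'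
    have h1 : pair (M.sig z) (D.L n).L.curv = 0 := by
      rw [H362.pair_congr_exact (M.smFam.smooth hN) (hTm z).1 (hM z hN) (hcur n)]
      exact hn
    have h2 := M.sig_eq ⟨z, hz'⟩
    refine even_of_pair_zero hB Z (M.toMPre.k3 ⟨z, hz'⟩) (M.toMPre.homeo ⟨z, hz'⟩)
      (M.diffeo ⟨z, hz'⟩) (D.L n).L ?_
    rw [← h2]
    exact h1

theorem evenU_of (hB : RRBlock) (hT : StTame) (hK : StKur0) (Z : W.K3)
    (D : Vale.Agent.P290.H445.NerveIn Z.X) : ∃ (N : ℕ) (U : UData Z.X N), Ev U.G := by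
  have H : FormFacts Z.X := BlockC.formFacts (H662.curvFacts Z.X)
  obtain ⟨h1, h2⟩ := H722.int_even_all D H (int_even hB hT hK Z D H)
  obtain ⟨N, U, hU⟩ := H722.uData_of_int_even D H h1 h2
  refine ⟨N, U, fun k => ?_⟩
  rw [H362.bil_B]
  exact hU k

end EvenU

/-- EVEN: the lattice exists and is even -/
theorem evenU : W.BR.StTame → StKur0 → StEvenU := by
  intro hT hK Z
  obtain ⟨D⟩ := Vale.Agent.P267.H994.exists_nerveIn Z.X
  exact EvenU.evenU_of Vale.Agent.P267.RR.rrBlock hT hK Z D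

end Vale.Agent.P290Z.Lat
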