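import Vale.Agent.P290Z.Lat.GeoSpec
import Vale.Agent.P290Z.Lat.Rank.Calc
import Vale.Agent.P290Z.W.H416K3FL
import Vale.Agent.P290Z.W.H416K3U
import Vale.Agent.P290Z.W.H445IntK
import Vale.Agent.P267.H221.RRMain
import Vale.Agent.P267.H682.SurfPS

/-! P290Z, part III: the second Betti number of a K3 surface is `22`. -/

set_option linter.all false

open scoped Manifold ContDiff
open Set

noncomputable section

namespace Vale.Agent.P290Z.Lat

open Vale.Agent.P290 Vale.Agent.P267 Vale.Agent.P267.FL Vale.Agent.P267.H469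
open Vale.Agent.P290.H342 (UData)
open Vale.Agent.P290.H416 (calc0 scal0 cv cvC toF_cvC toF_sub D2_cv closed_iff exact_iff_D1)

namespace Rank

section gen

variable {X : Type} [TopologicalSpace X] [ChartedSpace FL.C2 X]
  [IsManifold 𝓘(ℂ, FL.C2) ω X]
  [T2Space X] [CompactSpace X] [ConnectedSpace X] {h : X → Matrix (Fin 2) (Fin 2) ℂ}
  (hh : IsHerm h) {N : ℕ} (U : UData X N)

/-- the classes of the basis -/
def cls (i : Fin N) : (calc0 hh).H2 := Submodule.Quotient.mk ⟨cv (U.E i), D2_cv _⟩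

theorem cls_sum (t : Fin N → ℂ) (F : (calc0 hh).Z2) :
    ∑ i, t i • cls hh U i = Submodule.Quotient.mk F ↔
      BlockC.ExactTwo (toF F - ∑ i, t i • (U.E i).L.curv) := by
  have e : ∑ i, t i • cls hh U i = Submodule.Quotient.mk
      (∑ i, t i • (⟨cv (U.E i), D2_cv _⟩ : (calc0 hh).Z2)) := by
    rw [← Submodule.mkQ_apply, map_sum]
    rfl
  have e2 : ((F - ∑ i, t i • (⟨cv (U.E i), D2_cv _⟩ : (calc0 hh).Z2) : (calc0 hh).Z2) : Om2 X) =
      F - cvC U t := by
    rw [Submodule.coe_sub, Submodule.coe_sum]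
    rfl
  have e3 : toF F - ∑ i, t i • (U.E i).L.curv = toF ((F : Om2 X) - cvC U t) := by
    rw [toF_sub, toF_cvC]
    rfl
  rw [e, eq_comm, Submodule.Quotient.eq, e3, exact_iff_D1, ← e2]
  rfl

theorem bij : Function.Bijective (Fintype.linearCombination ℂ (cls hh U)) := by
  rw [Function.bijective_iff_existsUnique]
  intro y
  obtain ⟨F, rfl⟩ := Submodule.Quotient.mk_surjective _ y
  simp only [Fintype.linearCombination_apply, cls_sum]
  exact U.span _ (toF_smooth _) (closed_iff.1 F.2)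

theorem psThm : H682.PSThm := fun X _ _ _ _ _ A r B => ⟨(H955.exists_PS B).choose⟩

theorem frThm : H682.FRThm := by
  intro X _ _ _ _ _ A r B P
  obtain ⟨C, hC⟩ := H439.exists_cplxOf P
  exact ⟨hC.fr1, hC.fr2⟩

end gen

theorem kd (Z : W.K3) {h : Z.X → Matrix (Fin 2) (Fin 2) ℂ} (hh : IsHerm h) :
    KD (calc0 hh) (W.H416.OmL Z) where
  p20 := rfl
  cl := W.H416.D2_OmL Z
  cl' := W.H416.D2_C2L Z (W.H416.D2_OmL Z)
  ne := W.H416.OmL_ne Z
  h01 a ha h2 := (scal0 hh).H01 (fun A hA => W.H416.exact_one hA) ha h2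
  h20 b hb hd := by
    have hb' : P20 b = b := hb
    rw [P20_apply] at hb'
    have hd' : D2 b = 0 := hd
    have e1 : b.2.1 = 0 := by rw [← hb']
    have h1 : dbar20L b.1 + del11L b.2.1 = 0 := congrArg Prod.fst hd'
    rw [e1, map_zero, add_zero] at h1
    have h2 : dbar0 1 (b.1 : Z.X → ℂ) = 0 := congrArg Subtype.val h1
    obtain ⟨c, hc⟩ := W.H445.holOn_one Z
      (H445.holOn_of_dbar b.1.2 fun x i => congrFun (congrFun h2 x) i)
    refine ⟨c, hb'.symm.trans (Prod.ext (Subtype.ext (funext hc)) (Prod.ext ?_ ?_))⟩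
    · exact (smul_zero c).symm
    · exact (smul_zero c).symm
  h02 b hb h0 := W.H416.H02.abs (fun _ h1 h2 => W.H445.exists_dbar1 Z (RR.rrBlock Z.X).2.1
    (W.H445.intFactsK Z) h1 h2) hh b hb h0
  sd := SD21_of hh (H682.sl1Thm psThm frThm Z.X)

end Rank

open Rank in
theorem rank : StRank := by
  rintro Z N ⟨U⟩
  obtain ⟨g, hg⟩ := H416.exists_isHerm Z.X
  obtain ⟨-, hS, -, hN⟩ := RR.rrBlock Z.X
  have e := LinearEquiv.ofBijective _ (bij hg U)
  have := e.finiteDimensional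
  have h1 := e.finrank_eq
  rw [(kd Z hg).b2_eq, Module.finrank_fin_fun] at h1
  have h2 : RR.h11 Z.X = Module.finrank ℂ (calc0 hg).H11 := H682.h11_eq
  have h3 : RR.h10 Z.X = 0 := by
    have h4 : (calc0 hg).Z10 = ⊥ := by
      rw [Submodule.eq_bot_iff]
      intro w hw
      obtain ⟨h5, h6⟩ := (calc0 hg).mem_Z10.1 hw
      obtain ⟨u, hu⟩ := W.H416.exact_one ((calc0 hg).hol1_closed h5 h6)
      exact (calc0 hg).hol_exact h5 hu
    exact H682.h10_eq_zero h4
  have h4 := hN _ _ (W.H445.isCanon_OX Z)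
  rw [W.H445.isec_OX, W.H445.chi_O Z hS fun _ ha h0 => W.H416.dbar_solve ha h0, RR.chiOm,
    H682.serreOmThm psThm frThm Z.X, h3, h2] at h4
  have h5 : ((Module.finrank ℂ (calc0 hg).H11 : ℕ) : ℂ) = (20 : ℕ) := by
    push_cast at h4 ⊢
    linear_combination h4
  rw [h1, Nat.cast_injective h5]

end Vale.Agent.P290Z.Lat
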