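import Vale.Agent.P290Z.Lat.GeoSpec
import Vale.Agent.P290Z.W.H445Lef
import Vale.Agent.P290.H445.IntK
import Vale.Agent.P290.H362.F2Per
import Vale.Agent.P290.H416.K3Hi
import Vale.Agent.P290.H342.Inst
import Vale.Agent.P267.H221.RRMain

/-! P290Z, part III: the signature of the lattice of a K3 surface. The real and imaginary parts of
the period vector of the holomorphic two-form and the period vector of a closed taming form span a
positive space; its orthogonal complement is negative by the Hodge index theorem. -/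

set_option linter.unusedSectionVars false
set_option linter.unusedVariables false

open scoped Manifold ContDiff ComplexConjugate Topology
open Set Filter

noncomputable section

namespace Vale.Agent.P290Z.Lat

namespace SigU

open Vale.Agent.P290
open Vale.Agent.P267.FL Vale.Agent.P267.BlockC Vale.Agent.P267.RR Vale.Agent.P267.H332
open Vale.Agent.P267.H757 Vale.Agent.P267.H469 Vale.Agent.P290.H342 Vale.Agent.P290.H445
open Vale.Agent.P290.H416 Vale.Agent.P290.H726 Vale.Agent.P290.H362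

/-- three orthogonal positive vectors with a negative orthogonal complement -/
theorem sig_three {N : ℕ} {G : Matrix (Fin N) (Fin N) ℤ} (hG : ∀ i j, G i j = G j i)
    {p q w : Fin N → ℝ} (hp : 0 < H726.bil G p p) (hq : 0 < H726.bil G q q)
    (hw : 0 < H726.bil G w w) (hpq : H726.bil G p q = 0) (hpw : H726.bil G p w = 0)
    (hqw : H726.bil G q w = 0)
    (hn : ∀ x : Fin N → ℝ, x ≠ 0 → H726.bil G p x = 0 → H726.bil G q x = 0 →
      H726.bil G w x = 0 → H726.bil G x x < 0) : Sig G 3 := by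
  have hsym : ∀ x y : Fin N → ℝ, H726.bil G x y = H726.bil G y x :=
    fun x y => H726.bil_symm G hG x y
  refine ⟨![p, q, w], fun a ha => ?_, fun x hx h => ?_⟩
  · have h1 : ∑ j, a j • (![p, q, w] : Fin 3 → Fin N → ℝ) j = a 0 • p + a 1 • q + a 2 • w := by
      rw [Fin.sum_univ_three]
      rfl
    have h2 : H726.bil G (a 0 • p + a 1 • q + a 2 • w) (a 0 • p + a 1 • q + a 2 • w) =
        a 0 ^ 2 * H726.bil G p p + a 1 ^ 2 * H726.bil G q q + a 2 ^ 2 * H726.bil G w w := by
      simp only [H726.bil_add_left, H726.bil_add_right, H726.bil_smul_left, H726.bil_smul_right,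
        hsym q p, hsym w p, hsym w q, hpq, hpw, hqw]
      ring
    rw [h1, h2]
    have e0 := mul_nonneg (sq_nonneg (a 0)) hp.le
    have e1 := mul_nonneg (sq_nonneg (a 1)) hq.le
    have e2 := mul_nonneg (sq_nonneg (a 2)) hw.le
    by_cases k0 : a 0 = 0
    · by_cases k1 : a 1 = 0
      · have k2 : a 2 ≠ 0 := fun k2 => ha (by
          funext j
          fin_cases j
          · exact k0
          · exact k1
          · exact k2)
        have := mul_pos (sq_pos_of_ne_zero k2) hw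
        linarith
      · have := mul_pos (sq_pos_of_ne_zero k1) hq
        linarith
    · have := mul_pos (sq_pos_of_ne_zero k0) hp
      linarith
  · exact hn x hx ((hsym p x).trans (h 0)) ((hsym q x).trans (h 1)) ((hsym w x).trans (h 2))

section gen

variable {Y : Type} [TopologicalSpace Y] [ChartedSpace P267.FL.C2 Y]
variable [IsManifold 𝓘(ℂ, P267.FL.C2) ω Y]
variable [T2Space Y] [CompactSpace Y] [ConnectedSpace Y]

theorem bar_of_real {F : TwoF Y} (h : F.Real) : F.bar = F := by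
  apply TwoF.ext
  · funext x
    exact ((h x).1).symm
  · funext x
    ext i j
    change -conj (F.f11 x j i) = F.f11 x i j
    exact ((h x).2 j i).symm
  · funext x
    change conj (F.f20 x) = F.f02 x
    rw [(h x).1, Complex.conj_conj]

theorem real_of_bar {F : TwoF Y} (h : F.bar = F) : F.Real := by
  intro x
  refine ⟨?_, fun i j => ?_⟩
  · have h1 := congrFun (congrArg TwoF.f20 h) x
    exact h1.symm
  · have h1 := congrFun (congrFun (congrFun (congrArg TwoF.f11 h) x) j) i
    exact h1.symm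

/-- a nonzero closed `(2,0)`-form whose annihilator consists of exact `(0,2)`-forms -/
structure Hol2 (om : Y → ℂ) : Prop where
  reg : Reg0 ∞ 1 om
  hol : ∀ x i, dbar0 1 om x i = 0
  ne : ∃ x, om x ≠ 0
  sol : ∀ b : Y → ℂ, Reg2 ∞ 0 b → intX (fun x => om x * b x) = 0 →
    ∃ a : Y → Fin 2 → ℂ, Reg1 ∞ 0 a ∧ ∀ x, dbar1 0 a x = b x

variable {om : Y → ℂ} (H : Hol2 om)

/-- the form as an element of the space of smooth forms -/
def Hol2.L : Om2 Y := (⟨om, H.reg⟩, 0, 0)

theorem Hol2.toF_L : toF H.L = ⟨om, 0, 0⟩ := rfl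

theorem Hol2.L_ne : H.L ≠ 0 := by
  intro h0
  obtain ⟨x, hx⟩ := H.ne
  exact hx (congrArg (fun F : Om2 Y => (F.1 : Y → ℂ) x) h0)

theorem Hol2.D2_L : D2 H.L = 0 := by
  refine Prod.ext ?_ ?_
  · have h1 : (dbar20L (⟨om, H.reg⟩ : S20 Y)) = 0 := by
      refine Subtype.ext ?_
      funext x i
      exact H.hol x i
    change dbar20L (⟨om, H.reg⟩ : S20 Y) + del11L 0 = 0
    rw [h1, map_zero, add_zero]
  · change dbar11L (0 : S11 Y) + del02L (0 : S02 Y) = 0
    rw [map_zero, map_zero, add_zero]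

include H in
theorem Hol2.mem : (⟨om, 0, 0⟩ : TwoF Y) ∈ HC Y :=
  mem_HC_iff.2 ⟨toF_smooth H.L, (closed_iff (F := H.L)).1 H.D2_L⟩

theorem Hol2.abs {g : Y → Matrix (Fin 2) (Fin 2) ℂ} (hh : IsHerm g) (b : Om2 Y)
    (hb : (calc0 hh).p02 b = b) (h0 : (calc0 hh).I22 b H.L = 0) :
    ∃ a, (calc0 hh).is01 a ∧ (calc0 hh).p02 ((calc0 hh).d1 a) = b := by
  have h1 : intX (fun x => om x * (b.2.2 : Y → ℂ) x) = 0 := by
    have h2 : (toF b).wedge (toF H.L) = fun x => om x * (b.2.2 : Y → ℂ) x := by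
      funext x
      simp only [TwoF.wedge, toF, Hol2.L, Submodule.coe_zero, Pi.zero_apply, Matrix.zero_apply,
        mul_zero, sub_zero, zero_add, add_zero]
      ring
    rw [← h2]
    exact h0
  obtain ⟨a, ha, h3⟩ := H.sol _ b.2.2.2 h1
  refine ⟨(0, ⟨a, ha⟩), rfl, ?_⟩
  rw [← hb]
  refine Prod.ext rfl (Prod.ext rfl (Subtype.ext ?_))
  funext x
  exact h3 x

include H in
theorem Hol2.pair_self : pair (⟨om, 0, 0⟩ : TwoF Y) ⟨om, 0, 0⟩ = 0 := by
  have h : (⟨om, 0, 0⟩ : TwoF Y).wedge ⟨om, 0, 0⟩ = fun _ => 0 := by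
    funext x
    simp [TwoF.wedge]
  rw [pair, h]
  have h1 := pair_smul_left (Y := Y) intAx 0 H.mem.1 H.mem.1
  rw [zero_mul, pair, wedge_smul_left] at h1
  simp only [zero_mul] at h1
  exact h1

include H in
theorem Hol2.pair_bar : 0 < (pair (⟨om, 0, 0⟩ : TwoF Y) (⟨om, 0, 0⟩ : TwoF Y).bar).re := by
  obtain ⟨g, hg⟩ := exists_isHerm Y
  by_contra hcon
  push Not at hcon
  exact H.L_ne ((calc0 hg).pos20 H.L rfl hcon)

include H in
/-- Hodge index for closed real forms -/
theorem Hol2.hodge {P F : TwoF Y} (hP : P ∈ HC Y) (hPr : P.Real)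
    (hPO : pair ⟨om, 0, 0⟩ P = 0) (hPP : 0 < (pair P P).re) (hF : F ∈ HC Y) (hFr : F.Real)
    (hFO : pair ⟨om, 0, 0⟩ F = 0) (hFP : pair F P = 0) :
    (pair F F).re ≤ 0 ∧ (0 ≤ (pair F F).re → ExactTwo F) := by
  obtain ⟨g, hg⟩ := exists_isHerm Y
  set C := calc0 hg with hC
  have hI : ∀ A B : Om2 Y, C.I22 A B = pair (toF A) (toF B) := fun A B => I22_eq hg A B
  have hex : ∀ G : TwoF Y, G ∈ HC Y → G.Real → pair ⟨om, 0, 0⟩ G = 0 → ∃ (G0 : Om2 Y)
      (a : Om1 Y), toF G0 = G ∧ C.d2 G0 = 0 ∧ C.c2 G0 = G0 ∧ C.is11 (G0 - C.d1 a) ∧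
        C.c1 a = a := by
    intro G hG hGr hGO
    refine ⟨mk2 G hG.1, ?_⟩
    have h1 : C.c2 (mk2 G hG.1) = mk2 G hG.1 := real_iff.2 (show (toF (mk2 G hG.1)).Real from hGr)
    have h2 : C.I22 (mk2 G hG.1) H.L = 0 := by
      rw [hI, H342.pair_comm]
      exact hGO
    have h3 : C.I22 (mk2 G hG.1) (C.c2 H.L) = 0 := by
      have h4 := C.I22_conj (mk2 G hG.1) H.L
      rw [h1, h2, map_zero] at h4
      exact h4
    obtain ⟨a, ha, har⟩ := exists_11' (C := C) (Om := H.L) rfl
      (fun b hb h0 => H.abs hg b hb h0) h2 h3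
    exact ⟨a, rfl, closed_iff.2 hG.2.1, h1, ha, har h1⟩
  obtain ⟨P0, a, rfl, hPd, hPc, hP11, ha⟩ := hex P hP hPr hPO
  obtain ⟨F0, b, rfl, hFd, hFc, hF11, hb⟩ := hex F hF hFr hFO
  have hdd : ∀ (G0 : Om2 Y) (a : Om1 Y), C.d2 G0 = 0 → C.d2 (G0 - C.d1 a) = 0 := by
    intro G0 a h
    rw [map_sub, h, C.d2d1, sub_zero]
  have hcc : ∀ (G0 : Om2 Y) (a : Om1 Y), C.c2 G0 = G0 → C.c1 a = a →
      C.c2 (G0 - C.d1 a) = G0 - C.d1 a := by
    intro G0 a h h'
    rw [map_sub, h, ← C.d1c, h']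
  have hp : ∀ (G G' : Om2 Y) (a a' : Om1 Y), C.d2 G = 0 → C.d2 G' = 0 →
      C.I22 (G - C.d1 a) (G' - C.d1 a') = pair (toF G) (toF G') := by
    intro G G' a a' h h'
    rw [I22_sub_exact (hdd G' a' h'), I22_sub_exact' h, hI]
  obtain ⟨h1, h2⟩ := (scal0 hg).hodge_pos hP11 (hcc P0 a hPc ha) (hdd P0 a hPd)
    (by rw [hp _ _ _ _ hPd hPd]; exact hPP) hF11 (hcc F0 b hFc hb) (hdd F0 b hFd)
    (by rw [hp _ _ _ _ hFd hPd]; exact hFP)
  rw [hp _ _ _ _ hFd hFd] at h1 h2
  refine ⟨h1, fun h => ?_⟩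
  obtain ⟨c, hc⟩ := h2 h
  refine exact_iff_D1.2 ⟨c + b, ?_⟩
  have h3 : D1 c = F0 - D1 b := hc.symm
  rw [map_add, h3]
  abel

include H in
/-- the signature of the lattice -/
theorem Hol2.sig {N : ℕ} (U : UData Y N) {P : TwoF Y} (hPs : P.Smooth) (hPc : P.Closed)
    (hPr : P.Real) (hPO : pair ⟨om, 0, 0⟩ P = 0) (hPP : 0 < (pair P P).re) : Sig U.G 3 := by
  have hL := H342.lbFacts Y
  have hP : P ∈ HC Y := mem_HC_iff.2 ⟨hPs, hPc⟩
  have hO := H.mem
  have hR : ∀ x y : Fin N → ℝ, H726.bil U.G (fun i => ((x i : ℝ) : ℂ)) (fun i => ((y i : ℝ) : ℂ)) =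
      ((H726.bil U.G x y : ℝ) : ℂ) := fun x y => H726.bil_ofReal U.G x y
  set c : Fin N → ℂ := pv U (⟨om, 0, 0⟩ : TwoF Y) with hc
  set w : Fin N → ℝ := fun i => (pv U P i).im with hw
  have hpi := Real.pi_pos
  have hPw : pv U P = Complex.I • fun i => ((w i : ℝ) : ℂ) := by
    have h1 := pv_bar U hL hP
    rw [bar_of_real hPr] at h1
    funext i
    have h2 := congrFun h1 i
    have h3 : (pv U P i).re = 0 := by
      have h4 := congrArg Complex.re h2
      rw [Complex.neg_re, Complex.conj_re] at h4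
      linarith
    rw [Pi.smul_apply, smul_eq_mul, hw]
    apply Complex.ext
    · simp [h3]
    · simp
  have hww : 0 < H726.bil U.G w w := by
    have h1 := bil_pv U hL hP hP
    rw [hPw, H726.bil_smul_left, H726.bil_smul_right, hR, ← mul_assoc, Complex.I_mul_I] at h1
    have h2 := congrArg Complex.re h1
    have h3 : -(4 * (Real.pi : ℂ) ^ 2) = ((-(4 * Real.pi ^ 2) : ℝ) : ℂ) := by push_cast; ring
    rw [h3, Complex.re_ofReal_mul, neg_one_mul, Complex.neg_re, Complex.ofReal_re] at h2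
    have h4 : 0 < 4 * Real.pi ^ 2 * (pair P P).re := by positivity
    linarith
  have hcw : H726.bil U.G c (fun i => ((w i : ℝ) : ℂ)) = 0 := by
    have h1 := bil_pv U hL hO hP
    rw [hPO, mul_zero, hPw, H726.bil_smul_right] at h1
    exact (mul_eq_zero.1 h1).resolve_left Complex.I_ne_zero
  have hcc : H726.bil U.G c c = 0 := by
    rw [hc, bil_pv U hL hO hO, H.pair_self, mul_zero]
  have hcb : 0 < (H726.bil U.G c (fun i => conj (c i))).re := by
    rw [hc, bil_pv_conj U hL hO]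
    have h1 : (4 * (Real.pi : ℂ) ^ 2) = ((4 * Real.pi ^ 2 : ℝ) : ℂ) := by push_cast; ring
    rw [h1, Complex.re_ofReal_mul]
    have := H.pair_bar
    positivity
  set p : Fin N → ℝ := fun i => (c i).re with hp
  set q : Fin N → ℝ := fun i => (c i).im with hq
  have hsym : ∀ x y : Fin N → ℝ, H726.bil U.G x y = H726.bil U.G y x :=
    fun x y => H726.bil_symm U.G U.G_symm x y
  have e1 := H103.bil_re_im U.G c c
  rw [hcc] at e1
  have e2 := H103.bil_re_im U.G c (fun i => conj (c i))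
  have e3 := H103.bil_re_im U.G c (fun i => ((w i : ℝ) : ℂ))
  rw [hcw] at e3
  simp only [Complex.conj_re, Complex.conj_im, Complex.ofReal_re, Complex.ofReal_im] at e1 e2 e3
  have hz : ∀ x : Fin N → ℝ, H726.bil U.G x (fun _ => (0 : ℝ)) = 0 := fun x =>
    H726.bil_zero_right U.G x
  have hn : ∀ x : Fin N → ℝ, H726.bil U.G x (fun i => -(c i).im) = -H726.bil U.G x q := fun x =>
    H726.bil_neg_right U.G x q
  have e1r := congrArg Complex.re e1
  have e1i := congrArg Complex.im e1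
  have e2r := congrArg Complex.re e2
  have e3r := congrArg Complex.re e3
  have e3i := congrArg Complex.im e3
  simp only [Complex.add_re, Complex.mul_re, Complex.ofReal_re, Complex.ofReal_im, Complex.I_re,
    Complex.I_im, Complex.add_im, Complex.mul_im, Complex.zero_re, Complex.zero_im, mul_zero,
    mul_one, sub_zero, add_zero, zero_add, hz, hn] at e1r e1i e2r e3r e3i
  rw [e2r] at hcb
  have epq : H726.bil U.G p q = 0 := by
    have h1 := hsym p q
    change 0 = H726.bil U.G p q + H726.bil U.G q p at e1i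
    linarith
  have epp : 0 < H726.bil U.G p p := by
    change 0 = H726.bil U.G p p - H726.bil U.G q q at e1r
    change 0 < H726.bil U.G p p - -H726.bil U.G q q at hcb
    linarith
  have eqq : 0 < H726.bil U.G q q := by
    change 0 = H726.bil U.G p p - H726.bil U.G q q at e1r
    linarith
  have epw : H726.bil U.G p w = 0 := e3r.symm
  have eqw : H726.bil U.G q w = 0 := e3i.symm
  refine sig_three U.G_symm epp eqq hww epq epw eqw fun x hx hpx hqx hwx => ?_
  set s : Fin N → ℂ := Complex.I • fun i => ((x i : ℝ) : ℂ) with hs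
  have hF : U.combC s ∈ HC Y := U.combC_mem hL s
  have hFb : (U.combC s).bar = U.combC s := by
    rw [combC_bar]
    congr 1
    funext i
    simp [hs]
  have h0 : ExactTwo (U.combC s - U.combC s) := by rw [sub_self]; exact exactTwo_zero
  have hpv : pv U (U.combC s) = -(4 * (Real.pi : ℂ) ^ 2) • s := pv_eq U hL hF h0
  have hcx : H726.bil U.G c (fun i => ((x i : ℝ) : ℂ)) = 0 := by
    rw [H103.bil_re_im]
    simp only [Complex.ofReal_re, Complex.ofReal_im, hz, sub_zero, zero_add]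
    change ((H726.bil U.G p x : ℝ) : ℂ) + ((H726.bil U.G q x : ℝ) : ℂ) * Complex.I = 0
    rw [hpx, hqx]
    simp
  have hFO : pair (⟨om, 0, 0⟩ : TwoF Y) (U.combC s) = 0 := by
    have h1 := bil_pv U hL hO hF
    rw [hpv, H726.bil_smul_right, hs, H726.bil_smul_right, hcx, mul_zero, mul_zero] at h1
    exact (mul_eq_zero.1 h1.symm).resolve_left pi_ne
  have hFP : pair (U.combC s) P = 0 := by
    have h1 := bil_pv U hL hP hF
    rw [hpv, hPw, H726.bil_smul_right, hs, H726.bil_smul_right, H726.bil_smul_left,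
      hR, hwx, Complex.ofReal_zero, mul_zero, mul_zero, mul_zero] at h1
    rw [H342.pair_comm]
    exact (mul_eq_zero.1 h1.symm).resolve_left pi_ne
  have hFF : pair (U.combC s) (U.combC s) =
      ((4 * Real.pi ^ 2 * H726.bil U.G x x : ℝ) : ℂ) := by
    rw [pair_coord U hL hF hF h0 h0, hs, H726.bil_smul_left, H726.bil_smul_right, hR,
      ← mul_assoc Complex.I, Complex.I_mul_I]
    push_cast
    ring
  obtain ⟨h1, h2⟩ := H.hodge hP hPr hPO hPP hF (real_of_bar hFb) hFO hFP
  rw [hFF, Complex.ofReal_re] at h1 h2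
  have h4 : 0 < 4 * Real.pi ^ 2 := by positivity
  rcases lt_trichotomy (H726.bil U.G x x) 0 with h | h | h
  · exact h
  · exfalso
    have hex := h2 (by rw [h, mul_zero])
    have h5' : pv U (U.combC s) = 0 := by
      funext i
      have h8 : ∀ j, pair (U.combC s) (U.E j).L.curv = 0 := fun j =>
        pair_exact intAx hex (mem_HC_iff.2 ⟨hL.smooth _, hL.closed _⟩)
      simp only [pv, h8, mul_zero, Finset.sum_const_zero, Pi.zero_apply]
    rw [hpv] at h5'
    have h5 : s = 0 := (smul_eq_zero.1 h5').resolve_left pi_ne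
    apply hx
    funext i
    have h6 := congrFun h5 i
    rw [hs, Pi.smul_apply, smul_eq_mul, Pi.zero_apply] at h6
    have h7 := (mul_eq_zero.1 h6).resolve_left Complex.I_ne_zero
    exact_mod_cast h7
  · exfalso
    have := mul_pos h4 h
    linarith

end gen

/-- the holomorphic two-form of a K3 surface -/
theorem hol2 (Z : W.K3) : Hol2 (W.H445.Om Z) where
  reg := W.H445.Reg0_Om Z
  hol x i := by
    have h1 := W.H445.HolOn_Om Z _ (chart_mem_atlas P267.FL.C2 x)
    rw [preimage_univ, inter_univ] at h1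
    exact dzb_of_hol (h1.differentiableAt
      ((chartAt P267.FL.C2 x).open_target.mem_nhds (mem_chart_target P267.FL.C2 x))) i
  ne := by
    obtain ⟨x⟩ : Nonempty Z.X := inferInstance
    exact ⟨x, W.H445.Om_ne_zero Z x⟩
  sol _ hb h0 := W.H445.exists_dbar1 Z (rrBlock Z.X).2.1 (intFacts Z.X) hb h0

end SigU

/-- SIG: the signature of the lattice of a K3 surface -/
theorem sigU : W.BR.StTame → StSigU := by
  intro hT Z N U
  obtain ⟨P, ⟨hs, hc, hr⟩, -, hO, hP⟩ := hT Z
  exact (SigU.hol2 Z).sig U hs hc hr hO hP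

end Vale.Agent.P290Z.Lat
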