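import Vale.Agent.P290Z.Lat.Top
import Vale.Agent.P290Z.Lat.EvenU
import Vale.Agent.P290Z.Lat.SigU
import Vale.Agent.P290Z.Lat.Rank
import Vale.Agent.P290Z.W.KurMain
import Vale.Agent.P290Z.W.BRTame

/-! P290Z, part III: the lattice of a K3 surface is even, unimodular, of signature `(3, 19)`. -/

namespace Vale.Agent.P290Z.Lat

/-- LAT -/
theorem stLat : Top.StLat := lat (evenU W.BR.tame W.Kur.kur0_main) (sigU W.BR.tame) rank

end Vale.Agent.P290Z.Lat
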