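import Vale.Agent.P290Z.Lat.Spec
import Vale.Agent.P290.H416.UniF

/-! P290Z, part III: unimodular sublattices split off; indefinite unimodular lattices split off
a hyperbolic plane. -/

set_option linter.all false

open Set Matrix

namespace Vale.Agent.P290Z.Lat

open Vale.Agent.P290.H726

theorem comp_ker {ι μ : Type} [Fintype ι] [Fintype μ] (φ : Matrix μ ι ℤ) :
    ∃ (n : ℕ) (B : Matrix ι (Fin n) ℤ), φ * B = 0 ∧
      (∀ {κ : Type} (X : Matrix (Fin n) κ ℤ), B * X = 0 → X = 0) ∧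
      ∀ π : Matrix ι ι ℤ, φ * π = 0 → ∃ C : Matrix (Fin n) ι ℤ, B * C = π := by
  let b := Module.finBasis ℤ (LinearMap.ker φ.mulVecLin)
  have hBv : ∀ c, (Matrix.of fun i j => (b j : ι → ℤ) i) *ᵥ c = (∑ j, c j • b j).1 :=
    fun c => funext fun i => by simp [mulVec, dotProduct, mul_comm]
  refine ⟨_, Matrix.of fun i j => (b j : ι → ℤ) i, Matrix.ext fun a j => congrFun (b j).2 a,
    fun X h => Matrix.ext fun j a => Fintype.linearIndependent_iff.1 b.linearIndependent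
      (fun j => X j a) (Subtype.ext ((hBv _).symm.trans
        (funext fun i => congrFun (congrFun h i) a))) j, fun π hπ => ?_⟩
  have h1 : ∀ i, π.col i ∈ LinearMap.ker φ.mulVecLin := fun i =>
    funext fun a => congrFun (congrFun hπ a) i
  refine ⟨Matrix.of fun j i => b.repr ⟨_, h1 i⟩ j, Matrix.ext fun k i => ?_⟩
  have h2 := congrFun (hBv (b.repr ⟨_, h1 i⟩)) k
  rw [b.sum_repr] at h2
  exact h2

theorem comp : StComp := by
  intro ι μ _ _ _ _ G hs hG u hu
  have hT : Gᵀ = G := Matrix.ext fun i j => hs j i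
  obtain ⟨n, B, hB, inj, hK⟩ := comp_ker (uᵀ * G)
  obtain ⟨C, hC⟩ := hK (1 - u * ((uᵀ * G * u)⁻¹ * (uᵀ * G))) (by
    rw [Matrix.mul_sub, Matrix.mul_one, ← Matrix.mul_assoc, mul_nonsing_inv_cancel_left _ _ hu,
      sub_self])
  have e1 : fromCols u B * fromRows ((uᵀ * G * u)⁻¹ * (uᵀ * G)) C = 1 := by
    rw [fromCols_mul_fromRows, hC, add_sub_cancel]
  have e2 : fromRows ((uᵀ * G * u)⁻¹ * (uᵀ * G)) C * fromCols u B = 1 := by
    have a1 : C * u = 0 := inj _ (by
      rw [← Matrix.mul_assoc, hC, Matrix.sub_mul, Matrix.one_mul, Matrix.mul_assoc,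
        Matrix.mul_assoc, nonsing_inv_mul _ hu, Matrix.mul_one, sub_self])
    have a2 : C * B - 1 = 0 := inj _ (by
      rw [Matrix.mul_sub, ← Matrix.mul_assoc, hC, Matrix.sub_mul, Matrix.one_mul, Matrix.mul_assoc,
        Matrix.mul_assoc, hB, Matrix.mul_zero, Matrix.mul_zero, sub_zero, Matrix.mul_one, sub_self])
    rw [fromRows_mul_fromCols, Matrix.mul_assoc, nonsing_inv_mul _ hu, Matrix.mul_assoc, hB,
      Matrix.mul_zero, a1, sub_eq_zero.1 a2, fromBlocks_one]
  have e3 : (fromCols u B)ᵀ * G * fromCols u B = osum (uᵀ * G * u) (Bᵀ * G * B) := by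
    have a1 : Bᵀ * G * u = 0 := by
      simpa only [transpose_mul, transpose_transpose, hT, transpose_zero, Matrix.mul_assoc]
        using congrArg transpose hB
    rw [transpose_fromCols, fromRows_mul, fromRows_mul_fromCols, hB, a1, osum]
  have e4 : IsUnit (osum (uᵀ * G * u) (Bᵀ * G * B)).det :=
    isUnit_det_of_right_inverse (B := fromRows ((uᵀ * G * u)⁻¹ * (uᵀ * G)) C * (G⁻¹ *
      (fromRows ((uᵀ * G * u)⁻¹ * (uᵀ * G)) C)ᵀ)) (by
      rw [← e3, Matrix.mul_assoc, ← Matrix.mul_assoc (fromCols u B), e1, Matrix.one_mul,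
        Matrix.mul_assoc, mul_nonsing_inv_cancel_left _ _ hG, ← transpose_mul, e2, transpose_one])
  refine ⟨_, Bᵀ * G * B, fun i j => ?_, ?_, ?_, _, e3, _, e1, e2⟩
  · rw [← transpose_apply (Bᵀ * G * B) i j, transpose_mul, transpose_mul, transpose_transpose, hT,
      Matrix.mul_assoc]
  · rw [osum, det_fromBlocks_zero₂₁] at e4
    exact isUnit_of_mul_isUnit_right e4
  · have := trace_mul_comm (fromCols u B) (fromRows ((uᵀ * G * u)⁻¹ * (uᵀ * G)) C)
    rw [e1, e2, trace_one, trace_one, Fintype.card_sum, Fintype.card_fin] at this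
    exact_mod_cast this.symm

section

variable {ι κ : Type} [Fintype ι] [DecidableEq ι] [Fintype κ] [DecidableEq κ]
  {G : Matrix ι ι ℤ}

theorem hyp_dot (G : Matrix ι ι ℤ) (x y : ι → ℤ) : bil G x y = x ⬝ᵥ G *ᵥ y := by
  simp only [bil, dotProduct, mulVec, Finset.mul_sum, Int.cast_id]
  exact Finset.sum_congr rfl fun i _ => Finset.sum_congr rfl fun j _ => by ring

theorem hyp_ev {A : Matrix (Fin 2) (Fin 2) ℤ} {H : Matrix κ κ ℤ} (h : Equi (osum A H) G)
    (hG : Ev G) : Ev H := fun z => by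
  obtain ⟨g, hg, -⟩ := h
  have h1 := hG (g *ᵥ Sum.elim 0 z)
  rw [hyp_dot, mulVec_mulVec, ← vecMul_transpose, dotProduct_mulVec, vecMul_vecMul,
    ← dotProduct_mulVec, ← Matrix.mul_assoc, hg, ← hyp_dot] at h1
  simpa [bil, osum] using h1

theorem hyp_pair (hC : StComp) (hs : ∀ i j, G i j = G j i) (hG : IsUnit G.det) (e f : ι → ℤ)
    {A : Matrix (Fin 2) (Fin 2) ℤ} (hA : IsUnit A.det)
    (h : !![bil G e e, bil G e f; bil G e f, bil G f f] = A) :
    ∃ (n : ℕ) (H : Matrix (Fin n) (Fin n) ℤ), (∀ i j, H i j = H j i) ∧ IsUnit H.det ∧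
      2 + n = Fintype.card ι ∧ Equi (osum A H) G := by
  have h1 : ∀ a b, ((Matrix.of ![e, f])ᵀᵀ * G * (Matrix.of ![e, f])ᵀ) a b =
      bil G (![e, f] a) (![e, f] b) := fun a b => by
    rw [hyp_dot, Matrix.mul_assoc]
    rfl
  have h2 : (Matrix.of ![e, f])ᵀᵀ * G * (Matrix.of ![e, f])ᵀ = A := by
    rw [← h]
    ext a b
    rw [h1]
    fin_cases a <;> fin_cases b <;> simp [bil_symm G hs f e]
  have h3 := hC ι (Fin 2) G hs hG (Matrix.of ![e, f])ᵀ (h2 ▸ hA)
  rwa [h2, Fintype.card_fin] at h3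

theorem hyp_prim (hs : ∀ i j, G i j = G j i) (hG : IsUnit G.det) (hi : Indef G) :
    ∃ x y : ι → ℤ, bil G x x = 0 ∧ bil G x y = 1 := by
  obtain ⟨⟨vp, hp⟩, vm, hm⟩ := hi
  have e : ∀ {R : Type} [CommRing R] (v : ι → R), ∑ i, ∑ j, v i * (G i j : R) * v j = bil G v v :=
    fun v => Finset.sum_congr rfl fun i _ => Finset.sum_congr rfl fun j _ => by ring
  obtain ⟨x, h0, hx⟩ := Vale.Agent.P290.H416.Uni.isotropic_of_unimodular G
    (Matrix.ext fun i j => hs j i) hG vp vm (by rwa [e]) (by rwa [e])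
  replace hx : bil G x x = 0 := (e x).symm.trans hx
  obtain ⟨c, hc⟩ := Finset.univ.gcd_eq_sum_mul x
  have hd : Finset.univ.gcd x ≠ 0 := fun h =>
    h0 (funext fun i => Finset.gcd_eq_zero_iff.1 h i (Finset.mem_univ i))
  choose x' hx' using fun i => Finset.gcd_dvd (f := x) (Finset.mem_univ i)
  generalize Finset.univ.gcd x = d at hc hd hx'
  obtain rfl : x = d • x' := funext hx'
  rw [bil_smul_left, bil_smul_right] at hx
  refine ⟨x', G⁻¹ *ᵥ c, by simpa [hd] using hx, mul_left_cancel₀ hd ?_⟩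
  rw [hyp_dot, mulVec_mulVec, mul_nonsing_inv _ hG, one_mulVec, mul_one, ← smul_eq_mul,
    ← smul_dotProduct]
  exact hc.symm

end

theorem hyp (hC : StComp) : StHyp := by
  intro ι _ _ G hs hG hi
  obtain ⟨x, y, hx, hy⟩ := hyp_prim hs hG hi
  have hy' : bil G y x = 1 := (bil_symm G hs y x).trans hy
  by_cases hE : Ev G
  · obtain ⟨m, hm⟩ := hE y
    obtain ⟨n, H, h1, h2, h3, h4⟩ := hyp_pair hC hs hG x (y - m • x) (A := HU) (by simp [HU]) (by
      simp only [bil_sub_left, bil_sub_right, bil_smul_left, bil_smul_right, hx, hy, hy', hm, HU]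
      congr <;> ring)
    exact ⟨n, H, h1, h2, h3, fun _ => ⟨hyp_ev h4 hE, h4⟩, fun h => absurd hE h⟩
  · obtain ⟨z, m, hz, hm⟩ : ∃ z m, bil G x z = 1 ∧ bil G z z = 2 * m + 1 := by
      rcases Int.even_or_odd (bil G y y) with ⟨k, hk⟩ | ⟨k, hk⟩
      · obtain ⟨t, ht⟩ := not_forall.1 hE
        obtain ⟨l, hl⟩ := Int.not_even_iff_odd.1 ht
        refine ⟨t + (1 - bil G x t) • y, l + (1 - bil G x t) * bil G t y + (1 - bil G x t) ^ 2 * k,
          ?_, ?_⟩ <;>
          simp only [bil_add_left, bil_add_right, bil_smul_left, bil_smul_right, hy, hk, hl,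
            bil_symm G hs y t] <;> ring
      · exact ⟨y, k, hy, hk⟩
    have hz' : bil G z x = 1 := (bil_symm G hs z x).trans hz
    obtain ⟨n, H, h1, h2, h3, h4⟩ := hyp_pair hC hs hG (z - m • x) (z - (m + 1) • x) (A := HI)
      (by simp [HI]) (by
      simp only [bil_sub_left, bil_sub_right, bil_smul_left, bil_smul_right, hx, hz, hz', hm, HI]
      congr <;> ring)
    exact ⟨n, H, h1, h2, h3, fun h => absurd h hE, fun _ => h4⟩

end Vale.Agent.P290Z.Lat
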