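import Vale.Agent.P290Z.Lat.Spec

/-! P290Z, part III, lattice block GEN: generic periods orthogonal to given integral vectors. -/

open Set Filter Matrix
open scoped ComplexConjugate Topology

namespace Vale.Agent.P290Z.Lat

open Vale.Agent.P290.H726

namespace GenP

/-- at a generic point, countably many analytic functions vanish only if they vanish identically -/
theorem generic {E F J : Type} [NormedAddCommGroup E] [NormedSpace ℝ E] [NormedAddCommGroup F]
    [NormedSpace ℝ F] [Countable J] (f : J → E → F) (hf : ∀ j x, AnalyticAt ℝ (f j) x) :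
    ∀ᶠ x in residual E, ∀ j, f j x = 0 → ∀ x', f j x' = 0 := by
  refine eventually_countable_forall.2 fun j => ?_
  by_cases h : ∀ x', f j x' = 0
  · exact Eventually.of_forall fun x _ => h
  · have hc : Continuous (f j) := continuous_iff_continuousAt.2 fun x => (hf j x).continuousAt
    have ho : IsOpen {x | f j x ≠ 0} := isOpen_ne_fun hc continuous_const
    have hd : Dense {x | f j x ≠ 0} := by
      intro x
      by_contra hx
      have h1 : f j =ᶠ[𝓝 x] 0 := by
        have h2 := (isClosed_closure (s := {x | f j x ≠ 0})).isOpen_compl.mem_nhds hx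
        filter_upwards [h2] with y hy
        by_contra h3
        exact hy (subset_closure h3)
      have h4 := AnalyticOnNhd.eq_of_eventuallyEq (𝕜 := ℝ) (f := f j) (g := 0)
        (fun y _ => hf j y) (fun y _ => analyticAt_const) h1
      exact h fun x' => congrFun h4 x'
    filter_upwards [residual_of_dense_open ho hd] with x hx h0
    exact absurd h0 hx

variable {ι : Type} [Fintype ι] (G : Matrix ι ι ℤ)

theorem an_bil {E A : Type} [NormedAddCommGroup E] [NormedSpace ℝ E] [NormedCommRing A]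
    [NormedAlgebra ℝ A] {u v : E → ι → A} {x : E} (hu : ∀ i, AnalyticAt ℝ (fun y => u y i) x)
    (hv : ∀ i, AnalyticAt ℝ (fun y => v y i) x) :
    AnalyticAt ℝ (fun y => bil G (u y) (v y)) x := by
  unfold bil
  refine Finset.analyticAt_fun_sum _ fun i _ => Finset.analyticAt_fun_sum _ fun j _ => ?_
  exact (analyticAt_const.mul (hu i)).mul (hv j)

theorem bil_cs (R : Type) [CommRing R] (x y : ι → ℤ) :
    bil G (cs R x) (cs R y) = ((bil G x y : ℤ) : R) :=
  bil_map G (Int.castRingHom R) x y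

theorem bil_cr (x y : ι → ℝ) : bil G (cr x) (cr y) = ((bil G x y : ℝ) : ℂ) := bil_ofReal G x y

theorem span_orth {R : Type} [CommRing R] {S : Set (ι → ℤ)} {y : ι → ℤ}
    (h : ∀ z ∈ S, bil G z y = 0) {x : ι → R} (hx : x ∈ Submodule.span R (cs R '' S)) :
    bil G x (cs R y) = 0 := by
  induction hx using Submodule.span_induction with
  | mem x hx =>
    obtain ⟨z, hz, rfl⟩ := hx
    rw [bil_cs, h z hz, Int.cast_zero]
  | zero => exact bil_zero_left G _
  | add x x' _ _ h1 h2 => rw [bil_add_left, h1, h2, add_zero]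
  | smul a x _ h1 => rw [bil_smul_left, h1, mul_zero]

theorem bil_vre (s : ι → ℂ) (w : ι → ℤ) : bil G (vre s) (cs ℝ w) = (bil G s (cs ℂ w)).re := by
  simp only [bil, vre, cs, Complex.re_sum, Complex.mul_re, Complex.mul_im, Complex.intCast_re,
    Complex.intCast_im, zero_mul, mul_zero, sub_zero, add_zero]

omit [Fintype ι] in
theorem cs_eq_cr (v : ι → ℤ) : cs ℂ v = cr (cs ℝ v) := by
  funext i
  simp [cs, cr]

omit [Fintype ι] in
theorem vcj_cr (a b : ι → ℝ) : vcj (cr a + Complex.I • cr b) = cr a - Complex.I • cr b := by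
  funext i
  simp [vcj, cr, sub_eq_add_neg]

theorem bil_vcj (hG : ∀ i j, G i j = G j i) (a b : ι → ℝ) :
    (bil G (cr a + Complex.I • cr b) (vcj (cr a + Complex.I • cr b))).re =
      bil G a a + bil G b b := by
  rw [vcj_cr]
  simp only [bil_add_left, bil_sub_right, bil_smul_left, bil_smul_right, bil_cr,
    bil_symm G hG b a]
  simp

theorem bil_sq (hG : ∀ i j, G i j = G j i) (a b : ι → ℝ) (h1 : bil G a a = bil G b b)
    (h2 : bil G a b = 0) : bil G (cr a + Complex.I • cr b) (cr a + Complex.I • cr b) = 0 := by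
  have hI : Complex.I * Complex.I = -1 := Complex.I_mul_I
  simp only [bil_add_left, bil_add_right, bil_smul_left, bil_smul_right, bil_cr,
    bil_symm G hG b a, h1, h2]
  push_cast
  linear_combination ((bil G b b : ℝ) : ℂ) * hI

/-- the isotropic vector over `z` -/
noncomputable def pA (e f : ι → ℤ) (k : ℤ) (z : ι → ℂ) : ι → ℂ :=
  cs ℂ f + z - (bil G z z / (2 * k)) • cs ℂ e

theorem bil_pA (e f : ι → ℤ) (k : ℤ) (z : ι → ℂ) (y : ι → ℤ) :
    bil G (pA G e f k z) (cs ℂ y) =
      (bil G f y : ℤ) + bil G z (cs ℂ y) - bil G z z / (2 * k) * (bil G e y : ℤ) := by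
  rw [pA, bil_sub_left, bil_add_left, bil_smul_left, bil_cs, bil_cs]

/-- the relations to be avoided -/
def gA (k : ℤ) (n : ℤ × ℤ × ℤ) (c₁ c₂ : ℂ) : ℝ :=
  (n.1 * c₁.re - k * n.2.1) * c₂.im - (n.1 * c₂.re - k * n.2.2) * c₁.im

/-- the vector of norm `vv` over the pair `τ`, `z` -/
noncomputable def wB (e f : ι → ℤ) (vv k τ : ℝ) (z : ι → ℝ) : ι → ℝ :=
  τ • cs ℝ f + z + ((vv - bil G z z) / (2 * k * τ)) • cs ℝ e

theorem bil_wB (e f : ι → ℤ) (vv k τ : ℝ) (z : ι → ℝ) (y : ι → ℤ) :
    bil G (wB G e f vv k τ z) (cs ℝ y) = τ * (bil G f y : ℤ) + bil G z (cs ℝ y) +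
      (vv - bil G z z) / (2 * k * τ) * (bil G e y : ℤ) := by
  rw [wB, bil_add_left, bil_add_left, bil_smul_left, bil_smul_left, bil_cs, bil_cs]

/-- the relations to be avoided -/
noncomputable def gB (e f : ι → ℤ) (vv k : ℝ) (y : ι → ℤ) (q τ : ℝ) (z : ι → ℝ) : ℝ :=
  (τ ^ 2 * (bil G f y : ℤ) + τ * bil G z (cs ℝ y) +
    (vv - bil G z z) / (2 * k) * (bil G e y : ℤ)) ^ 2 - q * τ ^ 2

theorem an_gB {E : Type} [NormedAddCommGroup E] [NormedSpace ℝ E] (e f : ι → ℤ) (vv k : ℝ)
    (y : ι → ℤ) (q : ℝ) {τ : E → ℝ} {u : E → ι → ℝ} {x : E} (hτ : AnalyticAt ℝ τ x)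
    (hu : ∀ i, AnalyticAt ℝ (fun z => u z i) x) :
    AnalyticAt ℝ (fun z => gB G e f vv k y q (τ z) (u z)) x := by
  have h1 : AnalyticAt ℝ (fun z => bil G (u z) (cs ℝ y)) x :=
    an_bil G hu fun _ => analyticAt_const
  have h2 : AnalyticAt ℝ (fun z => bil G (u z) (u z)) x := an_bil G hu hu
  simp only [gB, div_eq_mul_inv]
  fun_prop

end GenP

open GenP in
/-- GEN A -/
theorem genA : StGenA := by
  intro ι μ _ _ G hG m e f k hk hee hff hef hem hfm
  have hfe : ∀ i j, bil G (f j) (e i) = if i = j then k else 0 := fun i j => by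
    rw [bil_symm G hG, hef]
  have hkC : (k : ℂ) ≠ 0 := Int.cast_ne_zero.2 hk
  have hkR : (k : ℝ) ≠ 0 := Int.cast_ne_zero.2 hk
  set S : Set (ι → ℤ) :=
    {z | (∀ a, bil G z (m a) = 0) ∧ bil G z (e 0) = 0 ∧ bil G z (f 0) = 0} with hS
  set E : Submodule ℂ (ι → ℂ) := Submodule.span ℂ (cs ℂ '' S) with hE
  have hSE : ∀ z ∈ S, cs ℂ z ∈ E := fun z hz => Submodule.subset_span (mem_image_of_mem _ hz)
  have he1 : e 1 ∈ S := ⟨hem 1, hee 1 0, by rw [hef]; rfl⟩
  have hf1 : f 1 ∈ S := ⟨hfm 1, by rw [hfe]; rfl, hff 1 0⟩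
  have hf2 : f 2 ∈ S := ⟨hfm 2, by rw [hfe]; rfl, hff 2 0⟩
  have hEe : ∀ z ∈ E, bil G z (cs ℂ (e 0)) = 0 := fun z hz => span_orth G (fun z h => h.2.1) hz
  have hEf : ∀ z ∈ E, bil G z (cs ℂ (f 0)) = 0 := fun z hz => span_orth G (fun z h => h.2.2) hz
  have : CompleteSpace E := FiniteDimensional.complete ℂ E
  have an0 : ∀ i (z : E), AnalyticAt ℝ (fun y : E => (y : ι → ℂ) i) z := fun i z =>
    (((ContinuousLinearMap.proj i : (ι → ℂ) →L[ℂ] ℂ).comp E.subtypeL).restrictScalars ℝ).analyticAt z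
  have an1 : ∀ i (z : E), AnalyticAt ℝ (fun y : E => pA G (e 0) (f 0) k y i) z := fun i z => by
    simp only [pA, Pi.sub_apply, Pi.add_apply, Pi.smul_apply, smul_eq_mul, div_eq_mul_inv]
    exact (analyticAt_const.add (an0 i z)).sub
      (((an_bil G (an0 · z) (an0 · z)).mul analyticAt_const).mul analyticAt_const)
  have an2 : ∀ (w : ι → ℤ) (z : E), AnalyticAt ℝ (fun y : E => bil G (y : ι → ℂ) (cs ℂ w)) z :=
    fun w z => an_bil G (an0 · z) fun _ => analyticAt_const
  have g1 := generic (fun (y : ι → ℤ) (z : E) => bil G (pA G (e 0) (f 0) k z) (cs ℂ y))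
    fun y z => an_bil G (an1 · z) fun _ => analyticAt_const
  have g2 := generic (fun (n : ℤ × ℤ × ℤ) (z : E) =>
      gA k n (bil G (z : ι → ℂ) (cs ℂ (e 1))) (bil G (z : ι → ℂ) (cs ℂ (e 2)))) fun n z => by
    have r := fun w => (Complex.reCLM.analyticAt _).comp (an2 w z)
    have i := fun w => (Complex.imCLM.analyticAt _).comp (an2 w z)
    exact (((analyticAt_const.mul (r _)).sub analyticAt_const).mul (i _)).sub
      (((analyticAt_const.mul (r _)).sub analyticAt_const).mul (i _))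
  have hU : IsOpen {z : E | 0 < (bil G (pA G (e 0) (f 0) k z) (vcj (pA G (e 0) (f 0) k z))).re} := by
    refine isOpen_lt continuous_const (Complex.continuous_re.comp ?_)
    refine continuous_iff_continuousAt.2 fun z => AnalyticAt.continuousAt (𝕜 := ℝ) ?_
    exact an_bil G (an1 · z) fun i =>
      ((Complex.conjCLE : ℂ →L[ℝ] ℂ).analyticAt _).comp (an1 i z)
  have hU' : {z : E |
      0 < (bil G (pA G (e 0) (f 0) k z) (vcj (pA G (e 0) (f 0) k z))).re}.Nonempty := by
    have hI : Complex.I * Complex.I = -1 := Complex.I_mul_I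
    refine ⟨⟨Complex.I • (cs ℂ (e 1) + (k : ℂ) • cs ℂ (f 1)),
      E.smul_mem _ (E.add_mem (hSE _ he1) (E.smul_mem _ (hSE _ hf1)))⟩, ?_⟩
    have h1 : bil G (Complex.I • (cs ℂ (e 1) + (k : ℂ) • cs ℂ (f 1)))
        (Complex.I • (cs ℂ (e 1) + (k : ℂ) • cs ℂ (f 1))) / (2 * k) = -k := by
      simp only [bil_add_left, bil_add_right, bil_smul_left, bil_smul_right, bil_cs, hee, hff, hef,
        hfe, if_true, Int.cast_zero]
      rw [div_eq_iff (mul_ne_zero two_ne_zero hkC)]
      linear_combination (2 * (k : ℂ) ^ 2) * hI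
    have h2 : pA G (e 0) (f 0) k (Complex.I • (cs ℂ (e 1) + (k : ℂ) • cs ℂ (f 1))) =
        cr (cs ℝ (f 0) + (k : ℝ) • cs ℝ (e 0)) +
          Complex.I • cr (cs ℝ (e 1) + (k : ℝ) • cs ℝ (f 1)) := by
      rw [pA, h1]
      funext i
      simp only [cs, cr, Pi.add_apply, Pi.sub_apply, Pi.smul_apply, smul_eq_mul]
      push_cast
      ring
    rw [mem_ofPred_eq, h2, bil_vcj G hG]
    simp only [bil_add_left, bil_add_right, bil_smul_left, bil_smul_right, bil_cs, hee, hff, hef,
      hfe, if_true, Int.cast_zero]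
    have h3 : 0 < (k : ℝ) * k := mul_self_pos.2 hkR
    linarith
  obtain ⟨z, hz, hz1, hz2⟩ := (dense_of_mem_residual (g1.and g2)).inter_open_nonempty _ hU hU'
  refine ⟨pA G (e 0) (f 0) k z, ⟨?_, hz⟩, ?_, ?_⟩
  · have h1 := hEe z z.2
    have h2 := hEf z z.2
    have h3 := (bil_symm G hG _ _).trans h1
    have h4 := (bil_symm G hG _ _).trans h2
    simp only [pA, bil_add_left, bil_add_right, bil_sub_left, bil_sub_right, bil_smul_left,
      bil_smul_right, bil_cs, hee, hff, hef, hfe, if_true, Int.cast_zero, h1, h2, h3, h4]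
    field_simp
    ring
  · have key : ∀ n, gA k n (bil G (z : ι → ℂ) (cs ℂ (e 1))) (bil G (z : ι → ℂ) (cs ℂ (e 2))) = 0 →
        n = 0 := by
      intro n hn
      have h := hz2 n hn
      have h1 := h ⟨Complex.I • cs ℂ (f 1), E.smul_mem _ (hSE _ hf1)⟩
      have h2 := h ⟨Complex.I • cs ℂ (f 2), E.smul_mem _ (hSE _ hf2)⟩
      have h3 := h ⟨cs ℂ (f 1) + Complex.I • cs ℂ (f 2),
        E.add_mem (hSE _ hf1) (E.smul_mem _ (hSE _ hf2))⟩
      simp [gA, bil_add_left, bil_smul_left, bil_cs, hfe, hk] at h1 h2 h3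
      rw [h2] at h3
      simp [hk] at h3
      exact Prod.ext h3 (Prod.ext h2 h1)
    intro x l hx
    have h : ∀ w, ((bil G x w : ℤ) : ℝ) = (l * bil G (pA G (e 0) (f 0) k z) (cs ℂ w)).re := by
      intro w
      rw [← bil_cs, hx, bil_vre, bil_smul_left]
    have h0 := h (e 0)
    have h1 := h (e 1)
    have h2 := h (e 2)
    rw [bil_pA] at h0 h1 h2
    simp [hfe, hee, hEe z z.2] at h0 h1 h2
    have h3 := key (bil G x (e 0), bil G x (e 1), bil G x (e 2)) (by
      simp only [gA, h0, h1, h2]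
      ring)
    have h4 : bil G x (e 0) = 0 := congrArg (·.1) h3
    have h5 : bil G x (e 1) = 0 := congrArg (·.2.1) h3
    have h6 : (bil G (z : ι → ℂ) (cs ℂ (e 1))).im ≠ 0 := by
      intro h7
      have h8 := key (0, 0, 1) (by simp [gA, h7])
      simp at h8
    rw [h4] at h0
    rw [h5] at h1
    have h7 : l.re = 0 := by
      have : l.re * k = 0 := by rw [← h0]; simp
      exact (mul_eq_zero.1 this).resolve_right hkR
    have h8 : l.im = 0 := by
      have : l.im * (bil G (z : ι → ℂ) (cs ℂ (e 1))).im = 0 := by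
        rw [h7] at h1
        simpa using h1
      exact (mul_eq_zero.1 this).resolve_right h6
    have h9 : l = 0 := Complex.ext h7 h8
    funext i
    have h10 := congrFun hx i
    simpa [h9, cs, vre] using h10
  · intro y
    constructor
    · intro hy w hw
      have h := hz1 y hy
      have h0 := h 0
      simp [bil_pA, bil_zero_left] at h0
      have h1 : ∀ x ∈ E, bil G x (cs ℂ y) = 0 ∧ bil G x x * (bil G (e 0) y : ℤ) = 0 := by
        intro x hx
        have a1 := h ⟨x, hx⟩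
        have a2 := h ⟨-x, E.neg_mem hx⟩
        simp only [bil_pA, h0, bil_neg_left, bil_neg_right, neg_neg, Int.cast_zero] at a1 a2
        refine ⟨by linear_combination (1 / 2 : ℂ) * a1 - (1 / 2 : ℂ) * a2, ?_⟩
        have a3 : bil G x x / (2 * k) * (bil G (e 0) y : ℤ) = 0 := by
          linear_combination (-1 / 2 : ℂ) * a1 - (1 / 2 : ℂ) * a2
        rw [div_mul_eq_mul_div, div_eq_zero_iff] at a3
        exact a3.resolve_right (mul_ne_zero two_ne_zero hkC)
      have h2 : bil G (e 0) y = 0 := by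
        have a1 := (h1 _ (E.add_mem (hSE _ he1) (hSE _ hf1))).2
        simp only [bil_add_left, bil_add_right, bil_cs, hee, hff, hef, hfe, if_true,
          Int.cast_zero] at a1
        have a2 : (2 * k : ℂ) * (bil G (e 0) y : ℤ) = 0 := by linear_combination a1
        exact Int.cast_eq_zero.1
          ((mul_eq_zero.1 a2).resolve_left (mul_ne_zero two_ne_zero hkC))
      have h3 : k • w - bil G w (f 0) • e 0 - bil G w (e 0) • f 0 ∈ S := by
        refine ⟨fun a => ?_, ?_, ?_⟩
        · simp only [bil_sub_left, bil_smul_left, hw, hem, hfm]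
          ring
        · simp only [bil_sub_left, bil_smul_left, hee, hfe, if_true]
          ring
        · simp only [bil_sub_left, bil_smul_left, hff, hef, if_true]
          ring
      have h4 := (h1 _ (hSE _ h3)).1
      rw [bil_cs, Int.cast_eq_zero] at h4
      simp only [bil_sub_left, bil_smul_left, h0, h2, mul_zero, sub_zero] at h4
      exact (mul_eq_zero.1 h4).resolve_left hk
    · intro hy
      rw [bil_pA, hy _ (hfm 0), hy _ (hem 0), span_orth G (fun w h => hy w h.1) z.2]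
      simp

open GenP in
/-- GEN B -/
theorem genB : StGenB := by
  intro ι μ _ _ G hG m v e f hv hee hff hef hve hvf hvm hem hfm
  have hfe : bil G f e = bil G e f := bil_symm G hG _ _
  have hev : bil G e v = 0 := (bil_symm G hG _ _).trans hve
  have hfv : bil G f v = 0 := (bil_symm G hG _ _).trans hvf
  have hkR : ((bil G e f : ℤ) : ℝ) ≠ 0 := Int.cast_ne_zero.2 hef
  have hvR : (0 : ℝ) < (bil G v v : ℤ) := Int.cast_pos.2 hv
  set S : Set (ι → ℤ) :=
    {z | (∀ a, bil G z (m a) = 0) ∧ bil G z v = 0 ∧ bil G z e = 0 ∧ bil G z f = 0} with hS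
  set W : Submodule ℝ (ι → ℝ) := Submodule.span ℝ (cs ℝ '' S) with hW
  have hSW : ∀ z ∈ S, cs ℝ z ∈ W := fun z hz => Submodule.subset_span (mem_image_of_mem _ hz)
  have hWv : ∀ z ∈ W, bil G z (cs ℝ v) = 0 := fun z hz => span_orth G (fun z h => h.2.1) hz
  have hWe : ∀ z ∈ W, bil G z (cs ℝ e) = 0 := fun z hz => span_orth G (fun z h => h.2.2.1) hz
  have hWf : ∀ z ∈ W, bil G z (cs ℝ f) = 0 := fun z hz => span_orth G (fun z h => h.2.2.2) hz
  have : CompleteSpace W := FiniteDimensional.complete ℝ W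
  have an0 : ∀ i (z : ℝ × W), AnalyticAt ℝ (fun y : ℝ × W => (y.2 : ι → ℝ) i) z := fun i z =>
    (((ContinuousLinearMap.proj i : (ι → ℝ) →L[ℝ] ℝ).comp W.subtypeL).comp
      (ContinuousLinearMap.snd ℝ ℝ W)).analyticAt z
  have g1 := generic (fun (j : (ι → ℤ) × ℚ) (z : ℝ × W) =>
      gB G e f (bil G v v : ℤ) (bil G e f : ℤ) j.1 j.2 z.1 z.2) fun j z =>
    an_gB G e f _ _ j.1 j.2 analyticAt_fst (an0 · z)
  have hU : IsOpen {z : ℝ × W | z.1 ≠ 0} := isOpen_ne_fun continuous_fst continuous_const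
  obtain ⟨⟨τ, z⟩, hτ, hz⟩ := (dense_of_mem_residual g1).inter_open_nonempty _ hU
    ⟨(1, 0), one_ne_zero⟩
  have hτ' : τ ≠ 0 := hτ
  set w := wB G e f (bil G v v : ℤ) (bil G e f : ℤ) τ z with hw
  have key : ∀ (y : ι → ℤ) (q : ℚ), bil G w (cs ℝ y) ^ 2 = q →
      bil G e y = 0 ∧ bil G f y = 0 ∧ ∀ x ∈ W, bil G x (cs ℝ y) = 0 := by
    intro y q hq
    have h := hz (y, q) (by
      rw [hw, bil_wB] at hq
      simp only [gB, ← hq]
      field_simp
      ring)
    have h0 := h (0, 0)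
    simp [gB, bil_zero_left, hef, hv.ne'] at h0
    have h1 := h (1, 0)
    have h2 := h (2, 0)
    simp only [gB, h0, ZeroMemClass.coe_zero, bil_zero_left, Int.cast_zero] at h1 h2
    have h3 : ((bil G f y : ℤ) : ℝ) ^ 2 = 0 := by linear_combination (1 / 12 : ℝ) * h2 - (1 / 3 : ℝ) * h1
    have h4 : bil G f y = 0 := Int.cast_eq_zero.1 (pow_eq_zero_iff two_ne_zero |>.1 h3)
    have h5 : (q : ℝ) = 0 := by linear_combination h3 - h1
    refine ⟨h0, h4, fun x hx => ?_⟩
    have h6 := h (1, ⟨x, hx⟩)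
    simp only [gB, h0, h4, h5, Int.cast_zero] at h6
    have h7 : bil G x (cs ℝ y) ^ 2 = 0 := by linear_combination h6
    exact pow_eq_zero_iff two_ne_zero |>.1 h7
  have hp : pt v w = cr (cs ℝ v) + Complex.I • cr w := by rw [pt, cs_eq_cr]
  have hww : bil G (cs ℝ v) (cs ℝ v) = bil G w w := by
    have h1 := hWe z z.2
    have h2 := hWf z z.2
    have h3 := (bil_symm G hG _ _).trans h1
    have h4 := (bil_symm G hG _ _).trans h2
    simp only [hw, wB, bil_add_left, bil_add_right, bil_smul_left, bil_smul_right, bil_cs, hee,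
      hff, hfe, Int.cast_zero, h1, h2, h3, h4]
    field_simp
    ring
  have hvw : bil G (cs ℝ v) w = 0 := by
    rw [bil_symm G hG, hw, bil_wB, hfv, hev, hWv z z.2]
    simp
  have hpy : ∀ y, bil G (pt v w) (cs ℂ y) =
      ((bil G v y : ℤ) : ℝ) + Complex.I * (bil G w (cs ℝ y) : ℝ) := by
    intro y
    rw [hp, cs_eq_cr y, bil_add_left, bil_smul_left, bil_cr, bil_cr, bil_cs]
  refine ⟨w, ⟨?_, ?_⟩, fun y => ⟨fun hy x hx => ?_, fun hy => ?_⟩, fun y q hq => ?_⟩
  · rw [hp]
    exact bil_sq G hG _ _ hww hvw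
  · rw [hp, bil_vcj G hG, ← hww, bil_cs]
    linarith
  · rw [hpy] at hy
    have h1 : bil G v y = 0 := by simpa using congrArg Complex.re hy
    have h2 : bil G w (cs ℝ y) = 0 := by simpa using congrArg Complex.im hy
    obtain ⟨h3, h4, h5⟩ := key y 0 (by rw [h2]; simp)
    have h6 : (bil G v v * bil G e f) • x - (bil G e f * bil G x v) • v -
        (bil G v v * bil G x f) • e - (bil G v v * bil G x e) • f ∈ S := by
      refine ⟨fun a => ?_, ?_, ?_, ?_⟩
      · simp only [bil_sub_left, bil_smul_left, hx, hem, hfm, hvm]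
        ring
      · simp only [bil_sub_left, bil_smul_left, hev, hfv]
        ring
      · simp only [bil_sub_left, bil_smul_left, hve, hee, hfe]
        ring
      · simp only [bil_sub_left, bil_smul_left, hvf, hff]
        ring
    have h7 := h5 _ (hSW _ h6)
    rw [bil_cs, Int.cast_eq_zero] at h7
    simp only [bil_sub_left, bil_smul_left, h1, h3, h4, mul_zero, sub_zero] at h7
    exact (mul_eq_zero.1 h7).resolve_left (mul_ne_zero hv.ne' hef)
  · rw [hpy, hw, bil_wB, hy _ hvm, hy _ hfm, hy _ hem, span_orth G (fun w h => hy w h.1) z.2]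
    simp
  · obtain ⟨h3, h4, h5⟩ := key y q hq
    rw [hw, bil_wB, h3, h4, h5 z z.2]
    simp

end Vale.Agent.P290Z.Lat
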