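import Vale.Agent.P290Z.Orb.All
import Vale.Agent.P290Z.Lat.Gen

/-! P290Z, part III: the lattice statements which enter the final assembly. -/

open Set Matrix

namespace Vale.Agent.P290Z.Top

open Vale.Agent.P290.H726 Vale.Agent.P290Z.Lat

variable {ι ι' : Type} [Fintype ι] [DecidableEq ι] [Fintype ι'] [DecidableEq ι']
  {G : Matrix ι ι ℤ} {G' : Matrix ι' ι' ℤ}

namespace Cf

theorem wu (i j : Fin 3) : bil N.G0 (N.w i) (N.u j) = if j = i then 2 else 0 :=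
  (bil_symm _ N.G0_symm _ _).trans (N.kum.uw j i)

theorem ue (i : Fin 3) (a : Fin 16) : bil N.G0 (N.u i) (N.e a) = 0 :=
  (bil_symm _ N.G0_symm _ _).trans (N.e_u a i)

theorem we (i : Fin 3) (a : Fin 16) : bil N.G0 (N.w i) (N.e a) = 0 :=
  (bil_symm _ N.G0_symm _ _).trans (N.e_w a i)

theorem sig0 : Sig N.G0 3 := by
  refine ⟨fun j => cs ℝ (N.u j) + cs ℝ (N.w j), fun a ha => ?_, fun x hx h => ?_⟩
  · obtain ⟨i, hi⟩ := Function.ne_iff.1 ha
    have h1 := mul_self_pos.2 hi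
    have h2 := fun j => mul_self_nonneg (a j)
    simp [Fin.sum_univ_three, bil_add_left, bil_add_right, bil_smul_left, bil_smul_right, bil_cs,
      N.kum.uu, N.kum.ww, N.kum.uw, wu, -smul_add]
    have h0 := h2 0
    have h1' := h2 1
    have h2' := h2 2
    fin_cases i <;> simp only [Fin.zero_eta, Fin.mk_one, Fin.reduceFinMk] at h1 <;> linarith
  · have h1 : ∀ j, N.co x (N.iw j) = -N.co x (N.iu j) := fun j => by
      have := h j
      rw [bil_add_right, show bil N.G0 x (cs ℝ (N.u j)) = _ from N.bil_u x j,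
        show bil N.G0 x (cs ℝ (N.w j)) = _ from N.bil_w x j] at this
      linarith
    have h2 := N.two_bil x x
    simp only [h1, mul_neg, neg_mul, Finset.sum_neg_distrib] at h2
    have a1 : 0 ≤ ∑ i, N.co x (N.iu i) * N.co x (N.iu i) :=
      Finset.sum_nonneg fun _ _ => mul_self_nonneg _
    have a2 : 0 ≤ ∑ i, N.co x (N.ie i) * N.co x (N.ie i) :=
      Finset.sum_nonneg fun _ _ => mul_self_nonneg _
    by_contra! h3
    have b1 := (Finset.sum_eq_zero_iff_of_nonneg fun i _ =>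
      mul_self_nonneg (N.co x (N.iu i))).1 (le_antisymm (by linarith) a1)
    have b2 := (Finset.sum_eq_zero_iff_of_nonneg fun i _ =>
      mul_self_nonneg (N.co x (N.ie i))).1 (le_antisymm (by linarith) a2)
    simp only [Finset.mem_univ, mul_self_eq_zero, true_imp_iff] at b1 b2
    exact hx (N.eq_zero_of_orth x (fun i => by rw [N.bil_u, h1, b1, neg_zero])
      (fun i => by rw [N.bil_w, b1]) fun a => by rw [N.bil_e, b2, neg_zero])

end Cf

open Cf

/-- the lattice in Kummer coordinates is even, unimodular, of signature `(3, 19)` -/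
theorem isK3L_G0 : IsK3L N.G0 := ⟨N.G0_symm, N.G0_even, N.G0_unit, by simp, sig0⟩

/-- CONF -/
theorem conf : StConf := fun ι _ _ G h =>
  (Orb.stIso ι (Fin 22) G N.G0 h isK3L_G0).elim fun g hg => ⟨⟨g, hg⟩⟩

/-- RAT -/
theorem rat : StRat := by
  intro ι _ _ G h v b hs hn r x hx
  by_contra hr
  obtain ⟨e, f, F⟩ := Orb.frame_of Orb.stIso model h
  let φ : (Fin 3 → ℤ) →ₗ[ℤ] Fin 2 → ℤ := mulVecLin (of fun k j => bil G (![v, x] k) (e j))
  obtain ⟨a, ha, h0⟩ := (Submodule.ne_bot_iff _).1 fun h : LinearMap.ker φ = ⊥ => by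
    simpa using LinearMap.finrank_le_finrank_of_injective (LinearMap.ker_eq_bot.1 h)
  have h1 : ∀ k, bil G (![v, x] k) (∑ j, a j • e j) = 0 := fun k => by
    simpa [φ, mulVec, dotProduct, Lat.bil_sum_right, bil_smul_right, mul_comm, -zsmul_eq_mul]
      using congrFun ha k
  have h2 := hn (∑ j, a j • e j) (by
    simp [Lat.bil_sum_right, Lat.bil_sum_left, bil_smul_right, bil_smul_left, F.ee,
      -zsmul_eq_mul]) (by
    have h3 : bil G b (cs ℝ (∑ j, a j • e j)) = 0 := by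
      refine (mul_eq_zero.1 ?_).resolve_left hr
      rw [← bil_smul_left, hx, bil_cs, show bil G x _ = 0 from h1 1, Int.cast_zero]
    rw [← cr_cs, bil_cr_right, vre_pt, vim_pt, h3, bil_cs, show bil G v _ = 0 from h1 0]
    simp)
  refine h0 (funext fun j => ?_)
  have := congrArg (fun y => bil G y (f j)) h2
  simpa [Lat.bil_sum_left, bil_smul_left, F.ef, bil_zero_left, -zsmul_eq_mul] using this

namespace Cf

omit [DecidableEq ι] in
theorem gen_smul {μ : Type} {m : μ → ι → ℤ} {p : ι → ℂ} (h : Gen G m p) {l : ℂ} (hl : l ≠ 0) :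
    Gen G m (l • p) := fun y => by
  rw [bil_smul_left, mul_eq_zero, or_iff_right hl, h]

theorem extra_map {g : Matrix ι ι' ℤ} (h : Isom G' G g) {w : ι' → ℝ} (hw : Extra G' w) :
    Extra G (act g w) := fun y q => by
  obtain ⟨y, rfl⟩ := h.act_surj y
  rw [← act_cs, h.bil]
  exact hw y q

theorem irr_map {g : Matrix ι ι' ℤ} (h : Isom G' G g) {w : ι' → ℝ} (hw : Irr w) :
    Irr (act g w) := fun r x hx => by
  obtain ⟨x, rfl⟩ := h.act_surj x
  rw [← act_cs, ← act_smul] at hx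
  exact hw r x (h.act_inj hx)

omit [DecidableEq ι] in
theorem irr_of_extra (hG : ∀ i j, G i j = G j i) {v : ι → ℤ} {w : ι → ℝ}
    (hs : IsPer G (pt v w)) (hw : Extra G w) : Irr w := fun r x hx => by
  obtain ⟨h1, -, h3⟩ := (isPer_pt_iff hG v w).1 hs
  have h4 : bil G w (cs ℝ x) = r * (bil G v v : ℤ) := by rw [← hx, bil_smul_right, h1]
  have h5 : ((bil G x x : ℤ) : ℝ) = r * r * (bil G v v : ℤ) := by
    rw [← bil_cs, ← hx, bil_smul_left, bil_smul_right, h1, mul_assoc]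
  have h6 := hw x ((bil G x x * bil G v v : ℤ) : ℚ) (by
    rw [h4, Rat.cast_intCast, Int.cast_mul, h5]
    ring)
  rw [h4] at h6
  exact (mul_eq_zero.1 h6).resolve_right (Int.cast_ne_zero.2 h3.ne')

/-- ORB A without the condition on isotropic vectors -/
theorem orbA (h : IsK3L G) {s p : ι → ℂ} (hs : IsPer G s) (hn : NoInt s) (h1 : bil G p p = 0)
    (h2 : bil G p (vcj p) = bil G s (vcj s)) : p ∈ Cl G ∅ s := by
  obtain ⟨e, f, F⟩ := Orb.frame_of Orb.stIso model h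
  have h3 : bil G p (star p) = bil G s (star s) := h2
  rw [Orb.cl_eq]
  refine closure_mono ?_ (Orb.stOrbA ι G e f s p (Orb.lat_of h) F hs (Orb.irr_of hn)
    ⟨h1, h3 ▸ hs.2⟩ h3)
  rintro _ ⟨g, hg, rfl⟩
  exact ⟨g, hg, fun _ h => h.elim, rfl⟩

/-- a generic Kummer period in whose orbit closure a given period lies -/
theorem exists_gen (h : IsK3L G) {s : ι → ℂ} (hs : IsPer G s) :
    ∃ (κ : KConf G) (p : Fin 22 → ℂ), IsPer N.G0 p ∧ Gen N.G0 N.e p ∧
      bil N.G0 p (vcj p) = bil G s (vcj s) ∧ s ∈ Cl G ∅ (act κ.g p) := by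
  obtain ⟨κ⟩ := conf ι G h
  obtain ⟨p, p1, p2, p3⟩ := genA (Fin 22) (Fin 16) N.G0 N.G0_symm N.e N.u N.w 2 two_ne_zero
    N.kum.uu N.kum.ww N.kum.uw ue we
  have hA := p1.2
  have hB := hs.2
  set l : ℝ := √((bil G s (vcj s)).re / (bil N.G0 p (vcj p)).re) with hl
  have h0 : (l : ℂ) ≠ 0 := Complex.ofReal_ne_zero.2 (Real.sqrt_pos.2 (div_pos hB hA)).ne'
  have h1 : bil N.G0 ((l : ℂ) • p) (vcj ((l : ℂ) • p)) = bil G s (vcj s) := by
    have h2 : l * l * (bil N.G0 p (vcj p)).re = (bil G s (vcj s)).re := by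
      rw [hl, Real.mul_self_sqrt (div_pos hB hA).le, div_mul_cancel₀ _ hA.ne']
    rw [bil_vcj_eq N.G0_symm, bil_vcj_eq h.symm, Complex.ofReal_re, Complex.ofReal_re] at h2
    rw [vcj_smul, bil_smul_left, bil_smul_right, Complex.conj_ofReal, bil_vcj_eq N.G0_symm,
      bil_vcj_eq h.symm, ← h2]
    push_cast
    ring
  exact ⟨κ, _, p1.smul h0, gen_smul p3 h0, h1, orbA h (κ.isom.isPer.2 (p1.smul h0))
    (κ.isom.noInt (p2.smul _)) hs.1 (by rw [← act_vcj, κ.isom.bil, h1])⟩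

/-- approximation of `v + i b` by the images of a period in Kummer coordinates -/
theorem near (h : IsK3L G) {v : ι → ℤ} {b : ι → ℝ} (hv : Prim G v) (hs : IsPer G (pt v b))
    (hb : Irr b) {v₀ : Fin 22 → ℤ} {w₀ : Fin 22 → ℝ} (hv₀ : Prim N.G0 v₀)
    (hn : bil N.G0 v₀ v₀ = bil G v v) (hs₀ : IsPer N.G0 (pt v₀ w₀)) (hw : Extra N.G0 w₀) {r : ℝ}
    (hr : 0 < r) : ∃ κ : KConf G, act κ.g (pt v₀ w₀) ∈ Cl G ∅ (pt v b) ∧
      ‖act κ.g (pt v₀ w₀) - pt v b‖ < r := by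
  obtain ⟨κ⟩ := conf ι G h
  obtain ⟨g, g1, g2⟩ := Orb.stLatEich ι G h _ v (κ.isom.prim hv₀) hv (by rw [κ.isom.bil, hn])
  have k1 := g1.comp κ.isom
  have k2 : act (g * κ.g) (pt v₀ w₀) = pt v (act (g * κ.g) w₀) := by rw [act_pt, act_mul, g2]
  have k3 : IsPer G (pt v (act (g * κ.g) w₀)) := k2 ▸ k1.isPer.2 hs₀
  obtain ⟨g', h1, -, h2⟩ := Cl.exists_near (Orb.stOrbC ι G h v _ b hv k3
    (irr_map k1 (irr_of_extra N.G0_symm hs₀ hw)) hs) (Metric.ball_mem_nhds _ hr)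
  refine ⟨⟨g' * (g * κ.g), h1.comp k1⟩, ?_, ?_⟩ <;> rw [act_mul, k2]
  · exact Cl.act' (Orb.stOrbC ι G h v b _ hv hs hb k3) h1
  · exact mem_ball_iff_norm.1 h2

/-- primitive vectors of square divisible by four -/
theorem apxK (h : IsK3L G) {v : ι → ℤ} {b : ι → ℝ} (hv : Prim G v) (hs : IsPer G (pt v b))
    (hb : Irr b) {k : ℤ} (hk : bil G v v = 4 * k) : ApxK G (pt v b) := by
  intro r hr
  have h1 : bil N.G0 (N.u 2 + k • N.w 2) (N.u 2 + k • N.w 2) = bil G v v := by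
    simp [bil_add_left, bil_add_right, bil_smul_left, bil_smul_right, N.kum.uu, N.kum.ww,
      N.kum.uw, wu, hk, -zsmul_eq_mul]
    ring
  obtain ⟨w, w1, w2, w3⟩ := genB (Fin 22) (Fin 16) N.G0 N.G0_symm N.e (N.u 2 + k • N.w 2) (N.u 0)
    (N.w 0) (h1 ▸ ((isPer_pt_iff h.symm v b).1 hs).2.2) (N.kum.uu _ _) (N.kum.ww _ _)
    (by simp [N.kum.uw]) (by simp [bil_add_left, bil_smul_left, N.kum.uu, wu, -zsmul_eq_mul])
    (by simp [bil_add_left, bil_smul_left, N.kum.ww, N.kum.uw, -zsmul_eq_mul])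
    (fun a => by simp [bil_add_left, bil_smul_left, ue, we, -zsmul_eq_mul]) (ue 0) (we 0)
  have h2 : bil N.G0 (N.u 2) (Pi.single 5 1) = 1 := by decide +kernel
  have h3 : bil N.G0 (N.w 2) (Pi.single 5 1) = 0 := by decide +kernel
  obtain ⟨κ, k1, k2⟩ := near h hv hs hb ⟨Pi.single 5 1, by
    rw [bil_add_left, bil_smul_left, h2, h3, mul_zero, add_zero]⟩ h1 w1 w3 hr
  exact ⟨_, k1, k2, κ.isom.isPer.2 w1, κ, κ.isom.gen w2⟩

/-- primitive vectors of square twice an odd number -/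
theorem apxN (h : IsK3L G) {v : ι → ℤ} {b : ι → ℝ} (hv : Prim G v) (hs : IsPer G (pt v b))
    (hb : Irr b) {d : ℤ} (hd : Odd d) (hk : bil G v v = 2 * d) : ApxN G (pt v b) := by
  intro r hr
  have h1 : bil N.G0 (N.vd d) (N.vd d) = bil G v v := by rw [N.vd_sq, hk]
  have h2 : bil N.G0 (Pi.single 0 1 : Fin 22 → ℤ) (N.w 0) = 1 := by decide +kernel
  have h3 : bil N.G0 (Pi.single 0 1 : Fin 22 → ℤ) (N.u 1) = 0 := by decide +kernel
  have h4 : bil N.G0 (Pi.single 0 1 : Fin 22 → ℤ) (N.w 1) = 0 := by decide +kernel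
  obtain ⟨w, w1, w2, w3⟩ := genB (Fin 22) (Fin 8) N.G0 N.G0_symm N.e8 (N.vd d) (N.u 1)
    (N.w 1) (h1 ▸ ((isPer_pt_iff h.symm v b).1 hs).2.2) (N.kum.uu _ _) (N.kum.ww _ _)
    (by simp [N.kum.uw]) (by rw [N.vd, bil_add_left, bil_smul_left, h3, wu]; simp)
    (by rw [N.vd, bil_add_left, bil_smul_left, h4, N.kum.ww]; simp) (N.vd_e8 d)
    (fun _ => ue 1 _) fun _ => we 1 _
  obtain ⟨κ, k1, k2⟩ := near h hv hs hb ⟨N.w 0, by
    rw [N.vd, bil_add_left, bil_smul_left, h2, N.kum.ww, mul_zero, add_zero]⟩ h1 w1 w3 hr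
  have k3 := κ.isom.isPer.2 w1
  have k4 := κ.isom.gen w2
  rw [act_pt] at k1 k2 k3 k4
  exact ⟨_, _, d, k1, k2, k3, hd, by rw [κ.isom.bil, N.vd_sq], extra_map κ.isom w3, κ, k4⟩

end Cf

/-- DENS -/
theorem dens : StDens := by
  intro ι _ _ G h s hs
  obtain ⟨κ, p, p1, p2, -, p3⟩ := exists_gen h hs
  refine closure_mono ?_ p3
  rintro _ ⟨g, hg, -, rfl⟩
  rw [← act_mul]
  exact ⟨(hg.comp κ.isom).isPer.2 p1, ⟨_, hg.comp κ.isom⟩, (hg.comp κ.isom).gen p2⟩

/-- APX -/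
theorem apx : StApx := by
  intro ι _ _ G h s hs hi
  by_cases hn : NoInt s
  · refine ⟨1, one_ne_zero, Or.inl fun r hr => ?_⟩
    obtain ⟨κ, p, p1, p2, p3, p4⟩ := exists_gen h hs
    obtain ⟨g, hg, -, h1⟩ := Cl.exists_near p4 (Metric.ball_mem_nhds _ hr)
    have k1 := hg.comp κ.isom
    rw [← act_mul] at h1
    rw [one_smul]
    exact ⟨_, orbA h hs hn (by rw [k1.bil, p1.1]) (by rw [← act_vcj, k1.bil, p3]),
      mem_ball_iff_norm.1 h1, k1.isPer.2 p1, ⟨_, k1⟩, k1.gen p2⟩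
  · obtain ⟨l, v, b, hl, hv, he⟩ := Lat.norm ι G h.unit s hn
    have h1 : IsPer G (pt v b) := he ▸ hs.smul hl
    have h2 := rat ι G h v b h1 (he ▸ hi.smul hl)
    obtain ⟨d, hd⟩ := h.even v
    exact ⟨l, hl, he ▸ (Int.even_or_odd d).imp (fun ⟨k, hk⟩ => apxK h hv h1 h2 (k := k) (by omega))
      fun hk => apxN h hv h1 h2 hk (by omega)⟩

/-- APX Z -/
theorem apxZ : StApxZ := by
  intro ι _ _ G h t w d hs hd ht hw
  obtain ⟨s1, s2, s3⟩ := (isPer_pt_iff h.symm t w).1 hs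
  obtain ⟨l, v, b, hl, hv, he⟩ := Lat.norm ι G h.unit (pt t w) fun hn => by
    rw [hn t 1 (by rw [one_smul, vre_pt]), bil_zero_left] at s3
    exact s3.false
  have e1 : cs ℝ v = l.re • cs ℝ t - l.im • w := by
    rw [← vre_pt v b, ← he]
    ext i
    simp [vre, pt, cs, cr]
  have e2 : b = l.im • cs ℝ t + l.re • w := by
    rw [← vim_pt v b, ← he]
    ext i
    simp [vim, pt, cs, cr, add_comm]
  have e3 : ((bil G t v : ℤ) : ℝ) = l.re * (bil G t t : ℤ) := by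
    rw [← bil_cs, e1, bil_sub_right, bil_smul_right, bil_smul_right, s2, bil_cs, mul_zero,
      sub_zero]
  have e4 : l.im = 0 := (mul_eq_zero.1 (hw (((bil G t t : ℤ) : ℝ) * l.im)
    (bil G t v • t - bil G t t • v) (by
      rw [cs_sub, cs_smul, cs_smul, e1, e3]
      module))).resolve_left (Int.cast_ne_zero.2 s3.ne')
  have e5 : l.re ≠ 0 := fun h0 => hl (Complex.ext h0 e4)
  rw [e4, zero_smul, sub_zero] at e1
  rw [e4, zero_smul, zero_add] at e2
  obtain ⟨y, hy⟩ := hv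
  have e6 : l.re * (bil G t y : ℤ) = 1 := by
    rw [← bil_cs, ← bil_smul_left, ← e1, bil_cs, hy, Int.cast_one]
  have e7 : t = bil G t y • v := cs_inj (R := ℝ) (by
    rw [cs_smul, e1, smul_smul, mul_comm, e6, one_smul])
  obtain ⟨k, hk⟩ := h.even v
  have e8 : bil G t y * (bil G t y * (k + k)) = 4 * d := by
    rw [← hk, ← bil_smul_right, ← bil_smul_left, ← e7, ht]
  obtain ⟨k', hk'⟩ : Even k := by
    by_contra h1
    obtain ⟨a, rfl⟩ := Int.not_even_iff_odd.1 h1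
    obtain ⟨c, rfl⟩ := hd
    rcases Int.even_or_odd' (bil G t y) with ⟨m, hm | hm⟩ <;> rw [hm] at e8
    · have : 2 * (m * m * (2 * a + 1)) = 2 * c + 1 := by linarith
      omega
    · have : 2 * (2 * m * m * (2 * a + 1) + 2 * m * (2 * a + 1) + a) + 1 = 2 * (2 * c + 1) := by
        linarith
      omega
  refine ⟨l, hl, he ▸ apxK h ⟨y, hy⟩ (he ▸ hs.smul hl) (fun r x hx => ?_) (k := k') (by omega)⟩
  rw [e2, smul_smul] at hx
  exact (mul_eq_zero.1 (hw _ x hx)).resolve_right e5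

end Vale.Agent.P290Z.Top
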