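import Vale.Agent.P290Z.Lat.Spec

/-! P290Z, part III: odd indefinite unimodular lattices are diagonal; the theorem of Sylvester. -/

open Set Matrix

namespace Vale.Agent.P290Z.Lat

open Vale.Agent.P290.H726

namespace DS

variable {ι ι' κ κ' : Type} [Fintype ι] [DecidableEq ι] [Fintype ι'] [DecidableEq ι'] [Fintype κ]
  [DecidableEq κ] [Fintype κ'] [DecidableEq κ'] {G : Matrix ι ι ℤ} {G' : Matrix ι' ι' ℤ}
  {H : Matrix κ κ ℤ} {H' : Matrix κ' κ' ℤ} {r : ℕ}

theorem trans (h : Equi H G') (h' : Equi G' G) : Equi H G := by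
  obtain ⟨g, a, k, b, c⟩ := h
  obtain ⟨g', a', k', b', c'⟩ := h'
  refine ⟨g' * g, ?_, k * k', ?_, ?_⟩
  · rw [← a, ← a', transpose_mul]
    simp only [Matrix.mul_assoc]
  · rw [Matrix.mul_assoc, ← Matrix.mul_assoc g, b, Matrix.one_mul, b']
  · rw [Matrix.mul_assoc, ← Matrix.mul_assoc k', c', Matrix.one_mul, c]

theorem of_equiv (e : ι' ≃ ι) (h : ∀ i j, G' i j = G (e i) (e j)) : Equi G' G := by
  refine ⟨(1 : Matrix ι ι ℤ).submatrix id e, ?_, (1 : Matrix ι ι ℤ).submatrix e id, ?_, ?_⟩
  · ext i j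
    simp [Matrix.mul_apply, one_apply, h]
  · rw [submatrix_mul_equiv, Matrix.one_mul, submatrix_id_id]
  · ext i j
    simp [Matrix.mul_apply, one_apply]

theorem osum_congr (h : Equi G' G) (h' : Equi H' H) : Equi (osum G' H') (osum G H) := by
  obtain ⟨g, a, k, b, c⟩ := h
  obtain ⟨g', a', k', b', c'⟩ := h'
  refine ⟨fromBlocks g 0 0 g', ?_, fromBlocks k 0 0 k', ?_, ?_⟩
  · simp [osum, fromBlocks_transpose, fromBlocks_multiply, a, a']
  · simp [fromBlocks_multiply, b, b']
  · simp [fromBlocks_multiply, c, c']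

theorem refl (G : Matrix ι ι ℤ) : Equi G G := of_equiv (Equiv.refl _) fun _ _ => rfl

theorem assoc (G : Matrix ι ι ℤ) (G' : Matrix ι' ι' ℤ) (H : Matrix κ κ ℤ) :
    Equi (osum G (osum G' H)) (osum (osum G G') H) :=
  of_equiv (Equiv.sumAssoc _ _ _).symm (by rintro (i | i | i) (j | j | j) <;> rfl)

theorem reindex {ε : κ → ℤ} (hε : ∀ i, ε i = 1 ∨ ε i = -1) (h : Equi (diagonal ε) G) :
    ∃ ε : ι → ℤ, (∀ i, ε i = 1 ∨ ε i = -1) ∧ Equi (diagonal ε) G := by
  obtain ⟨g, -, k, b, c⟩ := id h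
  let e := Fintype.equivOfCardEq (Matrix.square_of_invertible g k b c)
  exact ⟨ε ∘ e, fun i => hε _, trans (of_equiv e fun i j => by simp [diagonal_apply]) h⟩

omit [DecidableEq ι] [DecidableEq κ] in
theorem bil_osum {R : Type} [CommRing R] (x y : ι ⊕ κ → R) : bil (osum G H) x y =
    bil G (x ∘ Sum.inl) (y ∘ Sum.inl) + bil H (x ∘ Sum.inr) (y ∘ Sum.inr) := by
  simp [bil, osum, Fintype.sum_sum_type]

theorem bil_diagonal {R : Type} [CommRing R] (ε : ι → ℤ) (x : ι → R) :
    bil (diagonal ε) x x = ∑ i, (ε i : R) * (x i * x i) := by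
  simp [bil, diagonal_apply, mul_assoc]

theorem bil_single (i j : ι) : bil G (Pi.single i (1 : ℝ)) (Pi.single j 1) = G i j := by
  simp [bil, Pi.single_apply]

theorem exists_ne [Nonempty ι] (hs : ∀ i j, G i j = G j i) (hu : IsUnit G.det) :
    ∃ x : ι → ℝ, bil G x x ≠ 0 := by
  by_contra! h
  have h1 : G = 0 := by
    ext i j
    have h2 := h (Pi.single i 1 + Pi.single j 1)
    rw [bil_add_left, bil_add_right, bil_add_right, h, h, bil_single, bil_single, hs j i] at h2
    have h3 : (G i j : ℝ) = 0 := by linarith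
    exact_mod_cast h3
  rw [h1, det_zero] at hu
  exact not_isUnit_zero hu

/-- the unit forms of rank one -/
def one (s : ℤ) : Matrix (Fin 1) (Fin 1) ℤ := diagonal fun _ => s

omit [DecidableEq κ] in
theorem bil_one {R : Type} [CommRing R] (s : ℤ) (x : κ → R) (t : R) :
    bil (osum (one s) H) (Sum.elim (fun _ => t) x) (Sum.elim (fun _ => t) x) =
      s * (t * t) + bil H x x := by
  rw [bil_osum, one, bil_diagonal]
  simp

theorem step (hs : ∀ i j, H i j = H j i) (hu : IsUnit H.det) {s : ℤ} (h : s = 1 ∨ s = -1) :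
    (∀ i j, osum (one s) H i j = osum (one s) H j i) ∧ IsUnit (osum (one s) H).det ∧
      ¬ Ev (osum (one s) H) := by
  refine ⟨?_, ?_, fun e => ?_⟩
  · rintro (i | i) (j | j)
    · rw [Subsingleton.elim i j]
    · rfl
    · rfl
    · exact hs i j
  · rw [osum, det_fromBlocks_zero₂₁, one, det_diagonal]
    rcases h with rfl | rfl <;> simpa using hu
  · have h1 := e (Sum.elim (fun _ => 1) 0)
    rw [bil_one, bil_zero_left] at h1
    rcases h with rfl | rfl <;> simp at h1

omit [DecidableEq ι] [DecidableEq ι'] in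
theorem sig_of (f : (ι' → ℝ) →ₗ[ℝ] ι → ℝ) (hf : Function.Bijective f)
    (h : ∀ x y, bil G (f x) (f y) = bil G' x y) (hG : Sig G r) : Sig G' r := by
  obtain ⟨w, h1, h2⟩ := hG
  choose w' hw using fun j => hf.2 (w j)
  refine ⟨w', fun a ha => ?_, fun x hx h3 => ?_⟩
  · rw [← h]
    simpa only [map_sum, map_smul, hw] using h1 a ha
  · rw [← h]
    exact h2 _ (fun e => hx (hf.1 (e.trans (map_zero f).symm))) fun j => by rw [← hw, h, h3]

omit [DecidableEq ι] in
theorem bil_eq (x y : ι → ℝ) : bil G x y = x ⬝ᵥ (G.map (Int.castRingHom ℝ) *ᵥ y) := by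
  simp only [bil, dotProduct, mulVec, Finset.mul_sum, map_apply, eq_intCast]
  exact Finset.sum_congr rfl fun i _ => Finset.sum_congr rfl fun j _ => by ring

theorem sig_equi (h : Equi G' G) (hG : Sig G r) : Sig G' r := by
  obtain ⟨g, a, k, b, c⟩ := h
  refine sig_of (g.map (Int.castRingHom ℝ)).mulVecLin (Function.bijective_iff_has_inverse.2
    ⟨(k.map (Int.castRingHom ℝ)).mulVec, fun x => ?_, fun x => ?_⟩) (fun x y => ?_) hG
  · rw [mulVecLin_apply, mulVec_mulVec, ← Matrix.map_mul, c, Matrix.map_one _ (map_zero _)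
      (map_one _), one_mulVec]
  · rw [mulVecLin_apply, mulVec_mulVec, ← Matrix.map_mul, b, Matrix.map_one _ (map_zero _)
      (map_one _), one_mulVec]
  · rw [bil_eq, bil_eq, ← a, Matrix.map_mul, Matrix.map_mul, transpose_map, mulVecLin_apply,
      mulVecLin_apply, ← mulVec_mulVec, ← mulVec_mulVec, mulVec_transpose, dotProduct_comm x,
      ← dotProduct_mulVec, dotProduct_comm]

theorem sig_diag {ε : ι → ℤ} (hε : ∀ i, ε i = 1 ∨ ε i = -1) (h : Sig (diagonal ε) r) :
    (Finset.univ.filter fun i => ε i = 1).card = r := by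
  obtain ⟨w, h1, h2⟩ := h
  let Q := QuadraticMap.weightedSumSquares ℝ fun i => (ε i : ℝ)
  have hQ : ∀ x, Q x = bil (diagonal ε) x x := fun x => by
    rw [bil_diagonal, QuadraticMap.weightedSumSquares_apply]
    rfl
  have h3 : sigPos Q = (Finset.univ.filter fun i => ε i = 1).card := by
    rw [QuadraticForm.sigPos_weightedSumSquares, ← Set.ncard_coe_finset]
    congr 1
    ext i
    rcases hε i with e | e <;> simp [e]
  let f := Fintype.linearCombination ℝ w
  have h4 : Function.Injective f := (injective_iff_map_eq_zero _).2 fun a ha => by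
    by_contra e
    have h5 := h1 a e
    rw [show ∑ j, a j • w j = 0 from ha, bil_zero_left] at h5
    exact lt_irrefl _ h5
  have h5 : Module.finrank ℝ f.range ≤ sigPos Q := le_sigPos_of_posDef Q (by
    rintro ⟨_, a, rfl⟩ ha
    rw [QuadraticMap.restrict_apply, hQ]
    exact h1 a fun e => ha (Subtype.ext (by simp [e])))
  let g : (ι → ℝ) →ₗ[ℝ] Fin r → ℝ :=
    { toFun := fun x j => bil (diagonal ε) x (w j)
      map_add' := fun x y => funext fun j => bil_add_left _ _ _ _
      map_smul' := fun a x => funext fun j => bil_smul_left _ _ _ _ }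
  have h6 := QuadraticForm.sigPos_add_finrank_le_of_nonpos (Q := Q) (V := g.ker) fun x hx => by
    rw [hQ]
    by_cases e : x = 0
    · rw [e, bil_zero_left]
    · exact (h2 x e (congrFun hx)).le
  have h7 := g.finrank_range_add_finrank_ker
  have h8 := g.range.finrank_le
  rw [LinearMap.finrank_range_of_inj h4] at h5
  rw [Module.finrank_fin_fun] at h5 h8
  omega

omit [DecidableEq κ] in
theorem sig_HI (h : Sig (osum HU H) r) : Sig (osum HI H) r := by
  let f : (Fin 2 ⊕ κ → ℝ) →ₗ[ℝ] Fin 2 ⊕ κ → ℝ :=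
    { toFun := fun x => Sum.elim ![x (.inl 0) + x (.inl 1), (x (.inl 0) - x (.inl 1)) / 2]
        (x ∘ Sum.inr)
      map_add' := fun x y => by
        ext (i | i)
        · fin_cases i <;> simp <;> ring
        · rfl
      map_smul' := fun a x => by
        ext (i | i)
        · fin_cases i <;> simp <;> ring
        · rfl }
  have h1 : Function.Injective f := (injective_iff_map_eq_zero _).2 fun x hx => by
    have h2 : x (.inl 0) + x (.inl 1) = 0 := congrFun hx (.inl 0)
    have h3 : (x (.inl 0) - x (.inl 1)) / 2 = 0 := congrFun hx (.inl 1)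
    ext (i | i)
    · fin_cases i
      · change x (.inl 0) = 0
        linarith
      · change x (.inl 1) = 0
        linarith
    · exact congrFun hx (.inr i)
  refine sig_of f ⟨h1, LinearMap.injective_iff_surjective.1 h1⟩ (fun x y => ?_) h
  rw [bil_osum, bil_osum]
  refine congrArg₂ (· + ·) ?_ rfl
  simp [bil, HU, HI, f]
  ring

end DS

open DS

theorem syl : StSyl :=
  ⟨fun _ _ _ _ _ _ hε h hG => sig_diag hε (sig_equi h hG), fun _ _ _ _ _ _ _ _ _ => sig_equi,
    fun _ _ _ _ _ => sig_HI⟩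

theorem diag (hyp : StHyp) : StDiag := by
  intro ι _ _ G
  induction hn : Fintype.card ι using Nat.strong_induction_on generalizing ι with
  | _ n ih =>
    intro hs hu hi ho
    obtain ⟨m, H, a, b, c, -, d⟩ := hyp ι G hs hu hi
    replace d := d ho
    rcases Nat.eq_zero_or_pos m with rfl | hm
    · refine reindex (ε := Sum.elim ![1, -1] fun _ : Fin 0 => 1) ?_ (DS.trans (of_equiv
        (Equiv.refl _) ?_) d)
      · decide
      · rintro (i | i) (j | j)
        · fin_cases i <;> fin_cases j <;> rfl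
        · exact j.elim0
        · exact i.elim0
        · exact i.elim0
    have : Nonempty (Fin m) := ⟨⟨0, hm⟩⟩
    obtain ⟨x, hx⟩ := exists_ne a b
    have key : ∀ s : ℤ, s = 1 ∨ s = -1 → Indef (osum (one (-s)) H) →
        Equi (osum (one s) (one (-s))) HI →
        ∃ ε : ι → ℤ, (∀ i, ε i = 1 ∨ ε i = -1) ∧ Equi (diagonal ε) G := fun s h1 h2 h3 => by
      obtain ⟨k1, k2, k3⟩ := step a b (s := -s) (by omega)
      obtain ⟨ε, e1, e2⟩ := ih _ (by simp; omega) _ _ rfl k1 k2 h2 k3
      refine reindex (ε := Sum.elim (fun _ : Fin 1 => s) ε) (by rintro (i | i); exacts [h1, e1 i]) ?_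
      rw [← fromBlocks_diagonal]
      exact DS.trans (osum_congr (DS.refl _) e2) (DS.trans (assoc _ _ _)
        (DS.trans (osum_congr h3 (DS.refl H)) d))
    rcases hx.lt_or_gt with hx | hx
    · refine key (-1) (Or.inr rfl) ⟨⟨Sum.elim (fun _ => 1) 0, ?_⟩, Sum.elim (fun _ => 0) x, ?_⟩
        (of_equiv ((Equiv.sumComm _ _).trans finSumFinEquiv) ?_)
      · rw [bil_one, bil_zero_left]
        norm_num
      · rwa [bil_one, mul_zero, mul_zero, zero_add]
      · rintro (i | i) (j | j) <;> fin_cases i <;> fin_cases j <;> rfl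
    · refine key 1 (Or.inl rfl) ⟨⟨Sum.elim (fun _ => 0) x, ?_⟩, Sum.elim (fun _ => 1) 0, ?_⟩
        (of_equiv finSumFinEquiv ?_)
      · rwa [bil_one, mul_zero, mul_zero, zero_add]
      · rw [bil_one, bil_zero_left]
        norm_num
      · rintro (i | i) (j | j) <;> fin_cases i <;> fin_cases j <;> rfl

end Vale.Agent.P290Z.Lat
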