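import Vale.Agent.P290Z.Lat.Model

/-! P290Z, part III, lattice: the orbits of the stabiliser of `vd` (steps FB and GB). -/

open Set Matrix Filter
open scoped Topology

namespace Vale.Agent.P290Z.Lat

open Vale.Agent.P290.H726

namespace FB

/-! ### analysis -/

/-- independence over the integers -/
def Ind (c₀ c₁ : ℝ) : Prop := ∀ k₀ k₁ : ℤ, k₀ * c₀ + k₁ * c₁ = 0 → k₀ = 0 ∧ k₁ = 0

theorem Ind.pos {c₀ c₁ : ℝ} (h : Ind c₀ c₁) : 0 < c₀ ^ 2 + c₁ ^ 2 := by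
  have h0 : c₀ ≠ 0 := fun h0 => one_ne_zero (h 1 0 (by simp [h0])).1
  positivity

theorem Ind.dense {c₀ c₁ : ℝ} (h : Ind c₀ c₁) :
    Dense {r : ℝ | ∃ p₀ p₁ : ℤ, p₀ * c₀ + p₁ * c₁ = r} := by
  rcases (AddSubgroup.closure {c₀, c₁}).dense_or_cyclic with h1 | ⟨a, ha⟩
  · refine h1.mono fun r hr => ?_
    obtain ⟨m, n, hr⟩ := AddSubgroup.mem_closure_pair.1 hr
    exact ⟨m, n, by simpa using hr⟩
  · have h0 : c₀ ∈ AddSubgroup.closure {a} := ha ▸ AddSubgroup.subset_closure (by simp)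
    have h1 : c₁ ∈ AddSubgroup.closure {a} := ha ▸ AddSubgroup.subset_closure (by simp)
    obtain ⟨m, hm⟩ := AddSubgroup.mem_closure_singleton.1 h0
    obtain ⟨n, hn⟩ := AddSubgroup.mem_closure_singleton.1 h1
    rw [zsmul_eq_mul] at hm hn
    have h2 := h n (-m) (by rw [← hm, ← hn]; push_cast; ring)
    have h3 : m = 0 := by omega
    exact absurd (h 1 0 (by rw [← hm, h3]; simp)).1 one_ne_zero

theorem dense_ind : Dense {p : ℝ × ℝ | Ind p.1 p.2} := by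
  have h1 : Dense (range ((↑) : ℚ → ℝ) \ {0}) := Rat.denseRange_cast.sdiff_singleton 0
  refine (h1.prod dense_irrational).mono ?_
  rintro ⟨_, b⟩ ⟨⟨⟨a, rfl⟩, ha⟩, hb⟩ k₀ k₁ hk
  have ha' : (a : ℝ) ≠ 0 := ha
  have h2 : k₁ = 0 := by
    by_contra h2
    have h3 : (k₁ : ℝ) ≠ 0 := Int.cast_ne_zero.2 h2
    refine hb ⟨-(k₀ * a) / k₁, ?_⟩
    push_cast
    rw [div_eq_iff h3]
    linarith
  rw [h2, Int.cast_zero, zero_mul, add_zero] at hk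
  exact ⟨Int.cast_eq_zero.1 ((mul_eq_zero.1 hk).resolve_right ha'), h2⟩

theorem Ind.exists_big {c₀ c₁ : ℝ} (h : Ind c₀ c₁) {ε : ℝ} (hε : 0 < ε) (R : ℝ) :
    ∃ p₀ p₁ : ℤ, |p₀ * c₀ + p₁ * c₁| < ε ∧ R ≤ |p₁ * c₀ - p₀ * c₁| := by
  have hρ := h.pos
  obtain ⟨M, hM⟩ := exists_nat_gt (2 * R ^ 2 / (c₀ ^ 2 + c₁ ^ 2) + 1)
  have hM1 : (1 : ℝ) < M := lt_of_le_of_lt (le_add_of_nonneg_left (by positivity)) hM
  obtain ⟨r, ⟨p₀, p₁, rfl⟩, h1, h2⟩ := h.dense.exists_between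
    (show (0 : ℝ) < min (ε / M) (min 1 ((c₀ ^ 2 + c₁ ^ 2) / 2)) by positivity)
  rw [lt_min_iff, lt_min_iff] at h2
  have h3 : (1 : ℝ) ≤ p₀ ^ 2 + p₁ ^ 2 := by
    have h4 : (1 : ℤ) ≤ p₀ ^ 2 + p₁ ^ 2 := by
      by_contra h4
      have h5 : p₀ = 0 := by nlinarith [sq_nonneg p₀, sq_nonneg p₁]
      have h6 : p₁ = 0 := by nlinarith [sq_nonneg p₀, sq_nonneg p₁]
      rw [h5, h6] at h1
      simp at h1
    exact_mod_cast h4
  have h4 : (c₀ ^ 2 + c₁ ^ 2) / 2 ≤ (p₁ * c₀ - p₀ * c₁) ^ 2 := by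
    have h5 : (p₀ * c₀ + p₁ * c₁) ^ 2 ≤ (c₀ ^ 2 + c₁ ^ 2) / 2 := by nlinarith [h2.2.1, h2.2.2]
    have h6 := mul_le_mul_of_nonneg_right h3 hρ.le
    nlinarith
  refine ⟨M * p₀, M * p₁, ?_, ?_⟩
  · have h5 := h2.1
    rw [lt_div_iff₀ (by linarith)] at h5
    push_cast
    rw [abs_of_pos (by nlinarith)]
    linarith
  · refine (le_abs_self R).trans (sq_le_sq.1 ?_)
    have h5 : 2 * R ^ 2 / (c₀ ^ 2 + c₁ ^ 2) < M := by linarith
    rw [div_lt_iff₀ hρ] at h5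
    have h6 : (M : ℝ) ≤ M ^ 2 := by nlinarith
    have h7 := mul_le_mul h6 h4 (by positivity) (by positivity)
    push_cast
    nlinarith

section fib

variable {κ : Type} [Fintype κ] [DecidableEq κ] {c₀ c₁ : ℝ} {W : Set (ℝ × ℝ × (κ → ℝ))}

omit [Fintype κ] [DecidableEq κ] in
theorem isClosed_base (hW : IsClosed W) (hS : ∀ μ y, (μ, y) ∈ W → ∀ m : ℤ, (μ + m, y) ∈ W) :
    IsClosed {y | ∃ μ, (μ, y) ∈ W} := by
  have h1 := isClosedMap_snd_of_compactSpace _ (hW.preimage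
    (f := fun q : Icc (0 : ℝ) 1 × ℝ × (κ → ℝ) => ((q.1 : ℝ), q.2)) (by fun_prop))
  convert h1 using 1
  ext y
  constructor
  · rintro ⟨μ, h⟩
    refine ⟨(⟨Int.fract μ, Int.fract_nonneg μ, (Int.fract_lt_one μ).le⟩, y), ?_, rfl⟩
    have h2 := hS μ y h (-⌊μ⌋)
    rw [Int.cast_neg, ← sub_eq_add_neg] at h2
    exact h2
  · rintro ⟨⟨μ, _⟩, h, rfl⟩
    exact ⟨μ, h⟩

theorem base_eq (hc : Ind c₀ c₁) {B : Set (ℝ × (κ → ℝ))} (hB : IsClosed B) (hne : B.Nonempty)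
    (hT : ∀ x n, (x, n) ∈ B → ∀ p₀ p₁ : ℤ, (x + (p₀ * c₀ + p₁ * c₁), n) ∈ B)
    (hN : ∀ x n, (x, n) ∈ B → ∀ (p₀ p₁ : ℤ) (a : κ),
      (x, n + (p₀ * c₀ + p₁ * c₁) • Pi.single a 1) ∈ B) (y : ℝ × (κ → ℝ)) : y ∈ B := by
  let G : AddSubmonoid (ℝ × (κ → ℝ)) :=
    { carrier := {y | ∀ b ∈ B, b + y ∈ B}
      add_mem' := fun h1 h2 b hb => by
        rw [← add_assoc]
        exact h2 _ (h1 b hb)
      zero_mem' := fun b hb => by rwa [add_zero] }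
  have h1 : ∀ e : ℝ × (κ → ℝ), (∀ p₀ p₁ : ℤ, (p₀ * c₀ + p₁ * c₁) • e ∈ G) → ∀ r : ℝ, r • e ∈ G := by
    intro e he r b hb
    refine closure_minimal (t := {r : ℝ | b + r • e ∈ B}) ?_
      (hB.preimage (f := fun r : ℝ => b + r • e) (by fun_prop)) (hc.dense r)
    rintro _ ⟨p₀, p₁, rfl⟩
    exact he p₀ p₁ b hb
  have h2 : ∀ y : ℝ × (κ → ℝ), y ∈ G := by
    rintro ⟨x, n⟩
    have h3 : ((x, n) : ℝ × (κ → ℝ)) = x • (1, 0) + ∑ a, n a • (0, Pi.single a 1) := by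
      refine Prod.ext ?_ ?_
      · simp [Prod.fst_sum]
      · ext a
        simp [Prod.snd_sum, Finset.sum_apply, Pi.single_apply]
    rw [h3]
    refine G.add_mem (h1 _ (fun p₀ p₁ b hb => ?_) x) (G.sum_mem fun a _ =>
      h1 _ (fun p₀ p₁ b hb => ?_) _)
    · simpa [Prod.add_def] using hT b.1 b.2 hb p₀ p₁
    · simpa [Prod.add_def] using hN b.1 b.2 hb p₀ p₁ a
  obtain ⟨b, hb⟩ := hne
  have := h2 (y - b) b hb
  rwa [add_sub_cancel] at this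

theorem dense_tune (hc : Ind c₀ c₁) {t : ℝ} (ht : t ≠ 0) :
    Dense {x : ℝ | ∀ (j : ℕ) (q : ℚ), ∃ p₀ p₁ m : ℤ, |p₀ * c₀ + p₁ * c₁| < 1 / (j + 1) ∧
      |t * (2 * x + (p₀ * c₀ + p₁ * c₁)) * (p₁ * c₀ - p₀ * c₁) + m - q| < 1 / (j + 1)} := by
  have h := dense_iInter_of_isOpen (ι := ℕ × ℚ) (f := fun k => {x : ℝ | ∃ p₀ p₁ m : ℤ,
      |p₀ * c₀ + p₁ * c₁| < 1 / (k.1 + 1) ∧
      |t * (2 * x + (p₀ * c₀ + p₁ * c₁)) * (p₁ * c₀ - p₀ * c₁) + m - k.2| < 1 / (k.1 + 1)})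
    (fun k => by
      simp only [ofPred_exists]
      refine isOpen_iUnion fun p₀ => isOpen_iUnion fun p₁ => isOpen_iUnion fun m => ?_
      exact IsOpen.and isOpen_const (isOpen_lt (by fun_prop) continuous_const))
    (fun k => by
      refine Metric.dense_iff.2 fun x₀ r hr => ?_
      have h0 : (0 : ℝ) < 1 / (k.1 + 1) := by positivity
      have ht' : 0 < |t| := abs_pos.2 ht
      obtain ⟨p₀, p₁, h1, h2⟩ := hc.exists_big h0 (1 / (r * |t|))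
      set δ := p₀ * c₀ + p₁ * c₁ with hδ
      set τ := p₁ * c₀ - p₀ * c₁ with hτ
      have h3 : 0 < |τ| := lt_of_lt_of_le (by positivity) h2
      have h4 : τ ≠ 0 := abs_pos.1 h3
      set u := k.2 - t * (2 * x₀ + δ) * τ with hu
      refine ⟨x₀ + Int.fract u / (2 * t * τ), ?_, p₀, p₁, ⌊u⌋, h1, ?_⟩
      · rw [Metric.mem_ball, Real.dist_eq, add_sub_cancel_left, abs_div, abs_mul, abs_mul,
          abs_two, div_lt_iff₀ (by positivity), abs_of_nonneg (Int.fract_nonneg u)]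
        rw [div_le_iff₀ (by positivity)] at h2
        nlinarith [Int.fract_lt_one u]
      · have h5 : t * (2 * (x₀ + Int.fract u / (2 * t * τ)) + δ) * τ + ⌊u⌋ - k.2 = 0 := by
          have h6 : t * (2 * (Int.fract u / (2 * t * τ))) * τ = Int.fract u := by field_simp
          have h7 := Int.floor_add_fract u
          linear_combination h6 + h7 + hu
        rw [h5, abs_zero]
        exact h0)
  exact h.mono fun x hx j q => mem_iInter.1 hx (j, q)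

theorem fib (hc : Ind c₀ c₁) {t : ℝ} (ht : t ≠ 0) (hW : IsClosed W) (hne : W.Nonempty)
    (hS : ∀ μ y, (μ, y) ∈ W → ∀ m : ℤ, (μ + m, y) ∈ W)
    (hT : ∀ μ x n, (μ, x, n) ∈ W → ∀ p₀ p₁ : ℤ,
      (μ + t * (2 * x + (p₀ * c₀ + p₁ * c₁)) * (p₁ * c₀ - p₀ * c₁),
        x + (p₀ * c₀ + p₁ * c₁), n) ∈ W)
    (hN : ∀ μ x n, (μ, x, n) ∈ W → ∀ (p₀ p₁ : ℤ) (a : κ),
      ∃ μ', (μ', x, n + (p₀ * c₀ + p₁ * c₁) • Pi.single a 1) ∈ W)
    (μ x : ℝ) (n : κ → ℝ) : (μ, x, n) ∈ W := by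
  have h1 : ∀ y, ∃ μ, (μ, y) ∈ W := base_eq hc (isClosed_base hW hS)
    (by obtain ⟨⟨μ, y⟩, h⟩ := hne; exact ⟨y, μ, h⟩)
    (fun x n ⟨μ, h⟩ p₀ p₁ => ⟨_, hT μ x n h p₀ p₁⟩) fun x n ⟨μ, h⟩ => hN μ x n h
  refine closure_minimal (t := {x : ℝ | (μ, x, n) ∈ W}) ?_
    (hW.preimage (f := fun x : ℝ => (μ, x, n)) (by fun_prop)) (dense_tune hc ht x)
  intro x hx
  obtain ⟨ν, hν⟩ := h1 (x, n)
  refine hW.closure_subset (Metric.mem_closure_iff.2 fun ε hε => ?_)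
  obtain ⟨j, hj⟩ := exists_nat_one_div_lt (half_pos hε)
  obtain ⟨q, hq⟩ := exists_rat_near (μ - ν) (half_pos hε)
  obtain ⟨p₀, p₁, m, h2, h3⟩ := hx j q
  refine ⟨_, hS _ _ (hT ν x n hν p₀ p₁) m, ?_⟩
  rw [Prod.dist_eq, Prod.dist_eq, dist_self, Real.dist_eq, Real.dist_eq, max_lt_iff, max_lt_iff]
  rw [abs_lt] at hq h2 h3
  refine ⟨abs_lt.2 ⟨?_, ?_⟩, abs_lt.2 ⟨?_, ?_⟩, hε⟩ <;>
    linarith [hq.1, hq.2, h2.1, h2.2, h3.1, h3.2]

end fib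

/-! ### the model -/

section model

variable {κ : Type} [Fintype κ] [DecidableEq κ] {N : Matrix κ κ ℤ} {d : ℤ} {s : Ix κ → ℂ}

/-- the real vectors orthogonal to `vd` -/
def vec (d : ℤ) (i₀ i₁ c₀ c₁ x : ℝ) (n : κ → ℝ) : Ix κ → ℝ :=
  mk ![i₀, i₁, -(d * x)] ![c₀, c₁, x] n

/-- the value of `i₀ c₀ + i₁ c₁` for a period -/
noncomputable def qf (N : Matrix κ κ ℤ) (d : ℤ) (x : ℝ) (n : κ → ℝ) : ℝ :=
  d + d * x ^ 2 - bil N n n / 2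

/-- the point lies in the closure of the orbit -/
def Z (N : Matrix κ κ ℤ) (d : ℤ) (s : Ix κ → ℂ) : Set (Ix κ → ℝ) :=
  {b | pt (vd κ d) b ∈ Cl (UU N) {vd κ d} s}

theorem isClosed_Z : IsClosed (Z N d s) :=
  (isClosed_cl _ _ _).preimage (f := fun b => pt (vd κ d) b)
    (continuous_const.add (continuous_cr.const_smul Complex.I))

theorem Z.act {b : Ix κ → ℝ} (hb : b ∈ Z N d s) {g : Matrix (Ix κ) (Ix κ) ℤ}
    (hg : Isom (UU N) (UU N) g) (hv : act g (vd κ d) = vd κ d) : act g b ∈ Z N d s := by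
  have h := Cl.act hb hg (fun v h => by rw [h, hv])
  rwa [act_pt, hv] at h

omit [DecidableEq κ] in
theorem isPer_iff_vec (hN : Good N) (b : Ix κ → ℝ) : IsPer (UU N) (pt (vd κ d) b) ↔
    0 < d ∧ pI b 2 = -(d * pC b 2) ∧
      pI b 0 * pC b 0 + pI b 1 * pC b 1 = qf N d (pC b 2) (pN b) := by
  have h1 : bil (UU N) (vd κ d) (vd κ d) = 2 * d := by
    simp [vd, bil_mk, bil_zero_left, two_mul]
  have h2 : bil (UU N) (cs ℝ (vd κ d)) b = d * pC b 2 + pI b 2 := by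
    simp [vd, cs_mk, bil_UU, cs_single, cs_zero, bil_zero_left]
  rw [isPer_pt_iff (UU_symm hN.symm), h1, h2, bil_UU, qf]
  simp only [dotProduct, Fin.sum_univ_three]
  push_cast
  constructor
  · rintro ⟨a1, a2, a3⟩
    have a4 : pI b 2 = -(d * pC b 2) := by linarith
    rw [a4] at a1
    exact ⟨by omega, a4, by linarith⟩
  · rintro ⟨a1, a2, a3⟩
    rw [a2]
    exact ⟨by linarith, by ring, by omega⟩

omit [Fintype κ] [DecidableEq κ] in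
theorem eq_vec {b : Ix κ → ℝ} (h : pI b 2 = -(d * pC b 2)) :
    b = vec d (pI b 0) (pI b 1) (pC b 0) (pC b 1) (pC b 2) (pN b) := by
  refine ix_ext ?_ ?_ rfl
  · funext j
    fin_cases j
    exacts [rfl, rfl, h]
  · funext j
    fin_cases j <;> rfl

omit [DecidableEq κ] in
theorem isPer_vec (hN : Good N) {i₀ i₁ c₀ c₁ x : ℝ} {n : κ → ℝ} :
    IsPer (UU N) (pt (vd κ d) (vec d i₀ i₁ c₀ c₁ x n)) ↔
      0 < d ∧ i₀ * c₀ + i₁ * c₁ = qf N d x n := by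
  rw [isPer_iff_vec hN]
  exact ⟨fun h => ⟨h.1, h.2.2⟩, fun h => ⟨h.1, rfl, h.2⟩⟩

theorem cs3 (a b c : ℤ) : cs ℝ ![a, b, c] = ![(a : ℝ), b, c] := by
  funext j
  fin_cases j <;> rfl

variable {i₀ i₁ c₀ c₁ x : ℝ} {n : κ → ℝ}

theorem move_shift (h : vec d i₀ i₁ c₀ c₁ x n ∈ Z N d s) (m : ℤ) :
    vec d (i₀ - m * c₁) (i₁ + m * c₀) c₀ c₁ x n ∈ Z N d s := by
  obtain ⟨g, hg, H⟩ := exists_shift N ![0, 0, m]
  have h1 := Z.act h hg (by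
    rw [vd, H]
    congr 1
    funext j
    fin_cases j <;> simp [cross_apply])
  rw [vec, H, cs3] at h1
  rw [vec]
  convert h1 using 2
  funext j
  fin_cases j <;> simp [cross_apply, sub_eq_add_neg]

theorem move_swap (h : vec d i₀ i₁ c₀ c₁ x n ∈ Z N d s) : vec d c₀ c₁ i₀ i₁ x n ∈ Z N d s := by
  obtain ⟨g, hg, H⟩ := exists_swap N {0, 1}
  have h1 := Z.act h hg (by
    rw [vd, H]
    congr 1 <;> funext j <;> fin_cases j <;> simp)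
  rw [vec, H] at h1
  rw [vec]
  convert h1 using 2 <;> funext j <;> fin_cases j <;> simp

theorem move_N (hN : Good N) (h : vec d i₀ i₁ c₀ c₁ x n ∈ Z N d s) (p₀ p₁ : ℤ) (a : κ) :
    ∃ j₀ j₁, vec d j₀ j₁ c₀ c₁ x (n + (p₀ * c₀ + p₁ * c₁) • Pi.single a 1) ∈ Z N d s := by
  obtain ⟨k, hk⟩ := hN.even (Pi.single a 1)
  obtain ⟨g, hg, H⟩ := exists_tvN hN.symm ![p₀, p₁, 0] (Pi.single a 1) k (by rw [hk, two_mul])
  have h1 := Z.act h hg (by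
    rw [vd, H]
    simp [bil_zero_left])
  rw [vec, H] at h1
  generalize bil N n (cs ℝ (Pi.single a 1)) + k * (![c₀, c₁, x] ⬝ᵥ cs ℝ ![p₀, p₁, 0]) = ζ at h1
  refine ⟨i₀ - ζ * p₀, i₁ - ζ * p₁, ?_⟩
  rw [cs3, cs_single] at h1
  rw [vec]
  convert h1 using 2
  · funext j
    fin_cases j <;> simp
  · simp [mul_comm]

theorem move_T (hN : Good N) (h : vec d i₀ i₁ c₀ c₁ x n ∈ Z N d s) (p₀ p₁ : ℤ) :
    vec d (i₀ + d * (2 * x + (p₀ * c₀ + p₁ * c₁)) * p₀)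
      (i₁ + d * (2 * x + (p₀ * c₀ + p₁ * c₁)) * p₁) c₀ c₁ (x + (p₀ * c₀ + p₁ * c₁)) n ∈
      Z N d s := by
  obtain ⟨g, hg, H⟩ := exists_tv (G := UU N) (UU_symm hN.symm) (e := mk ![p₀, p₁, 0] 0 0)
    (a := mk ![0, 0, -d] ![0, 0, 1] 0) (h := -d) (by simp [bil_mk, bil_zero_left])
    (by simp [bil_mk, bil_zero_left]) (by simp [bil_mk, bil_zero_left, two_mul])
  have h1 := Z.act h hg (by
    rw [H, vd]
    simp [bil_mk, bil_zero_left])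
  rw [H, vec] at h1
  simp only [cs_mk, cs_zero, bil_mk, bil_zero_right, mk_smul, mk_add, mk_sub, cs3] at h1
  rw [vec]
  convert h1 using 2
  · funext j
    fin_cases j <;> simp <;> ring
  · funext j
    fin_cases j <;> simp
    ring
  · simp

omit [Fintype κ] [DecidableEq κ] in
theorem continuous_vec (d : ℤ) {α : Type} [TopologicalSpace α] {i₀ i₁ c₀ c₁ x : α → ℝ}
    {n : α → κ → ℝ} {a : α} (h1 : ContinuousAt i₀ a) (h2 : ContinuousAt i₁ a)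
    (h3 : ContinuousAt c₀ a) (h4 : ContinuousAt c₁ a) (h5 : ContinuousAt x a)
    (h6 : ContinuousAt n a) :
    ContinuousAt (fun y => vec d (i₀ y) (i₁ y) (c₀ y) (c₁ y) (x y) (n y)) a := by
  refine continuousAt_pi.2 ?_
  rintro (j | j | j)
  · fin_cases j
    exacts [h1, h2, (continuousAt_const.mul h5).neg]
  · fin_cases j
    exacts [h3, h4, h5]
  · exact continuousAt_pi.1 h6 j

/-- the whole fibre over `(c₀, c₁)` lies in the closure of the orbit -/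
def Full (N : Matrix κ κ ℤ) (d : ℤ) (s : Ix κ → ℂ) (c₀ c₁ : ℝ) : Prop :=
  ∀ i₀ i₁ x n, i₀ * c₀ + i₁ * c₁ = qf N d x n → vec d i₀ i₁ c₀ c₁ x n ∈ Z N d s

theorem full_of_mem (hN : Good N) (hs : IsPer (UU N) s) (hc : Ind c₀ c₁)
    (h : vec d i₀ i₁ c₀ c₁ x n ∈ Z N d s) : Full N d s c₀ c₁ := by
  have hρ := hc.pos.ne'
  have hd : (d : ℝ) ≠ 0 := Int.cast_ne_zero.2 ((isPer_vec hN).1 (Cl.isPer h hs)).1.ne'
  let W : Set (ℝ × ℝ × (κ → ℝ)) := {q | vec d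
    (qf N d q.2.1 q.2.2 * c₀ / (c₀ ^ 2 + c₁ ^ 2) - q.1 * c₁)
    (qf N d q.2.1 q.2.2 * c₁ / (c₀ ^ 2 + c₁ ^ 2) + q.1 * c₀) c₀ c₁ q.2.1 q.2.2 ∈ Z N d s}
  have key : ∀ i₀ i₁ x n, i₀ * c₀ + i₁ * c₁ = qf N d x n →
      (((i₁ * c₀ - i₀ * c₁) / (c₀ ^ 2 + c₁ ^ 2), x, n) ∈ W ↔
        vec d i₀ i₁ c₀ c₁ x n ∈ Z N d s) := by
    intro i₀ i₁ x n h
    simp only [W, mem_ofPred_eq, ← h]
    congr! 2 <;> field_simp <;> ring
  have key' : ∀ i₀ i₁ x n, vec d i₀ i₁ c₀ c₁ x n ∈ Z N d s → ∃ μ, (μ, x, n) ∈ W :=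
    fun i₀ i₁ x n h => ⟨_, (key _ _ _ _ ((isPer_vec hN).1 (Cl.isPer h hs)).2).2 h⟩
  intro j₀ j₁ y m hj
  refine (key _ _ _ _ hj).1 (fib (t := d / (c₀ ^ 2 + c₁ ^ 2)) hc (div_ne_zero hd hρ) ?_ ?_ ?_ ?_
    ?_ _ _ _)
  · refine isClosed_Z.preimage (continuous_iff_continuousAt.2 fun q => ?_)
    have h1 : Continuous fun q : ℝ × ℝ × (κ → ℝ) => qf N d q.2.1 q.2.2 := by
      unfold qf bil
      fun_prop
    refine continuous_vec d ?_ ?_ ?_ ?_ ?_ ?_ <;> fun_prop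
  · obtain ⟨μ, hμ⟩ := key' _ _ _ _ h
    exact ⟨_, hμ⟩
  · intro μ y h m
    have h1 := move_shift h m
    simp only [W, mem_ofPred_eq]
    convert h1 using 2 <;> ring
  · intro μ x n h p₀ p₁
    have h1 := move_T hN h p₀ p₁
    simp only [W, mem_ofPred_eq, qf] at h1 ⊢
    convert h1 using 2 <;> field_simp <;> ring
  · intro μ x n h p₀ p₁ a
    obtain ⟨j₀, j₁, h1⟩ := move_N hN h p₀ p₁ a
    exact key' _ _ _ _ h1

theorem Full.step (hN : Good N) (hs : IsPer (UU N) s) (hd : 0 < d) (h : Full N d s c₀ c₁)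
    (hi : d < i₀ * c₀ + i₁ * c₁) : Full N d s i₀ i₁ := by
  have hd' : (0 : ℝ) < d := Int.cast_pos.2 hd
  have h1 : ∀ j : ℝ × ℝ, Ind j.1 j.2 → d < j.1 * c₀ + j.2 * c₁ → Full N d s j.1 j.2 := by
    intro j hj hj'
    refine full_of_mem hN hs hj (move_swap (h _ _ √((j.1 * c₀ + j.2 * c₁ - d) / d) 0 ?_))
    rw [qf, Real.sq_sqrt (div_nonneg (by linarith) hd'.le), bil_zero_left]
    field_simp
    ring
  have hρ : i₀ ^ 2 + i₁ ^ 2 ≠ 0 := by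
    intro h0
    have a0 : i₀ = 0 := by nlinarith [sq_nonneg i₀, sq_nonneg i₁]
    have a1 : i₁ = 0 := by nlinarith [sq_nonneg i₀, sq_nonneg i₁]
    rw [a0, a1] at hi
    linarith
  intro k₀ k₁ x n hk
  have h2 : ContinuousAt (fun j : ℝ × ℝ => vec d
      (k₀ + (qf N d x n - (k₀ * j.1 + k₁ * j.2)) / (j.1 ^ 2 + j.2 ^ 2) * j.1)
      (k₁ + (qf N d x n - (k₀ * j.1 + k₁ * j.2)) / (j.1 ^ 2 + j.2 ^ 2) * j.2) j.1 j.2 x n)
      (i₀, i₁) := by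
    refine continuous_vec d ?_ ?_ ?_ ?_ ?_ ?_ <;> fun_prop (disch := exact hρ)
  have h3 := isClosed_Z (N := N) (d := d) (s := s) |>.mem_of_frequently_of_tendsto ?_ h2.tendsto
  · simpa [← hk] using h3
  · have h4 : ∀ᶠ j : ℝ × ℝ in 𝓝 (i₀, i₁), d < j.1 * c₀ + j.2 * c₁ :=
      (isOpen_lt continuous_const (by fun_prop)).mem_nhds hi
    refine ((mem_closure_iff_frequently.1 (dense_ind (i₀, i₁))).and_eventually h4).mono ?_
    rintro j ⟨hj, hj'⟩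
    refine h1 j hj hj' _ _ _ _ ?_
    have h5 := (show Ind j.1 j.2 from hj).pos.ne'
    field_simp
    ring

theorem Full.pair (hN : Good N) (hs : IsPer (UU N) s) (hd : 0 < d) (h : Full N d s c₀ c₁)
    {w₀ w₁ : ℝ} (hw : c₀ * w₁ - c₁ * w₀ ≠ 0) : Full N d s w₀ w₁ := by
  refine (h.step hN hs hd (i₀ := (d + 1) / (c₀ * w₁ - c₁ * w₀) * (w₁ - c₁))
    (i₁ := (d + 1) / (c₀ * w₁ - c₁ * w₀) * (c₀ - w₀)) ?_).step hN hs hd ?_
  · linarith [div_mul_cancel₀ ((d : ℝ) + 1) hw]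
  · linarith [div_mul_cancel₀ ((d : ℝ) + 1) hw]

theorem Full.all (hN : Good N) (hs : IsPer (UU N) s) (hd : 0 < d) (h : Full N d s c₀ c₁)
    (hc : 0 < c₀ ^ 2 + c₁ ^ 2) {w₀ w₁ : ℝ} (hw : 0 < w₀ ^ 2 + w₁ ^ 2) : Full N d s w₀ w₁ := by
  by_cases h1 : c₀ * w₁ - c₁ * w₀ = 0
  · refine (h.pair hN hs hd (w₀ := -c₁) (w₁ := c₀) (by nlinarith)).pair hN hs hd fun h2 => ?_
    have h3 := mul_pos hc hw
    have h4 : (c₀ ^ 2 + c₁ ^ 2) * (w₀ ^ 2 + w₁ ^ 2) =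
        (c₀ * w₁ - c₁ * w₀) ^ 2 + (-c₁ * w₁ - c₀ * w₀) ^ 2 := by ring
    rw [h4, h1, h2] at h3
    simp at h3
  · exact h.pair hN hs hd h1

end model

end FB

open FB

theorem fibreB : StFB := by
  intro κ _ _ N hN d b b' hb hc hb' h0 h1
  obtain ⟨-, a1, -⟩ := (isPer_iff_vec hN b).1 hb
  obtain ⟨-, a2, a3⟩ := (isPer_iff_vec hN b').1 hb'
  have h2 : b ∈ Z N d (pt (vd κ d) b) := self_mem_cl _ _ _
  have h3 := full_of_mem hN hb hc (by rw [← eq_vec a1]; exact h2)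
  rw [← h0, ← h1] at h3
  have h4 := h3 _ _ _ _ a3
  rwa [← eq_vec a2] at h4

theorem globB' : StGB := by
  intro κ _ _ N hN d b b' hb hI hb'
  obtain ⟨hd, a1, -⟩ := (isPer_iff_vec hN b).1 hb
  obtain ⟨-, a2, a3⟩ := (isPer_iff_vec hN b').1 hb'
  have hc : Ind (pC b 0) (pC b 1) := by
    intro k₀ k₁ hk
    have h1 := hI (mk ![k₀, k₁, 0] 0 0) (by simp [bil_mk, bil_zero_left]) (by
      rw [← cr_cs, bil_cr_right, vre_pt, vim_pt, bil_cs, bil_UU, bil_UU]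
      have h2 : pC b 0 * k₀ + pC b 1 * k₁ = 0 := by linarith
      simp [vd, cs_mk, cs_zero, bil_zero_right, dotProduct, Fin.sum_univ_three, cs, h2])
    exact ⟨congrFun h1 (.inl 0), congrFun h1 (.inl 1)⟩
  have h2 : b ∈ Z N d (pt (vd κ d) b) := self_mem_cl _ _ _
  have h3 := full_of_mem hN hb hc (by rw [← eq_vec a1]; exact h2)
  have h4 : 0 < pC b' 0 ^ 2 + pC b' 1 ^ 2 := by
    have hd' : (0 : ℝ) < d := Int.cast_pos.2 hd
    have h5 : bil N (pN b') (pN b') ≤ 0 := by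
      by_cases h : pN b' = 0
      · rw [h, bil_zero_left]
      · exact (hN.neg _ h).le
    have h6 := mul_nonneg hd'.le (sq_nonneg (pC b' 2))
    by_contra h7
    have a0 : pC b' 0 = 0 := by nlinarith [sq_nonneg (pC b' 0), sq_nonneg (pC b' 1)]
    have a1 : pC b' 1 = 0 := by nlinarith [sq_nonneg (pC b' 0), sq_nonneg (pC b' 1)]
    rw [a0, a1, qf] at a3
    linarith
  have h5 := h3.all hN hb hd hc.pos h4 _ _ _ _ a3
  rwa [← eq_vec a2] at h5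

theorem globB (_h : StFB) : StGB := globB'

end Vale.Agent.P290Z.Lat
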