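import Vale.Agent.P290Z.Spec3

/-! P290Z, part III: the lattice of a K3 surface. Statements of the steps. -/

open Set

noncomputable section

namespace Vale.Agent.P290Z.Lat

open Vale.Agent.P290 Vale.Agent.P267
open Vale.Agent.P290Z.W Vale.Agent.P290Z.W.Kur Vale.Agent.P290Z.W.BR
open Vale.Agent.P290.H342 (UData)
open Vale.Agent.P267.FL (TwoF IsHerm)
open Vale.Agent.P267.BlockC (pair ExactTwo)

/-- KUR0: a family of K3 structures with prescribed classes of the two-forms -/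
def StKur0 : Prop :=
  ∀ (X : W.K3) (P : TwoF X.X) (h : X.X → Matrix (Fin 2) (Fin 2) ℂ), P.Smooth → P.Closed →
    IsHerm h → (P.f11 = fun y => Complex.I • h y) →
    ∀ (V : Type) [NormedAddCommGroup V] [NormedSpace ℝ V] [FiniteDimensional ℝ V]
      (η : V → TwoF X.X), H722.SmFam η univ → η 0 = 0 → (∀ t, (η t).Closed) →
      ∀ T₀ : Set V, 0 ∈ T₀ → (∀ t ∈ T₀, pair (omF X + η t) (omF X + η t) = 0) →
      ∃ r > (0 : ℝ), ∃ M : MFam X V {t | t ∈ T₀ ∧ ‖t - 0‖ < r},
        ∀ t ∈ M.N, ExactTwo (M.sig t - (omF X + η t))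

/-- EVEN: the lattice exists and is even -/
def StEvenU : Prop := ∀ Z : W.K3, ∃ (N : ℕ) (U : UData Z.X N), Ev U.G

/-- SIG: the signature -/
def StSigU : Prop := ∀ (Z : W.K3) (N : ℕ) (U : UData Z.X N), Sig U.G 3

/-- RANK: the second Betti number -/
def StRank : Prop := ∀ (Z : W.K3) (N : ℕ), Nonempty (UData Z.X N) → N = 22

end Vale.Agent.P290Z.Lat
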