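import Vale.Agent.P290Z.Lat.Spec

/-! P290Z, part III: the model of the lattice, and the primitive vector of a plane. -/

set_option linter.all false

open Set Matrix

namespace Vale.Agent.P290Z.Lat

open Vale.Agent.P290.H726

namespace ModAux

/-- the negative of the Cartan matrix of `E₈` -/
def E8 : Matrix (Fin 8) (Fin 8) ℤ :=
  !![-2, 0, 1, 0, 0, 0, 0, 0; 0, -2, 0, 1, 0, 0, 0, 0; 1, 0, -2, 1, 0, 0, 0, 0;
    0, 1, 1, -2, 1, 0, 0, 0; 0, 0, 0, 1, -2, 1, 0, 0; 0, 0, 0, 0, 1, -2, 1, 0;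
    0, 0, 0, 0, 0, 1, -2, 1; 0, 0, 0, 0, 0, 0, 1, -2]

/-- its inverse -/
def E8i : Matrix (Fin 8) (Fin 8) ℤ :=
  -!![4, 5, 7, 10, 8, 6, 4, 2; 5, 8, 10, 15, 12, 9, 6, 3; 7, 10, 14, 20, 16, 12, 8, 4;
    10, 15, 20, 30, 24, 18, 12, 6; 8, 12, 16, 24, 20, 15, 10, 5; 6, 9, 12, 18, 15, 12, 8, 4;
    4, 6, 8, 12, 10, 8, 6, 3; 2, 3, 4, 6, 5, 4, 3, 2]

theorem E8_mul : E8 * E8i = 1 := by decide +kernel

theorem E8_symm (i j : Fin 8) : E8 i j = E8 j i :=
  congrFun (congrFun (show E8 = E8ᵀ by decide +kernel) i) j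

theorem bil_E8 {R : Type} [CommRing R] (x : Fin 8 → R) : bil E8 x x =
    2 * (x 0 * x 2 + x 2 * x 3 + x 1 * x 3 + x 3 * x 4 + x 4 * x 5 + x 5 * x 6 + x 6 * x 7 -
      (x 0 ^ 2 + x 1 ^ 2 + x 2 ^ 2 + x 3 ^ 2 + x 4 ^ 2 + x 5 ^ 2 + x 6 ^ 2 + x 7 ^ 2)) := by
  simp [bil, E8, Fin.sum_univ_eight]
  ring

theorem E8_neg : NegDef E8 := fun x hx => by
  by_contra hn
  have h : (x 0 / 2 + x 1 - x 2) ^ 2 + (-x 0 / 2 + x 1 + x 2 - x 3) ^ 2 +
      (-x 0 / 2 + x 3 - x 4) ^ 2 + (-x 0 / 2 + x 4 - x 5) ^ 2 + (-x 0 / 2 + x 5 - x 6) ^ 2 +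
      (-x 0 / 2 + x 6 - x 7) ^ 2 + (-x 0 / 2 + x 7) ^ 2 + (x 0 / 2) ^ 2 ≤ 0 := by
    rw [bil_E8] at hn
    linarith
  have k : ∀ a b : ℝ, 0 ≤ a → a + b ^ 2 ≤ 0 → a ≤ 0 ∧ b = 0 := fun a b ha hb =>
    ⟨by nlinarith [sq_nonneg b], by nlinarith [sq_nonneg b]⟩
  obtain ⟨h, h7⟩ := k _ _ (by positivity) h
  obtain ⟨h, h6⟩ := k _ _ (by positivity) h
  obtain ⟨h, h5⟩ := k _ _ (by positivity) h
  obtain ⟨h, h4⟩ := k _ _ (by positivity) h
  obtain ⟨h, h3⟩ := k _ _ (by positivity) h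
  obtain ⟨h, h2⟩ := k _ _ (by positivity) h
  obtain ⟨h, h1⟩ := k _ _ (by positivity) h
  obtain ⟨-, h0⟩ := k 0 _ le_rfl (by rwa [zero_add])
  refine hx (funext fun i => ?_)
  fin_cases i <;> simp <;> linarith

variable {ι κ R : Type} [Fintype ι] [DecidableEq ι] [Fintype κ] [DecidableEq κ] [CommRing R]

theorem bil_osum (A : Matrix ι ι ℤ) (B : Matrix κ κ ℤ) (x y : ι ⊕ κ → R) : bil (osum A B) x y =
    bil A (x ∘ .inl) (y ∘ .inl) + bil B (x ∘ .inr) (y ∘ .inr) := by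
  simp [bil, osum, Fintype.sum_sum_type]

theorem bil_UU (N : Matrix κ κ ℤ) (x y : Ix κ → R) : bil (UU N) x y =
    ∑ j, (pI x j * pC y j + pC x j * pI y j) + bil N (pN x) (pN y) := by
  simp [bil, UU, pI, pC, pN, Fintype.sum_sum_type, Finset.sum_add_distrib]
  ring

theorem NegDef.le {N : Matrix κ κ ℤ} (h : NegDef N) (x : κ → ℝ) : bil N x x ≤ 0 := by
  by_cases hx : x = 0
  · rw [hx, bil_zero_left]
  · exact (h x hx).le

theorem good : Good (osum E8 E8) where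
  symm := by rintro (i | i) (j | j) <;> simp [osum, E8_symm i j]
  even x := by
    rw [bil_osum, bil_E8, bil_E8]
    exact (even_two_mul _).add (even_two_mul _)
  neg x hx := by
    rw [bil_osum]
    by_cases h : x ∘ Sum.inl = 0
    · refine add_neg_of_nonpos_of_neg (NegDef.le E8_neg _) (E8_neg _ fun h' => hx ?_)
      funext i
      rcases i with i | i
      exacts [congrFun h i, congrFun h' i]
    · exact add_neg_of_neg_of_nonpos (E8_neg _ h) (NegDef.le E8_neg _)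
  card := by simp

theorem UU_mul {N N' : Matrix κ κ ℤ} (h : N * N' = 1) : UU N * UU N' = 1 := by
  ext (i | i | i) (j | j | j) <;>
    simp [mul_apply, UU, Fintype.sum_sum_type, one_apply, eq_comm]
  have := congrFun (congrFun h i) j
  simpa [mul_apply, one_apply, eq_comm] using this

theorem sig {N : Matrix κ κ ℤ} (h : NegDef N) : Sig (UU N) 3 := by
  refine ⟨fun j => mk (Pi.single j 1) (Pi.single j 1) 0, fun a ha => ?_, fun x hx h0 => ?_⟩
  · have e : ∑ j, a j • mk (κ := κ) (Pi.single j (1 : ℝ)) (Pi.single j 1) 0 = mk a a 0 := by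
      funext i
      rcases i with i | i | i <;> simp [mk, Finset.sum_apply, Pi.single_apply]
    obtain ⟨j, hj⟩ := Function.ne_iff.1 ha
    rw [e, bil_UU]
    refine add_pos_of_pos_of_nonneg (Finset.sum_pos' (fun i _ =>
      add_nonneg (mul_self_nonneg (a i)) (mul_self_nonneg (a i))) ⟨j, Finset.mem_univ _,
      add_pos (mul_self_pos.2 hj) (mul_self_pos.2 hj)⟩) (bil_zero_left N _).ge
  · have e : ∀ j, pC x j = -pI x j := fun j => by
      have := h0 j
      rw [bil_UU, show pN (mk (κ := κ) (Pi.single j (1 : ℝ)) (Pi.single j 1) 0) = 0 from rfl,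
        bil_zero_right] at this
      simp [pI, pC, mk, Pi.single_apply, Finset.sum_add_distrib] at this ⊢
      linarith
    have k : ∀ j, pI x j * pC x j + pC x j * pI x j ≤ 0 := fun j => by
      rw [e]
      nlinarith [mul_self_nonneg (pI x j)]
    rw [bil_UU]
    by_cases hn : pN x = 0
    · obtain ⟨j, hj⟩ : ∃ j, pI x j ≠ 0 := by
        by_contra hc
        push Not at hc
        refine hx (funext fun i => ?_)
        rcases i with i | i | i
        exacts [hc i, (e i).trans (by rw [hc, neg_zero, Pi.zero_apply]), congrFun hn i]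
      refine add_neg_of_neg_of_nonpos (Finset.sum_neg' (fun i _ => k i) ⟨j, Finset.mem_univ _, ?_⟩)
        (NegDef.le h _)
      rw [e]
      nlinarith [mul_self_pos.2 hj]
    · exact add_neg_of_nonpos_of_neg (Finset.sum_nonpos fun i _ => k i) (h _ hn)

end ModAux

open ModAux

theorem model : StMod := by
  refine ⟨osum E8 E8, good, ?_, fun x => ?_, ?_, by simp, sig good.neg⟩
  · rintro (i | i | i) (j | j | j) <;> simp [UU, eq_comm]
    exact good.symm _ _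
  · rw [bil_UU]
    exact (Finset.even_sum _ fun j _ => ⟨_, by rw [mul_comm]⟩).add (good.even _)
  · refine isUnit_det_of_right_inverse (UU_mul (N' := osum E8i E8i) ?_)
    simp [osum, fromBlocks_multiply, E8_mul]

theorem norm : StNorm := by
  intro ι _ _ G hG s hs
  simp only [NoInt, not_forall] at hs
  obtain ⟨x, l, h1, h2⟩ := hs
  obtain ⟨i₀, h3⟩ := Function.ne_iff.1 h2
  obtain ⟨v, h4, h5⟩ := Finset.extract_gcd x ⟨i₀, Finset.mem_univ _⟩
  set d := Finset.univ.gcd x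
  have hd : (d : ℝ) ≠ 0 := fun h => h3 (by
    rw [h4 i₀ (Finset.mem_univ _), Int.cast_eq_zero.1 h, zero_mul, Pi.zero_apply])
  have hl : l ≠ 0 := fun h => h3 (by simpa [cs, vre, h] using congrFun h1 i₀)
  obtain ⟨u, hu⟩ := Finset.gcd_eq_sum_mul Finset.univ v
  refine ⟨((d : ℝ)⁻¹ : ℝ) * l, v, vim ((((d : ℝ)⁻¹ : ℝ) * l) • s),
    mul_ne_zero (by simpa using hd) hl, ⟨G⁻¹ *ᵥ u, ?_⟩, funext fun i => ?_⟩
  · have e : bil G v (G⁻¹ *ᵥ u) = v ⬝ᵥ G *ᵥ G⁻¹ *ᵥ u := by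
      generalize G⁻¹ *ᵥ u = y
      simp only [bil, dotProduct, mulVec, Finset.mul_sum, Int.cast_id]
      exact Finset.sum_congr rfl fun _ _ => Finset.sum_congr rfl fun _ _ => by ring
    rw [e, mulVec_mulVec, mul_nonsing_inv G hG, one_mulVec, ← h5, hu]
    rfl
  · have e : (x i : ℝ) = (l * s i).re := congrFun h1 i
    rw [h4 i (Finset.mem_univ _), Int.cast_mul] at e
    apply Complex.ext
    · simp only [Pi.smul_apply, smul_eq_mul, mul_assoc, Complex.re_ofReal_mul, ← e]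
      simp [pt, cs, cr, inv_mul_cancel_left₀ hd]
    · simp [pt, cs, cr, vim]

end Vale.Agent.P290Z.Lat
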