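import Vale.Agent.P290Z.Lat.Basic

/-! P290Z, part III, lattice: orthogonal sums and the moves in the model `U³ ⊕ N`. -/

open Set Matrix
open scoped ComplexConjugate

namespace Vale.Agent.P290Z.Lat

open Vale.Agent.P290.H726

variable {ι ι' κ κ' : Type}

section osum

variable [Fintype ι] [DecidableEq ι] [Fintype ι'] [DecidableEq ι'] [Fintype κ] [DecidableEq κ]
  [Fintype κ'] [DecidableEq κ'] {R : Type} [CommRing R]

omit [DecidableEq ι] [DecidableEq κ] in
theorem bil_osum (G : Matrix ι ι ℤ) (H : Matrix κ κ ℤ) (x y : ι ⊕ κ → R) :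
    bil (osum G H) x y = bil G (fun i => x (.inl i)) (fun i => y (.inl i)) +
      bil H (fun i => x (.inr i)) (fun i => y (.inr i)) := by
  simp [bil, osum, Fintype.sum_sum_type]

omit [DecidableEq ι] [DecidableEq κ] in
theorem bil_osum_elim (G : Matrix ι ι ℤ) (H : Matrix κ κ ℤ) (x y : ι → R) (x' y' : κ → R) :
    bil (osum G H) (Sum.elim x x') (Sum.elim y y') = bil G x y + bil H x' y' :=
  bil_osum G H _ _

theorem bil_HU (x y : Fin 2 → R) : bil HU x y = x 0 * y 1 + x 1 * y 0 := by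
  simp [bil, HU, Fin.sum_univ_two]

theorem bil_HI (x y : Fin 2 → R) : bil HI x y = x 0 * y 0 - x 1 * y 1 := by
  simp [bil, HI, Fin.sum_univ_two, sub_eq_add_neg]

theorem bil_diagonal (ε : ι → ℤ) (x y : ι → R) :
    bil (diagonal ε) x y = ∑ i, (ε i : R) * x i * y i := by
  refine Finset.sum_congr rfl fun i _ => ?_
  rw [Finset.sum_eq_single i]
  · simp
  · intro j _ hj; simp [diagonal_apply_ne' _ hj]
  · simp

omit [Fintype ι] [DecidableEq ι] [Fintype κ] [DecidableEq κ] in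
theorem osum_symm {G : Matrix ι ι ℤ} {H : Matrix κ κ ℤ} (hG : ∀ i j, G i j = G j i)
    (hH : ∀ i j, H i j = H j i) (i j : ι ⊕ κ) : osum G H i j = osum G H j i := by
  rcases i with i | i <;> rcases j with j | j
  exacts [hG i j, rfl, rfl, hH i j]

theorem det_osum (G : Matrix ι ι ℤ) (H : Matrix κ κ ℤ) : (osum G H).det = G.det * H.det :=
  det_fromBlocks_zero₂₁ _ _ _

theorem Isom.osum {G : Matrix ι ι ℤ} {G' : Matrix ι' ι' ℤ} {H : Matrix κ κ ℤ}
    {H' : Matrix κ' κ' ℤ} {g : Matrix ι ι' ℤ} {h : Matrix κ κ' ℤ} (hg : Isom G' G g)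
    (hh : Isom H' H h) : Isom (osum G' H') (osum G H) (fromBlocks g 0 0 h) := by
  obtain ⟨g', h1, h2⟩ := hg.inv
  obtain ⟨h', h3, h4⟩ := hh.inv
  refine ⟨?_, fromBlocks g' 0 0 h', ?_, ?_⟩
  · simp [Lat.osum, fromBlocks_transpose, fromBlocks_multiply, hg.form, hh.form]
  · simp [fromBlocks_multiply, h1, h3]
  · simp [fromBlocks_multiply, h2, h4]

theorem Equi.osum {G : Matrix ι ι ℤ} {G' : Matrix ι' ι' ℤ} {H : Matrix κ κ ℤ}
    {H' : Matrix κ' κ' ℤ} (hg : Equi G' G) (hh : Equi H' H) : Equi (osum G' H') (osum G H) := by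
  obtain ⟨g, hg⟩ := hg
  obtain ⟨h, hh⟩ := hh
  exact ⟨_, hg.osum hh⟩

/-- reindexing is an isometry -/
theorem isom_of_equiv (G : Matrix ι ι ℤ) (G' : Matrix ι' ι' ℤ) (e : ι' ≃ ι)
    (H : ∀ i j, G (e i) (e j) = G' i j) : ∃ g, Isom G' G g ∧
    ∀ (R : Type) [CommRing R] (x : ι' → R), act g x = fun i => x (e.symm i) := by
  have h1 : ∀ (R : Type) [CommRing R] (x : ι' → R),
      act (Matrix.of fun i j => if e.symm i = j then (1 : ℤ) else 0) x = fun i => x (e.symm i) := by
    intro R _ x; ext i; simp [act]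
  refine ⟨_, isom_of_bij (form_of_bil fun x y => ?_) ?_, h1⟩
  · rw [h1, h1]
    simp only [bil]
    rw [← e.sum_comp]
    refine Finset.sum_congr rfl fun i _ => ?_
    rw [← e.sum_comp]
    simp [H]
  · have : (act (Matrix.of fun i j => if e.symm i = j then (1 : ℤ) else 0) :
        (ι' → ℤ) → ι → ℤ) = e.arrowCongr (Equiv.refl ℤ) := by
      ext x i; rw [h1]; rfl
    rw [this]; exact Equiv.bijective _

theorem equi_of_equiv (G : Matrix ι ι ℤ) (G' : Matrix ι' ι' ℤ) (e : ι' ≃ ι)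
    (H : ∀ i j, G (e i) (e j) = G' i j) : Equi G' G := by
  obtain ⟨g, hg, -⟩ := isom_of_equiv G G' e H
  exact ⟨g, hg⟩

theorem Isom.isUnit_det {G : Matrix ι ι ℤ} {G' : Matrix ι' ι' ℤ} {g : Matrix ι ι' ℤ}
    (hg : Isom G' G g) (hG : IsUnit G.det) : IsUnit G'.det := by
  obtain ⟨k, h1, h2⟩ := hg.inv
  refine isUnit_det_of_left_inverse (B := k * G⁻¹ * kᵀ) ?_
  rw [← hg.form]
  calc k * G⁻¹ * kᵀ * (gᵀ * G * g) = k * G⁻¹ * ((g * k)ᵀ * G * g) := by
        simp only [Matrix.mul_assoc, transpose_mul]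
    _ = 1 := by
        rw [h1, transpose_one, Matrix.one_mul, Matrix.mul_assoc, ← Matrix.mul_assoc G⁻¹,
          nonsing_inv_mul _ hG, Matrix.one_mul, h2]

end osum

section model

variable {R : Type} [CommRing R]

omit [CommRing R] in
@[simp] theorem pI_mk (i c : Fin 3 → R) (n : κ → R) : pI (mk i c n) = i := rfl

omit [CommRing R] in
@[simp] theorem pC_mk (i c : Fin 3 → R) (n : κ → R) : pC (mk i c n) = c := rfl

omit [CommRing R] in
@[simp] theorem pN_mk (i c : Fin 3 → R) (n : κ → R) : pN (mk i c n) = n := rfl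

omit [CommRing R] in
theorem mk_eta (s : Ix κ → R) : mk (pI s) (pC s) (pN s) = s := by
  ext (j | j | j) <;> rfl

omit [CommRing R] in
theorem ix_ext {s t : Ix κ → R} (h1 : pI s = pI t) (h2 : pC s = pC t) (h3 : pN s = pN t) :
    s = t := by
  rw [← mk_eta s, h1, h2, h3, mk_eta]

theorem mk_add (i c i' c' : Fin 3 → R) (n n' : κ → R) :
    mk i c n + mk i' c' n' = mk (i + i') (c + c') (n + n') := by
  ext (j | j | j) <;> rfl

theorem mk_sub (i c i' c' : Fin 3 → R) (n n' : κ → R) :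
    mk i c n - mk i' c' n' = mk (i - i') (c - c') (n - n') := by
  ext (j | j | j) <;> rfl

theorem mk_smul (a : R) (i c : Fin 3 → R) (n : κ → R) :
    a • mk i c n = mk (a • i) (a • c) (a • n) := by
  ext (j | j | j) <;> rfl

theorem mk_zero : (mk 0 0 0 : Ix κ → R) = 0 := by
  ext (j | j | j) <;> rfl

theorem cs_mk (i c : Fin 3 → ℤ) (n : κ → ℤ) :
    cs R (mk i c n) = mk (cs R i) (cs R c) (cs R n) := by
  ext (j | j | j) <;> rfl

theorem cr_mk (i c : Fin 3 → ℝ) (n : κ → ℝ) : cr (mk i c n) = mk (cr i) (cr c) (cr n) := by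
  ext (j | j | j) <;> rfl

theorem vre_mk (i c : Fin 3 → ℂ) (n : κ → ℂ) : vre (mk i c n) = mk (vre i) (vre c) (vre n) := by
  ext (j | j | j) <;> rfl

theorem vim_mk (i c : Fin 3 → ℂ) (n : κ → ℂ) : vim (mk i c n) = mk (vim i) (vim c) (vim n) := by
  ext (j | j | j) <;> rfl

theorem vcj_mk (i c : Fin 3 → ℂ) (n : κ → ℂ) : vcj (mk i c n) = mk (vcj i) (vcj c) (vcj n) := by
  ext (j | j | j) <;> rfl

omit [CommRing R] in
theorem continuous_mk [TopologicalSpace R] :
    Continuous fun q : (Fin 3 → R) × (Fin 3 → R) × (κ → R) => mk q.1 q.2.1 q.2.2 := by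
  refine continuous_pi ?_
  rintro (j | j | j)
  · exact (continuous_apply j).comp continuous_fst
  · exact (continuous_apply j).comp (continuous_fst.comp continuous_snd)
  · exact (continuous_apply j).comp (continuous_snd.comp continuous_snd)

omit [CommRing R] in
theorem continuous_pI [TopologicalSpace R] : Continuous (pI : (Ix κ → R) → Fin 3 → R) :=
  continuous_pi fun _ => continuous_apply _

omit [CommRing R] in
theorem continuous_pC [TopologicalSpace R] : Continuous (pC : (Ix κ → R) → Fin 3 → R) :=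
  continuous_pi fun _ => continuous_apply _

omit [CommRing R] in
theorem continuous_pN [TopologicalSpace R] : Continuous (pN : (Ix κ → R) → κ → R) :=
  continuous_pi fun _ => continuous_apply _

theorem UU_symm {N : Matrix κ κ ℤ} (hN : ∀ i j, N i j = N j i) (i j : Ix κ) :
    UU N i j = UU N j i := by
  rcases i with i | i | i <;> rcases j with j | j | j <;> simp [UU, eq_comm]
  exact hN _ _

variable [Fintype κ]

theorem bil_UU (N : Matrix κ κ ℤ) (s t : Ix κ → R) :
    bil (UU N) s t = pI s ⬝ᵥ pC t + pC s ⬝ᵥ pI t + bil N (pN s) (pN t) := by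
  simp [bil, UU, Fintype.sum_sum_type, pI, pC, pN, dotProduct, add_assoc]

theorem bil_mk (N : Matrix κ κ ℤ) (i c i' c' : Fin 3 → R) (n n' : κ → R) :
    bil (UU N) (mk i c n) (mk i' c' n') = i ⬝ᵥ c' + c ⬝ᵥ i' + bil N n n' := bil_UU N _ _

theorem ev_UU {N : Matrix κ κ ℤ} (hN : Ev N) : Ev (UU N) := fun x => by
  rw [bil_UU, dotProduct_comm (pC x)]
  exact (Even.add_self _).add (hN _)

variable [DecidableEq κ] {N : Matrix κ κ ℤ}

/-- the transvection defined by `∑ p_j e_j` and `ξ ∈ N` -/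
theorem exists_tvN (hN : ∀ i j, N i j = N j i) (p : Fin 3 → ℤ) (ξ : κ → ℤ) (h : ℤ)
    (hξ : bil N ξ ξ = 2 * h) : ∃ g, Isom (UU N) (UU N) g ∧
    ∀ (R : Type) [CommRing R] (i c : Fin 3 → R) (n : κ → R), act g (mk i c n) =
      mk (i - (bil N n (cs R ξ) + h * (c ⬝ᵥ cs R p)) • cs R p) c (n + (c ⬝ᵥ cs R p) • cs R ξ) := by
  obtain ⟨g, hg, H⟩ := exists_tv (G := UU N) (UU_symm hN) (e := mk p 0 0) (a := mk 0 0 ξ) (h := h)
    (by simp [bil_mk, bil_zero_left]) (by simp [bil_mk, bil_zero_left]) (by simp [bil_mk, hξ])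
  refine ⟨g, hg, fun R _ i c n => ?_⟩
  rw [H]
  simp only [cs_mk, cs_zero, bil_mk, bil_zero_right, mk_smul, mk_add, mk_sub, dotProduct_zero,
    zero_add, add_zero, smul_zero, sub_zero, add_smul, sub_sub]

/-- isometries of the model given by an integral matrix on the hyperbolic part -/
theorem exists_blk (N : Matrix κ κ ℤ) (A B C D A' B' C' D' : Matrix (Fin 3) (Fin 3) ℤ)
    (hf : ∀ i c i' c' : Fin 3 → ℤ, (A *ᵥ i + B *ᵥ c) ⬝ᵥ (C *ᵥ i' + D *ᵥ c') +
      (C *ᵥ i + D *ᵥ c) ⬝ᵥ (A *ᵥ i' + B *ᵥ c') = i ⬝ᵥ c' + c ⬝ᵥ i')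
    (h1 : fromBlocks A B C D * fromBlocks A' B' C' D' = 1) : ∃ g, Isom (UU N) (UU N) g ∧
    ∀ (R : Type) [CommRing R] (i c : Fin 3 → R) (n : κ → R), act g (mk i c n) =
      mk (act A i + act B c) (act C i + act D c) n := by
  let M : (A B C D : Matrix (Fin 3) (Fin 3) ℤ) → Matrix (Ix κ) (Ix κ) ℤ := fun A B C D =>
    fromBlocks A (fromCols B 0) (fromRows C 0) (fromBlocks D 0 0 1)
  have hM : ∀ (A B C D : Matrix (Fin 3) (Fin 3) ℤ) (R : Type) [CommRing R] (i c : Fin 3 → R)
      (n : κ → R), act (M A B C D) (mk i c n) = mk (act A i + act B c) (act C i + act D c) n := by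
    intro A B C D R _ i c n
    ext (j | j | j) <;> simp [M, act, mk, Fintype.sum_sum_type, one_apply]
  have key : ∀ A B C D A' B' C' D' : Matrix (Fin 3) (Fin 3) ℤ,
      fromBlocks A B C D * fromBlocks A' B' C' D' = 1 → M A B C D * M A' B' C' D' = 1 := by
    intro A B C D A' B' C' D' h
    rw [fromBlocks_multiply, ← fromBlocks_one, fromBlocks_inj] at h
    obtain ⟨e1, e2, e3, e4⟩ := h
    refine eq_of_act fun x => ?_
    rw [act_mul, act_one, ← mk_eta x, hM, hM]
    simp only [act_int, mulVec_add, mulVec_mulVec]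
    congr 1
    · rw [add_add_add_comm, ← add_mulVec, ← add_mulVec, e1, e2, one_mulVec, zero_mulVec, add_zero]
    · rw [add_add_add_comm, ← add_mulVec, ← add_mulVec, e3, e4, one_mulVec, zero_mulVec, zero_add]
  refine ⟨M A B C D, ⟨form_of_bil fun x y => ?_, M A' B' C' D', key _ _ _ _ _ _ _ _ h1,
    key _ _ _ _ _ _ _ _ (mul_eq_one_comm.1 h1)⟩, hM A B C D⟩
  rw [← mk_eta x, ← mk_eta y, hM, hM, bil_mk, bil_mk]
  simp only [act_int, hf]

/-- the shift `i ↦ i + m × c` -/
theorem exists_shift (N : Matrix κ κ ℤ) (m : Fin 3 → ℤ) : ∃ g, Isom (UU N) (UU N) g ∧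
    ∀ (R : Type) [CommRing R] (i c : Fin 3 → R) (n : κ → R), act g (mk i c n) =
      mk (i + crossProduct (cs R m) c) c n := by
  obtain ⟨g, hg, H⟩ := exists_blk N 1 !![0, -m 2, m 1; m 2, 0, -m 0; -m 1, m 0, 0] 0 1
    1 (-!![0, -m 2, m 1; m 2, 0, -m 0; -m 1, m 0, 0]) 0 1
    (fun i c i' c' => by
      simp [dotProduct, Fin.sum_univ_three]; ring)
    (by
      rw [fromBlocks_multiply, Matrix.one_mul, Matrix.one_mul, Matrix.mul_one, neg_add_cancel]
      simp)
  refine ⟨g, hg, fun R _ i c n => ?_⟩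
  rw [H, act_one, act_one]
  congr 1
  · congr 1
    ext j; fin_cases j <;> simp [act, Fin.sum_univ_three, cross_apply, cs] <;> ring
  · ext j; simp [act]

/-- the exchange of `e_j` and `f_j` for `j ∈ S` -/
theorem exists_swap (N : Matrix κ κ ℤ) (S : Finset (Fin 3)) : ∃ g, Isom (UU N) (UU N) g ∧
    ∀ (R : Type) [CommRing R] (i c : Fin 3 → R) (n : κ → R), act g (mk i c n) =
      mk (fun j => if j ∈ S then c j else i j) (fun j => if j ∈ S then i j else c j) n := by
  let P : Matrix (Fin 3) (Fin 3) ℤ := diagonal fun j => if j ∈ S then 1 else 0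
  let Q : Matrix (Fin 3) (Fin 3) ℤ := diagonal fun j => if j ∈ S then 0 else 1
  have hP : ∀ (R : Type) [CommRing R] (x : Fin 3 → R) j, act P x j = if j ∈ S then x j else 0 := by
    intro R _ x j; simp [act, P, diagonal_apply]
  have hQ : ∀ (R : Type) [CommRing R] (x : Fin 3 → R) j, act Q x j = if j ∈ S then 0 else x j := by
    intro R _ x j; simp [act, Q, diagonal_apply]
  obtain ⟨g, hg, H⟩ := exists_blk N Q P P Q Q P P Q
    (fun i c i' c' => by
      simp only [← act_int, dotProduct, Pi.add_apply, hP, hQ, ← Finset.sum_add_distrib]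
      refine Finset.sum_congr rfl fun j _ => ?_
      split_ifs <;> ring)
    (by
      rw [fromBlocks_multiply, ← fromBlocks_one, fromBlocks_inj]
      simp only [P, Q, diagonal_mul_diagonal, diagonal_add, ← diagonal_one, ← diagonal_zero]
      refine ⟨?_, ?_, ?_, ?_⟩ <;> congr 1 <;> ext j <;> split_ifs <;> simp)
  refine ⟨g, hg, fun R _ i c n => ?_⟩
  rw [H]
  congr 1 <;> ext j <;> simp only [Pi.add_apply, hP, hQ] <;> split_ifs <;> simp

/-- the exchange of all `e_j` and `f_j` -/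
theorem exists_swap_all (N : Matrix κ κ ℤ) : ∃ g, Isom (UU N) (UU N) g ∧
    ∀ (R : Type) [CommRing R] (i c : Fin 3 → R) (n : κ → R), act g (mk i c n) = mk c i n := by
  obtain ⟨g, hg, H⟩ := exists_swap N Finset.univ
  exact ⟨g, hg, fun R _ i c n => by rw [H]; simp⟩

/-- the action of `GL₃(ℤ)` -/
theorem exists_gl (N : Matrix κ κ ℤ) (A A' : Matrix (Fin 3) (Fin 3) ℤ) (h : A * A' = 1) :
    ∃ g, Isom (UU N) (UU N) g ∧ ∀ (R : Type) [CommRing R] (i c : Fin 3 → R) (n : κ → R),
      act g (mk i c n) = mk (act A i) (act A'ᵀ c) n := by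
  have h' : A' * A = 1 := mul_eq_one_comm.1 h
  have h0 : ∀ (R : Type) [CommRing R] (x : Fin 3 → R), act (0 : Matrix (Fin 3) (Fin 3) ℤ) x = 0 := by
    intro R _ x; ext j; simp [act]
  obtain ⟨g, hg, H⟩ := exists_blk N A 0 0 A'ᵀ A' 0 0 Aᵀ
    (fun i c i' c' => by
      simp only [zero_mulVec, add_zero, zero_add]
      rw [dotProduct_comm (A'ᵀ *ᵥ c), dotProduct_comm c, dotProduct_mulVec (A *ᵥ i),
        dotProduct_mulVec (A *ᵥ i'), vecMul_transpose, vecMul_transpose, mulVec_mulVec,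
        mulVec_mulVec, h', one_mulVec, one_mulVec])
    (by rw [fromBlocks_multiply]; simp [h, ← transpose_mul])
  exact ⟨g, hg, fun R _ i c n => by rw [H, h0, h0, add_zero, zero_add]⟩

omit [DecidableEq κ] in
/-- the real and imaginary parts of the products of a period with the `e_j` are independent -/
theorem indep_pC (hN : Good N) {s : Ix κ → ℂ} (hs : IsPer (UU N) s) :
    LinearIndependent ℝ ![vre (pC s), vim (pC s)] := by
  obtain ⟨h1, h2, h3⟩ := (isPer_iff (UU_symm hN.symm) s).1 hs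
  rw [LinearIndependent.pair_iff]
  intro a b hab
  have h4 : pC (a • vre s + b • vim s) = 0 := hab
  have h5 : bil (UU N) (a • vre s + b • vim s) (a • vre s + b • vim s) =
      (a ^ 2 + b ^ 2) * bil (UU N) (vre s) (vre s) := by
    simp only [bil_add_left, bil_add_right, bil_smul_left, bil_smul_right, ← h1, h2,
      bil_symm _ (UU_symm hN.symm) (vim s) (vre s)]
    ring
  have h6 : bil (UU N) (a • vre s + b • vim s) (a • vre s + b • vim s) ≤ 0 := by
    rw [bil_UU, h4, dotProduct_zero, zero_dotProduct, zero_add, zero_add]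
    by_cases h : pN (a • vre s + b • vim s) = 0
    · rw [h, bil_zero_left]
    · exact (hN.neg _ h).le
  have h7 : a ^ 2 + b ^ 2 ≤ 0 := by
    rw [h5] at h6
    by_contra h
    exact absurd (mul_pos (not_le.1 h) h3) (not_lt.2 h6)
  constructor <;> nlinarith [sq_nonneg a, sq_nonneg b]

end model

end Vale.Agent.P290Z.Lat
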