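import Vale.Agent.P290Z.Lat.Spec

/-! P290Z, block LAT: `U ⊕ H` is determined by `I₁,₁ ⊕ H`; uniqueness of the lattice. -/

open Set Matrix

namespace Vale.Agent.P290Z.Lat

open Vale.Agent.P290.H726 (bil)

namespace Rec

variable {ι ι' κ : Type} [Fintype ι] [DecidableEq ι] [Fintype ι'] [DecidableEq ι'] [Fintype κ]
  [DecidableEq κ]

theorem bil_eq (G : Matrix ι ι ℤ) (x y : ι → ℤ) : bil G x y = x ⬝ᵥ G *ᵥ y := by
  simp only [bil, dotProduct, mulVec, Finset.mul_sum, Int.cast_id]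
  exact Finset.sum_congr rfl fun i _ => Finset.sum_congr rfl fun j _ => by ring

theorem bil_mulVec {G : Matrix ι ι ℤ} {G' : Matrix ι' ι' ℤ} {g : Matrix ι ι' ℤ}
    (h : gᵀ * G * g = G') (x y : ι' → ℤ) : bil G (g *ᵥ x) (g *ᵥ y) = bil G' x y := by
  rw [bil_eq, bil_eq, ← h, ← mulVec_mulVec, ← mulVec_mulVec, dotProduct_mulVec x gᵀ,
    vecMul_transpose]

theorem card_eq {G : Matrix ι ι ℤ} {G' : Matrix ι' ι' ℤ} (h : Equi G' G) :
    Fintype.card ι = Fintype.card ι' := by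
  obtain ⟨g, -, k, h1, h2⟩ := h
  have h3 := trace_mul_comm g k
  rw [h1, h2, trace_one, trace_one] at h3
  exact_mod_cast h3

theorem isom_of_form {G : Matrix ι ι ℤ} {G' : Matrix ι' ι' ℤ} {g : Matrix ι ι' ℤ}
    (h : gᵀ * G * g = G') (hu : IsUnit G'.det) (hc : Fintype.card ι = Fintype.card ι') :
    Isom G' G g := by
  have h1 : G'⁻¹ * (gᵀ * G) * g = 1 := by rw [Matrix.mul_assoc, h, nonsing_inv_mul _ hu]
  exact ⟨h, _, (mul_eq_one_comm_of_equiv (Fintype.equivOfCardEq hc.symm)).1 h1, h1⟩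

theorem symm {G : Matrix ι ι ℤ} {G' : Matrix ι' ι' ℤ} (h : Equi G' G) : Equi G G' := by
  obtain ⟨g, h0, k, h1, h2⟩ := h
  refine ⟨k, ?_, g, h2, h1⟩
  calc kᵀ * G' * k = (g * k)ᵀ * G * (g * k) := by
        rw [← h0, transpose_mul]; simp only [Matrix.mul_assoc]
    _ = G := by rw [h1]; simp

theorem trans {G : Matrix ι ι ℤ} {G' : Matrix ι' ι' ℤ} {G'' : Matrix κ κ ℤ} (h' : Equi G'' G')
    (h : Equi G' G) : Equi G'' G := by
  obtain ⟨g, h0, k, h1, h2⟩ := h
  obtain ⟨g', h0', k', h1', h2'⟩ := h'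
  refine ⟨g * g', ?_, k' * k, ?_, ?_⟩
  · rw [← h0', ← h0, transpose_mul]; simp only [Matrix.mul_assoc]
  · rw [Matrix.mul_assoc, ← Matrix.mul_assoc g', h1', Matrix.one_mul, h1]
  · rw [Matrix.mul_assoc, ← Matrix.mul_assoc k, h2, Matrix.one_mul, h2']

theorem bil_D {R : Type} [CommRing R] (H : Matrix ι ι ℤ) (x y : Fin 2 ⊕ ι → R) :
    bil (osum HI H) x y = x (.inl 0) * y (.inl 0) - x (.inl 1) * y (.inl 1) +
      bil H (fun i => x (.inr i)) fun i => y (.inr i) := by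
  simp [bil, osum, HI, Fintype.sum_sum_type, Fin.sum_univ_two, sub_eq_add_neg]

/-- twice the embedding of `U ⊕ H` -/
def J (ι : Type) [DecidableEq ι] (ε : ℤ) : Matrix (Fin 2 ⊕ ι) (Fin 2 ⊕ ι) ℤ :=
  fromBlocks !![1, 2; ε, -2 * ε] 0 0 ((2 : ℤ) • 1)

theorem J_form (H : Matrix ι ι ℤ) {ε : ℤ} (h : ε = 1 ∨ ε = -1) :
    (J ι ε)ᵀ * osum HI H * J ι ε = (4 : ℤ) • osum HU H := by
  simp only [J, osum, fromBlocks_transpose, fromBlocks_multiply, fromBlocks_smul]
  congr 1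
  · ext i j
    rcases h with rfl | rfl <;> fin_cases i <;> fin_cases j <;>
      simp [HI, HU, mul_apply, Fin.sum_univ_two]
  · simp
  · simp
  · rw [transpose_smul, transpose_one]
    simp only [Matrix.zero_mul, Matrix.mul_zero, zero_add, Matrix.smul_mul, Matrix.mul_smul,
      Matrix.one_mul, Matrix.mul_one, smul_smul, transpose_zero]
    norm_num

theorem J_apply (ε : ℤ) (v : Fin 2 ⊕ ι → ℤ) :
    (J ι ε *ᵥ v) (.inl 0) = v (.inl 0) + 2 * v (.inl 1) ∧
      (J ι ε *ᵥ v) (.inl 1) = ε * (v (.inl 0) - 2 * v (.inl 1)) ∧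
      ∀ i, (J ι ε *ᵥ v) (.inr i) = 2 * v (.inr i) := by
  refine ⟨?_, ?_, fun i => ?_⟩
  · simp [J, mulVec, dotProduct, Fintype.sum_sum_type, Fin.sum_univ_two]
  · simp [J, mulVec, dotProduct, Fintype.sum_sum_type, Fin.sum_univ_two]; ring
  · rw [J, fromBlocks_mulVec, Sum.elim_inr, zero_mulVec, zero_add, smul_mulVec, one_mulVec]
    rfl

theorem vext {x y : Fin 2 ⊕ ι → ℤ} (h0 : x (.inl 0) = y (.inl 0)) (h1 : x (.inl 1) = y (.inl 1))
    (h2 : ∀ i, x (.inr i) = y (.inr i)) : x = y := by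
  ext (i | i)
  · fin_cases i
    exacts [h0, h1]
  · exact h2 i

theorem det_osum (A : Matrix ι' ι' ℤ) (H : Matrix ι ι ℤ) : (osum A H).det = A.det * H.det :=
  det_fromBlocks_zero₂₁ _ _ _

theorem perm {ε ε' : ι → ℤ} (h : ∀ i, ε i = 1 ∨ ε i = -1) (h' : ∀ i, ε' i = 1 ∨ ε' i = -1)
    (hc : (Finset.univ.filter fun i => ε' i = 1).card = (Finset.univ.filter fun i => ε i = 1).card) :
    Equi (diagonal ε') (diagonal ε) := by
  have c1 : Fintype.card {i // ε' i = 1} = Fintype.card {i // ε i = 1} := by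
    rw [Fintype.card_subtype, Fintype.card_subtype, hc]
  have c2 : Fintype.card {i // ¬ε' i = 1} = Fintype.card {i // ¬ε i = 1} := by
    rw [Fintype.card_subtype_compl, Fintype.card_subtype_compl, c1]
  obtain ⟨σ, hσ⟩ : ∃ σ : ι ≃ ι, ∀ i, ε (σ i) = ε' i := by
    refine ⟨Equiv.subtypeCongr (Fintype.equivOfCardEq c1) (Fintype.equivOfCardEq c2), fun i => ?_⟩
    by_cases hi : ε' i = 1
    · rw [Equiv.subtypeCongr, Equiv.trans_apply,
        Equiv.sumCompl_symm_apply_of_pos (p := fun i => ε' i = 1) hi, hi]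
      exact (Fintype.equivOfCardEq c1 ⟨i, hi⟩).prop
    · rw [Equiv.subtypeCongr, Equiv.trans_apply,
        Equiv.sumCompl_symm_apply_of_neg (p := fun i => ε' i = 1) hi, (h' i).resolve_left hi]
      exact (h _).resolve_left (Fintype.equivOfCardEq c2 ⟨i, hi⟩).prop
  refine ⟨(1 : Matrix ι ι ℤ).submatrix (Equiv.refl ι) σ, ?_,
    (1 : Matrix ι ι ℤ).submatrix σ (Equiv.refl ι), ?_, ?_⟩
  · rw [transpose_submatrix, transpose_one, one_submatrix_mul, mul_submatrix_one, submatrix_submatrix]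
    rw [← funext hσ]
    exact submatrix_diagonal_equiv ε σ
  · rw [submatrix_mul_equiv]; simp
  · rw [submatrix_mul_equiv]; simp

end Rec

open Rec

theorem rec : StRec := by
  intro ι ι' _ _ _ _ H H' _ _ he he' hu hu' hE
  have hc := card_eq hE
  obtain ⟨g, hg, k, hk, -⟩ := hE
  obtain ⟨a, ha⟩ : ∃ a, a = g *ᵥ Sum.elim ![1, 1] 0 := ⟨_, rfl⟩
  have ch : ∀ x, Even (bil (osum HI H) x x - bil (osum HI H) x a) := by
    intro x
    have h1 : x = g *ᵥ (k *ᵥ x) := by rw [mulVec_mulVec, hk, one_mulVec]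
    rw [h1, ha, bil_mulVec hg, bil_mulVec hg, bil_D, bil_D]
    generalize k *ᵥ x = y
    have h2 := ((Int.even_mul_pred_self (y (.inl 0))).sub (Int.even_mul_pred_self (y (.inl 1)))).add
      (he' fun i => y (.inr i))
    refine (congrArg Even ?_).mp h2
    simp [bil]
    ring
  have a0 : Even (1 - a (.inl 0)) := by
    have := ch (Pi.single (.inl 0) 1)
    rw [bil_D, bil_D] at this
    simpa [bil] using this
  have a1 : Even (-1 + a (.inl 1)) := by
    have := ch (Pi.single (.inl 1) 1)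
    rw [bil_D, bil_D] at this
    simpa [bil] using this
  have a2 : ∀ i, Even (a (.inr i)) := by
    have h1 : ∀ j, Even ((H *ᵥ fun i => a (.inr i)) j) := by
      intro j
      have h2 := ch (Sum.elim 0 (Pi.single j 1))
      rw [bil_D, bil_D] at h2
      have h3 := (he (Pi.single j 1)).sub h2
      simpa [bil_eq] using h3
    intro i
    have h2 : (H⁻¹ *ᵥ (H *ᵥ fun i => a (.inr i))) i = a (.inr i) := by
      rw [mulVec_mulVec, nonsing_inv_mul _ hu, one_mulVec]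
    rw [← h2]
    exact Finset.even_sum _ fun j _ => (h1 j).mul_left _
  obtain ⟨ε, hε, s, hs⟩ : ∃ ε : ℤ, (ε = 1 ∨ ε = -1) ∧ ∃ s, a (.inl 0) = ε * a (.inl 1) + 4 * s := by
    obtain ⟨p, hp⟩ := a0
    obtain ⟨q, hq⟩ := a1
    rcases Int.even_or_odd' (p + q) with ⟨r, hr | hr⟩
    · exact ⟨1, .inl rfl, -r, by omega⟩
    · exact ⟨-1, .inr rfl, q - r, by omega⟩
  have key : ∀ v, ∃ w, J ι ε *ᵥ w = g *ᵥ (J ι' 1 *ᵥ v) := by
    intro v
    obtain ⟨z, hz⟩ : ∃ z, z = g *ᵥ Sum.elim ![v (.inl 1), -v (.inl 1)] fun i => v (.inr i) :=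
      ⟨_, rfl⟩
    have h1 : g *ᵥ (J ι' 1 *ᵥ v) = v (.inl 0) • a + (2 : ℤ) • z := by
      rw [ha, hz, ← mulVec_smul, ← mulVec_smul, ← mulVec_add]
      congr 1
      obtain ⟨j0, j1, j2⟩ := J_apply 1 v
      refine vext ?_ ?_ fun i => ?_
      · rw [j0]; simp
      · rw [j1]; simp [sub_eq_add_neg]
      · rw [j2]; simp
    have h2 : Even (bil (osum HI H) z z) := by
      rw [hz, bil_mulVec hg, bil_D]
      simpa using he' fun i => v (.inr i)
    rw [bil_D] at h2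
    have h3 : Even (z (.inl 0) - ε * z (.inl 1)) := by
      have h4 := (h2.sub (he fun i => z (.inr i))).sub
        ((Int.even_mul_pred_self (z (.inl 0))).sub (Int.even_mul_pred_self (z (.inl 1))))
      rcases hε with rfl | rfl
      · exact (congrArg Even (by ring)).mp h4
      · exact (congrArg Even (by ring)).mp (h4.add (even_two_mul (z (.inl 1))))
    obtain ⟨t, ht⟩ := h3
    choose m hm using a2
    have e2 : ε * ε = 1 := by rcases hε with rfl | rfl <;> norm_num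
    obtain ⟨j0, j1, j2⟩ := J_apply ε (Sum.elim ![ε * (v (.inl 0) * a (.inl 1) + 2 * z (.inl 1)) +
      2 * (v (.inl 0) * s + t), v (.inl 0) * s + t] fun i => v (.inl 0) * m i + z (.inr i))
    rw [h1]
    refine ⟨_, vext (j0.trans ?_) (j1.trans ?_) fun i => (j2 i).trans ?_⟩
    · simp; linear_combination -v (.inl 0) * hs - 2 * ht
    · simp; linear_combination (v (.inl 0) * a (.inl 1) + 2 * z (.inl 1)) * e2
    · simp; linear_combination -v (.inl 0) * hm i
  choose w hw using key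
  have h1 : J ι ε * (of fun i j => w (Pi.single j 1) i) = g * J ι' 1 := by
    ext i j
    have h2 := congrFun (hw (Pi.single j 1)) i
    rw [mulVec_mulVec, mulVec_single_one] at h2
    exact h2
  generalize (of fun i j => w (Pi.single j 1) i) = ψ at h1
  refine ⟨ψ, isom_of_form ?_ ?_ hc⟩
  · apply smul_right_injective _ (show (4 : ℤ) ≠ 0 by norm_num)
    calc (4 : ℤ) • (ψᵀ * osum HU H * ψ) = (J ι ε * ψ)ᵀ * osum HI H * (J ι ε * ψ) := by
          rw [← Matrix.smul_mul, ← Matrix.mul_smul, ← J_form H hε, transpose_mul]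
          simp only [Matrix.mul_assoc]
      _ = (J ι' 1)ᵀ * (gᵀ * osum HI H * g) * J ι' 1 := by
          rw [h1, transpose_mul]; simp only [Matrix.mul_assoc]
      _ = _ := by rw [hg, J_form H' (.inl rfl)]
  · rw [det_osum]
    exact IsUnit.mul (by simp [HU, det_fin_two]) hu'

namespace Rec

theorem indef {ι : Type} [Fintype ι] [DecidableEq ι] {G : Matrix ι ι ℤ} (h : IsK3L G) :
    Indef G := by
  obtain ⟨w, h1, h2⟩ := h.sig
  refine ⟨⟨_, h1 1 one_ne_zero⟩, ?_⟩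
  let M : Matrix (Fin 3) ι ℝ := of fun j i => ∑ k, (G i k : ℝ) * w j k
  have h3 : LinearMap.ker M.mulVecLin ≠ ⊥ :=
    LinearMap.ker_ne_bot_of_finrank_lt (by simp [h.card])
  obtain ⟨x, hx, hx0⟩ := Submodule.exists_mem_ne_zero_of_ne_bot h3
  refine ⟨x, h2 x hx0 fun j => ?_⟩
  rw [← show (M *ᵥ x) j = 0 from congrFun hx j]
  simp only [bil, M, mulVec, dotProduct, of_apply, Finset.sum_mul]
  exact Finset.sum_congr rfl fun i _ => Finset.sum_congr rfl fun k _ => by ring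

theorem split (hH : StHyp) (hD : StDiag) (hS : StSyl) {ι : Type} [Fintype ι] [DecidableEq ι]
    {G : Matrix ι ι ℤ} (h : IsK3L G) : ∃ H : Matrix (Fin 20) (Fin 20) ℤ, (∀ i j, H i j = H j i) ∧
      Ev H ∧ IsUnit H.det ∧ Equi (osum HU H) G ∧ ∃ ε : Fin 2 ⊕ Fin 20 → ℤ,
      (∀ i, ε i = 1 ∨ ε i = -1) ∧ Equi (diagonal ε) (osum HI H) ∧
      (Finset.univ.filter fun i => ε i = 1).card = 3 := by
  obtain ⟨n, H, h1, h2, h3, h4, -⟩ := hH ι G h.symm h.unit (indef h)
  obtain rfl : n = 20 := by have := h.card; omega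
  obtain ⟨h5, h6⟩ := h4 h.even
  obtain ⟨ε, h7, h8⟩ := hD _ (osum HI H) (by
      rintro (i | i) (j | j)
      · fin_cases i <;> fin_cases j <;> rfl
      · rfl
      · rfl
      · exact h1 i j)
    (by rw [det_osum]; exact IsUnit.mul (by simp [HI, det_fin_two]) h2)
    ⟨⟨Pi.single (.inl 0) 1, by rw [bil_D]; simp [bil]⟩,
      ⟨Pi.single (.inl 1) 1, by rw [bil_D]; simp [bil]⟩⟩
    (fun he => by
      have := he (Pi.single (.inl 0) 1)
      rw [bil_D] at this
      simpa [bil] using this)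
  exact ⟨H, h1, h5, h2, h6, ε, h7, h8,
    hS.1 _ _ 3 ε h7 h8 (hS.2.2 _ H 3 (hS.2.1 _ _ G _ 3 h6 h.sig))⟩

end Rec

theorem iso (hH : StHyp) (hD : StDiag) (hS : StSyl) (hR : StRec) : StIso := by
  intro ι ι' _ _ _ _ G G' h h'
  obtain ⟨H, a1, a2, a3, a4, ε, a5, a6, a7⟩ := split hH hD hS h
  obtain ⟨H', b1, b2, b3, b4, ε', b5, b6, b7⟩ := split hH hD hS h'
  exact trans (symm b4) (trans (hR _ _ H H' a1 b1 a2 b2 a3 b3
    (trans (symm b6) (trans (perm a5 b5 (b7.trans a7.symm)) a6))) a4)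

end Vale.Agent.P290Z.Lat
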