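import Vale.Agent.P290.H726.Dens

/-! P290Z, part III: the lattice and the orbits of its isometry group. Definitions and the
statements of the steps. The paper proof is in `notes/P290_helper52_Lat.md`. -/

open Set Matrix
open scoped ComplexConjugate

namespace Vale.Agent.P290Z.Lat

open Vale.Agent.P290.H726 (bil)

section defs

variable {ι ι' κ : Type}

/-- the action of an integral matrix on vectors with coefficients in `R` -/
def act [Fintype ι'] {R : Type} [CommRing R] (g : Matrix ι ι' ℤ) (x : ι' → R) : ι → R :=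
  fun i => ∑ j, (g i j : R) * x j

/-- integral vectors with coefficients in `R` -/
def cs (R : Type) [CommRing R] (x : ι → ℤ) : ι → R := fun i => (x i : R)

/-- real vectors as complex vectors -/
def cr (x : ι → ℝ) : ι → ℂ := fun i => (x i : ℂ)

/-- real part -/
def vre (s : ι → ℂ) : ι → ℝ := fun i => (s i).re

/-- imaginary part -/
def vim (s : ι → ℂ) : ι → ℝ := fun i => (s i).im

/-- conjugate -/
def vcj (s : ι → ℂ) : ι → ℂ := fun i => conj (s i)

/-- `v + i b` -/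
def pt (v : ι → ℤ) (b : ι → ℝ) : ι → ℂ := cs ℂ v + Complex.I • cr b

variable [Fintype ι] [DecidableEq ι] [Fintype ι'] [DecidableEq ι'] [Fintype κ] [DecidableEq κ]

/-- `g` is an isometry from the lattice with Gram matrix `G'` onto the lattice with Gram matrix
`G` -/
structure Isom (G' : Matrix ι' ι' ℤ) (G : Matrix ι ι ℤ) (g : Matrix ι ι' ℤ) : Prop where
  form : gᵀ * G * g = G'
  inv : ∃ h : Matrix ι' ι ℤ, g * h = 1 ∧ h * g = 1

/-- isometric lattices -/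
def Equi (G' : Matrix ι' ι' ℤ) (G : Matrix ι ι ℤ) : Prop := ∃ g, Isom G' G g

/-- even lattices -/
def Ev (G : Matrix ι ι ℤ) : Prop := ∀ x : ι → ℤ, Even (bil G x x)

/-- negative definite -/
def NegDef (G : Matrix ι ι ℤ) : Prop := ∀ x : ι → ℝ, x ≠ 0 → bil G x x < 0

/-- indefinite -/
def Indef (G : Matrix ι ι ℤ) : Prop :=
  (∃ x : ι → ℝ, 0 < bil G x x) ∧ ∃ x : ι → ℝ, bil G x x < 0

/-- the real vectors `w j` span a positive space whose orthogonal complement is negative -/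
def Sig (G : Matrix ι ι ℤ) (r : ℕ) : Prop :=
  ∃ w : Fin r → ι → ℝ,
    (∀ a : Fin r → ℝ, a ≠ 0 → 0 < bil G (∑ j, a j • w j) (∑ j, a j • w j)) ∧
    ∀ x : ι → ℝ, x ≠ 0 → (∀ j, bil G x (w j) = 0) → bil G x x < 0

/-- even unimodular lattices of signature `(3, 19)` -/
structure IsK3L (G : Matrix ι ι ℤ) : Prop where
  symm : ∀ i j, G i j = G j i
  even : Ev G
  unit : IsUnit G.det
  card : Fintype.card ι = 22
  sig : Sig G 3

/-- period vectors -/
def IsPer (G : Matrix ι ι ℤ) (s : ι → ℂ) : Prop :=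
  bil G s s = 0 ∧ 0 < (bil G s (vcj s)).re

/-- no nonzero integral isotropic vector is orthogonal to `s` -/
def NoIso (G : Matrix ι ι ℤ) (s : ι → ℂ) : Prop :=
  ∀ e : ι → ℤ, bil G e e = 0 → bil G s (cs ℂ e) = 0 → e = 0

/-- the plane spanned by the real and the imaginary part contains no nonzero integral vector -/
def NoInt (s : ι → ℂ) : Prop := ∀ (x : ι → ℤ) (l : ℂ), cs ℝ x = vre (l • s) → x = 0

/-- primitive vectors -/
def Prim (G : Matrix ι ι ℤ) (v : ι → ℤ) : Prop := ∃ w : ι → ℤ, bil G v w = 1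

/-- the orbit of `s` under the isometries which fix the vectors of `Fx` -/
def Orb (G : Matrix ι ι ℤ) (Fx : Set (ι → ℤ)) (s : ι → ℂ) : Set (ι → ℂ) :=
  {p | ∃ g, Isom G G g ∧ (∀ v ∈ Fx, act g v = v) ∧ p = act g s}

/-- the closure of the orbit -/
def Cl (G : Matrix ι ι ℤ) (Fx : Set (ι → ℤ)) (s : ι → ℂ) : Set (ι → ℂ) := closure (Orb G Fx s)

/-- the hyperbolic plane -/
def HU : Matrix (Fin 2) (Fin 2) ℤ := !![0, 1; 1, 0]

/-- the odd hyperbolic plane -/
def HI : Matrix (Fin 2) (Fin 2) ℤ := !![1, 0; 0, -1]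

/-- orthogonal sums -/
def osum (G : Matrix ι ι ℤ) (G' : Matrix ι' ι' ℤ) : Matrix (ι ⊕ ι') (ι ⊕ ι') ℤ :=
  fromBlocks G 0 0 G'

/-- the index set of the model `U³ ⊕ N` -/
abbrev Ix (κ : Type) : Type := Fin 3 ⊕ Fin 3 ⊕ κ

/-- the model `U³ ⊕ N` -/
def UU (N : Matrix κ κ ℤ) : Matrix (Ix κ) (Ix κ) ℤ
  | .inl i, .inr (.inl j) => if i = j then 1 else 0
  | .inr (.inl i), .inl j => if i = j then 1 else 0
  | .inr (.inr a), .inr (.inr b) => N a b
  | _, _ => 0

/-- the vector `∑ i_j e_j + ∑ c_j f_j + n` -/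
def mk {R : Type} (i c : Fin 3 → R) (n : κ → R) : Ix κ → R := Sum.elim i (Sum.elim c n)

/-- the coefficients of the `e_j` -/
def pI {R : Type} (s : Ix κ → R) : Fin 3 → R := fun j => s (.inl j)

/-- the coefficients of the `f_j`, that is the products with the `e_j` -/
def pC {R : Type} (s : Ix κ → R) : Fin 3 → R := fun j => s (.inr (.inl j))

/-- the component in `N` -/
def pN {R : Type} (s : Ix κ → R) : κ → R := fun a => s (.inr (.inr a))

/-- even negative definite lattices of rank at least eight -/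
structure Good (N : Matrix κ κ ℤ) : Prop where
  symm : ∀ i j, N i j = N j i
  even : Ev N
  neg : NegDef N
  card : 8 ≤ Fintype.card κ

/-- the three numbers generate a dense subgroup of `ℂ` -/
def DT (c : Fin 3 → ℂ) : Prop := Dense (range fun m : Fin 3 → ℤ => ∑ j, (m j : ℂ) * c j)

/-- a vector of `N ⊗ ℂ` in general position -/
def Wide (n : κ → ℂ) : Prop :=
  ∃ l : ℂ, l ≠ 0 ∧ ∀ x : Fin 6 → κ → ℤ,
    vre (l • n) ∉ Submodule.span ℝ (insert (vim (l • n)) (range fun k => cs ℝ (x k)))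

/-- the vector `d e₃ + f₃` of the model -/
def vd (κ : Type) (d : ℤ) : Ix κ → ℤ := mk (Pi.single 2 d) (Pi.single 2 1) 0

/-- the integral vectors orthogonal to `p` are those orthogonal to all integral vectors orthogonal
to the `m a` -/
def Gen {μ : Type} (G : Matrix ι ι ℤ) (m : μ → ι → ℤ) (p : ι → ℂ) : Prop :=
  ∀ y : ι → ℤ, bil G p (cs ℂ y) = 0 ↔
    ∀ z : ι → ℤ, (∀ a, bil G z (m a) = 0) → bil G z y = 0

end defs

/-! ### classification -/

/-- COMP: a unimodular sublattice splits off -/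
def StComp : Prop :=
  ∀ (ι μ : Type) [Fintype ι] [DecidableEq ι] [Fintype μ] [DecidableEq μ] (G : Matrix ι ι ℤ),
    (∀ i j, G i j = G j i) → IsUnit G.det → ∀ (u : Matrix ι μ ℤ), IsUnit (uᵀ * G * u).det →
    ∃ (n : ℕ) (H : Matrix (Fin n) (Fin n) ℤ), (∀ i j, H i j = H j i) ∧ IsUnit H.det ∧
      Fintype.card μ + n = Fintype.card ι ∧ Equi (osum (uᵀ * G * u) H) G

/-- HYP: indefinite unimodular lattices split off a hyperbolic plane -/
def StHyp : Prop :=
  ∀ (ι : Type) [Fintype ι] [DecidableEq ι] (G : Matrix ι ι ℤ),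
    (∀ i j, G i j = G j i) → IsUnit G.det → Indef G →
    ∃ (n : ℕ) (H : Matrix (Fin n) (Fin n) ℤ), (∀ i j, H i j = H j i) ∧ IsUnit H.det ∧
      2 + n = Fintype.card ι ∧ (Ev G → Ev H ∧ Equi (osum HU H) G) ∧ (¬ Ev G → Equi (osum HI H) G)

/-- DIAG: odd indefinite unimodular lattices are diagonal -/
def StDiag : Prop :=
  ∀ (ι : Type) [Fintype ι] [DecidableEq ι] (G : Matrix ι ι ℤ),
    (∀ i j, G i j = G j i) → IsUnit G.det → Indef G → ¬ Ev G →
    ∃ ε : ι → ℤ, (∀ i, ε i = 1 ∨ ε i = -1) ∧ Equi (diagonal ε) G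

/-- SYL: Sylvester -/
def StSyl : Prop :=
  (∀ (ι : Type) [Fintype ι] [DecidableEq ι] (G : Matrix ι ι ℤ) (r : ℕ) (ε : ι → ℤ),
    (∀ i, ε i = 1 ∨ ε i = -1) → Equi (diagonal ε) G → Sig G r →
    (Finset.univ.filter fun i => ε i = 1).card = r) ∧
  (∀ (ι ι' : Type) [Fintype ι] [DecidableEq ι] [Fintype ι'] [DecidableEq ι'] (G : Matrix ι ι ℤ)
    (G' : Matrix ι' ι' ℤ) (r : ℕ), Equi G' G → Sig G r → Sig G' r) ∧
  ∀ (ι : Type) [Fintype ι] [DecidableEq ι] (H : Matrix ι ι ℤ) (r : ℕ),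
    Sig (osum HU H) r → Sig (osum HI H) r

/-- REC: `U ⊕ H` is determined by `I₁,₁ ⊕ H` -/
def StRec : Prop :=
  ∀ (ι ι' : Type) [Fintype ι] [DecidableEq ι] [Fintype ι'] [DecidableEq ι'] (H : Matrix ι ι ℤ)
    (H' : Matrix ι' ι' ℤ), (∀ i j, H i j = H j i) → (∀ i j, H' i j = H' j i) → Ev H → Ev H' →
    IsUnit H.det → IsUnit H'.det →
    Equi (osum HI H') (osum HI H) → Equi (osum HU H') (osum HU H)

/-- ISO: uniqueness of the lattice -/
def StIso : Prop :=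
  ∀ (ι ι' : Type) [Fintype ι] [DecidableEq ι] [Fintype ι'] [DecidableEq ι'] (G : Matrix ι ι ℤ)
    (G' : Matrix ι' ι' ℤ), IsK3L G → IsK3L G' → Equi G' G

/-- MOD: the model -/
def StMod : Prop :=
  ∃ N : Matrix (Fin 8 ⊕ Fin 8) (Fin 8 ⊕ Fin 8) ℤ, Good N ∧ IsK3L (UU N)

/-- EICH0: the criterion of Eichler for a lattice with two orthogonal hyperbolic pairs -/
def StEich0 : Prop :=
  ∀ (ι : Type) [Fintype ι] [DecidableEq ι] (G : Matrix ι ι ℤ), (∀ i j, G i j = G j i) → Ev G →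
    ∀ e f e' f' : ι → ℤ, bil G e e = 0 → bil G f f = 0 → bil G e f = 1 →
      bil G e' e' = 0 → bil G f' f' = 0 → bil G e' f' = 1 →
      bil G e e' = 0 → bil G e f' = 0 → bil G f e' = 0 → bil G f f' = 0 →
      ∀ (v : ι → ℤ) (d : ℤ), Prim G v → bil G v v = 2 * d →
        ∃ g, Isom G G g ∧ act g v = d • e + f

/-- EICH: primitive vectors of the same norm are conjugate -/
def StEich : Prop :=
  ∀ (ι : Type) [Fintype ι] [DecidableEq ι] (G : Matrix ι ι ℤ), IsK3L G →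
    ∀ v v' : ι → ℤ, Prim G v → Prim G v' → bil G v v = bil G v' v' →
      ∃ g, Isom G G g ∧ act g v = v'

/-! ### orbits in the model -/

/-- KRO: subgroups of `ℂ` with three generators -/
def StKro : Prop :=
  (∀ c : Fin 3 → ℂ, (c 1 * conj (c 2)).im ≠ 0 → ∀ α β : ℝ, c 0 = α * c 1 + β * c 2 →
    (∀ k₀ k₁ k₂ : ℤ, (k₀ : ℝ) + k₁ * α + k₂ * β = 0 → k₁ = 0 ∧ k₂ = 0) → DT c) ∧
  (∀ c : Fin 3 → ℂ, LinearIndependent ℝ ![vre c, vim c] → ¬ DT c →
    ∃ (l : ℂ) (k : Fin 3 → ℤ), l ≠ 0 ∧ vim (l • c) = cs ℝ k) ∧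
  Dense {c : Fin 3 → ℂ | DT c}

/-- F: over a dense triple the closure of the orbit contains the whole fibre -/
def StF : Prop :=
  ∀ (κ : Type) [Fintype κ] [DecidableEq κ] (N : Matrix κ κ ℤ), Good N →
    ∀ s p : Ix κ → ℂ, IsPer (UU N) s → DT (pC s) → pC p = pC s → bil (UU N) p p = 0 →
      bil (UU N) p (vcj p) = bil (UU N) s (vcj s) → p ∈ Cl (UU N) ∅ s

/-- G: over a dense triple the orbit is dense -/
def StG : Prop :=
  ∀ (κ : Type) [Fintype κ] [DecidableEq κ] (N : Matrix κ κ ℤ), Good N →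
    ∀ s p : Ix κ → ℂ, IsPer (UU N) s → DT (pC s) → bil (UU N) p p = 0 →
      bil (UU N) p (vcj p) = bil (UU N) s (vcj s) → p ∈ Cl (UU N) ∅ s

/-- A: the step along a line -/
def StA : Prop :=
  ∀ (κ : Type) [Fintype κ] [DecidableEq κ] (N : Matrix κ κ ℤ), Good N →
    ∀ s : Ix κ → ℂ, IsPer (UU N) s → NoIso (UU N) s → NoInt s → ¬ DT (pC s) →
      ∃ p ∈ Cl (UU N) ∅ s, NoInt p ∧ Wide (pN p)

/-- B: a dense triple for points in general position -/
def StB : Prop :=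
  ∀ (κ : Type) [Fintype κ] [DecidableEq κ] (N : Matrix κ κ ℤ), Good N →
    ∀ s : Ix κ → ℂ, IsPer (UU N) s → NoInt s → Wide (pN s) →
      ∃ g, Isom (UU N) (UU N) g ∧ DT (pC (act g s))

/-- FB: the fibre step for the stabiliser of `vd` -/
def StFB : Prop :=
  ∀ (κ : Type) [Fintype κ] [DecidableEq κ] (N : Matrix κ κ ℤ), Good N →
    ∀ (d : ℤ) (b b' : Ix κ → ℝ), IsPer (UU N) (pt (vd κ d) b) →
      (∀ k₀ k₁ : ℤ, k₀ * pC b 0 + k₁ * pC b 1 = 0 → k₀ = 0 ∧ k₁ = 0) →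
      IsPer (UU N) (pt (vd κ d) b') → pC b' 0 = pC b 0 → pC b' 1 = pC b 1 →
      pt (vd κ d) b' ∈ Cl (UU N) {vd κ d} (pt (vd κ d) b)

/-- GB: the orbit of the stabiliser of `vd` is dense -/
def StGB : Prop :=
  ∀ (κ : Type) [Fintype κ] [DecidableEq κ] (N : Matrix κ κ ℤ), Good N →
    ∀ (d : ℤ) (b b' : Ix κ → ℝ), IsPer (UU N) (pt (vd κ d) b) → NoIso (UU N) (pt (vd κ d) b) →
      IsPer (UU N) (pt (vd κ d) b') → pt (vd κ d) b' ∈ Cl (UU N) {vd κ d} (pt (vd κ d) b)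

/-! ### orbits -/

/-- ORB A: planes without integral vectors -/
def StOrbA : Prop :=
  ∀ (ι : Type) [Fintype ι] [DecidableEq ι] (G : Matrix ι ι ℤ), IsK3L G →
    ∀ s p : ι → ℂ, IsPer G s → NoIso G s → NoInt s → bil G p p = 0 →
      bil G p (vcj p) = bil G s (vcj s) → p ∈ Cl G ∅ s

/-- ORB B: planes with an integral vector -/
def StOrbB : Prop :=
  ∀ (ι : Type) [Fintype ι] [DecidableEq ι] (G : Matrix ι ι ℤ), IsK3L G →
    ∀ (v : ι → ℤ) (b b' : ι → ℝ), Prim G v → IsPer G (pt v b) → NoIso G (pt v b) →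
      IsPer G (pt v b') → pt v b' ∈ Cl G {v} (pt v b)

/-- NORM: the primitive vector of a plane with an integral vector -/
def StNorm : Prop :=
  ∀ (ι : Type) [Fintype ι] [DecidableEq ι] (G : Matrix ι ι ℤ), IsUnit G.det →
    ∀ s : ι → ℂ, ¬ NoInt s → ∃ (l : ℂ) (v : ι → ℤ) (b : ι → ℝ), l ≠ 0 ∧ Prim G v ∧ l • s = pt v b

/-- GEN A: generic periods orthogonal to the `m a`, if the complement contains three orthogonal
hyperbolic pairs up to a factor -/
def StGenA : Prop :=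
  ∀ (ι μ : Type) [Fintype ι] [DecidableEq ι] (G : Matrix ι ι ℤ), (∀ i j, G i j = G j i) →
    ∀ (m : μ → ι → ℤ) (e f : Fin 3 → ι → ℤ) (k : ℤ), k ≠ 0 → (∀ i j, bil G (e i) (e j) = 0) →
      (∀ i j, bil G (f i) (f j) = 0) → (∀ i j, bil G (e i) (f j) = if i = j then k else 0) →
      (∀ i a, bil G (e i) (m a) = 0) → (∀ i a, bil G (f i) (m a) = 0) →
      ∃ p : ι → ℂ, IsPer G p ∧ NoInt p ∧ Gen G m p

/-- GEN B: generic periods `v + i w` orthogonal to the `m a` -/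
def StGenB : Prop :=
  ∀ (ι μ : Type) [Fintype ι] [DecidableEq ι] (G : Matrix ι ι ℤ), (∀ i j, G i j = G j i) →
    ∀ (m : μ → ι → ℤ) (v e f : ι → ℤ), 0 < bil G v v → bil G e e = 0 → bil G f f = 0 →
      bil G e f ≠ 0 → bil G v e = 0 → bil G v f = 0 → (∀ a, bil G v (m a) = 0) →
      (∀ a, bil G e (m a) = 0) → (∀ a, bil G f (m a) = 0) →
      ∃ w : ι → ℝ, IsPer G (pt v w) ∧ Gen G m (pt v w) ∧
        ∀ (y : ι → ℤ) (q : ℚ), bil G w (cs ℝ y) ^ 2 = q → bil G w (cs ℝ y) = 0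

end Vale.Agent.P290Z.Lat
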