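import Vale.Agent.P290Z.Lat.GeoSpec

/-! P290Z, part III: the lattice of a K3 surface, assembly. -/

namespace Vale.Agent.P290Z.Lat

/-- LAT from its three steps -/
theorem lat (hE : StEvenU) (hS : StSigU) (hR : StRank) : Top.StLat := fun Z => by
  obtain ⟨N, U, h⟩ := hE Z
  exact ⟨N, U, U.G_symm, h, U.unit, by rw [Fintype.card_fin, hR Z N ⟨U⟩], hS Z N U⟩

end Vale.Agent.P290Z.Lat
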